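import Vale.Agent.P093.MathlibUsed

open Filter Topology Set
open scoped ENNReal ComplexOrder

namespace Vale.Agent.P093

section Comparison

variable (A : Type*) [CStarAlgebra A] [PartialOrder A] [StarOrderedRing A]

/-- Tracial states of a unital C*-algebra `A`. -/
structure TracialState where
  toFun : A →ₗ[ℂ] ℂ
  map_one : toFun 1 = 1
  nonneg : ∀ a : A, 0 ≤ toFun (star a * a)
  tracial : ∀ a b : A, toFun (a * b) = toFun (b * a)

variable {A}

/-- `(τ ⊗ Tr)(a)` for `a ∈ M_n(A)`, with `Tr` the unnormalized trace. -/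
noncomputable def traceEval (τ : TracialState A) {n : ℕ} (a : CStarMatrix (Fin n) (Fin n) A) : ℝ :=
  (∑ i, τ.toFun (a i i)).re

set_option backward.isDefEq.respectTransparency false in
/-- `d_τ(a) = lim_m (τ ⊗ Tr)(a^{1/m})` for positive `a ∈ M_n(A)`. -/
noncomputable def dTau (τ : TracialState A) {n : ℕ} (a : CStarMatrix (Fin n) (Fin n) A) : ℝ :=
  limUnder atTop (fun m : ℕ => traceEval τ (cfc (fun t : ℝ => t ^ (1 / (m : ℝ))) a))

/-- Cuntz subequivalence `a ≾ b`, for `a ∈ M_n(A)` and `b ∈ M_m(A)`: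
`x_k^* b x_k → a` for some `m × n` matrices `x_k` over `A`. -/
def CuntzLE {n m : ℕ} (a : CStarMatrix (Fin n) (Fin n) A) (b : CStarMatrix (Fin m) (Fin m) A) :
    Prop :=
  ∃ x : ℕ → CStarMatrix (Fin m) (Fin n) A,
    Tendsto (fun k => (x k).conjTranspose * b * x k) atTop (𝓝 a)

variable (A)

/-- `r ≥ 0` is a comparison bound for `A`. -/
def IsComparisonBound (r : ℝ) : Prop :=
  0 ≤ r ∧ ∀ (n m : ℕ) (a : CStarMatrix (Fin n) (Fin n) A) (b : CStarMatrix (Fin m) (Fin m) A),
    0 ≤ a → 0 ≤ b → (∀ τ : TracialState A, dTau τ a + r < dTau τ b) → CuntzLE a b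

/-- The radius of comparison `rc(A) ∈ [0,∞]`. -/
noncomputable def radiusOfComparison : ℝ≥0∞ :=
  ⨅ r : {r : ℝ // IsComparisonBound A r}, ENNReal.ofReal r.1

end Comparison

end Vale.Agent.P093
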