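import Vale.Agent.P093.MeanDim

/-!
Covering dimension as an element of `[0, ∞]`.
-/

open scoped ENNReal

namespace Vale.Agent.P093

/-- covering dimension in `[0, ∞]`: the supremum of `D(𝒰)` over all finite open covers `𝒰` -/
noncomputable def coveringDim (K : Type*) [TopologicalSpace K] : ℝ≥0∞ :=
  ⨆ 𝒰 : {𝒰 : Set (Set K) // IsFinOpenCover 𝒰}, (coverDim 𝒰.1 : ℝ≥0∞)

end Vale.Agent.P093
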