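import Vale.Agent.P093.Comparison
import Vale.Agent.P093.CoverDimDef

open Filter Set Topology
open scoped ENNReal

namespace Vale.Agent.P093

universe u v

section CrossedProduct

variable {X : Type u} [TopologicalSpace X] [CompactSpace X]

/-- `p : C(X) → A` is injective and `A` is generated as a C*-algebra by its range and a unitary
`u` with `u p(f) u* = p(f ∘ h⁻¹)`. -/
def IsCovariantPair (h : X ≃ₜ X) {A : Type v} [CStarAlgebra A] (p : C(X, ℂ) → A) (u : A) : Prop :=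
  Function.Injective p ∧ star u * u = 1 ∧ u * star u = 1 ∧
    (∀ f, u * p f * star u = p (f.comp (h.symm : C(X, X)))) ∧
    Dense (StarAlgebra.adjoin ℂ (range p ∪ {u}) : Set A)

/-- `A` is a crossed product of `C(X)` by `h`: it is generated by a copy `π` of `C(X)` and a
unitary that implements `h`. When `h` is minimal and `X` is infinite, `C(X) ⋊_h ℤ` is simple, so
this says exactly that `A` is isomorphic to `C(X) ⋊_h ℤ`. -/
def IsCrossed (h : X ≃ₜ X) (A : Type v) [CStarAlgebra A] : Prop :=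
  ∃ (π : C(X, ℂ) →⋆ₐ[ℂ] A) (u : A), IsCovariantPair h π u

/-- `b ≤ rc(A)` for every crossed product `A` of `h`. -/
def RcGE (h : X ≃ₜ X) (b : ℝ≥0∞) : Prop :=
  ∀ (A : Type v) [CStarAlgebra A] [PartialOrder A] [StarOrderedRing A],
    IsCrossed h A → b ≤ radiusOfComparison A

end CrossedProduct

section Shift

variable {X K Y : Type*} [TopologicalSpace X] [TopologicalSpace K] [TopologicalSpace Y]

/-- `c` embeds `(X, h)` in `(K^ℤ × Y, shift × g)`. -/
def IsEmbeddedIn (h : X ≃ₜ X) (g : Y ≃ₜ Y) (c : X → (ℤ → K) × Y) : Prop :=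
  Continuous c ∧ Function.Injective c ∧ ∀ x, c (h x) = (fun i => (c x).1 (i + 1), g (c x).2)

/-- For every `ε > 0` there is `N > 0` such that near each `y : Y` there are finitely many
continuous letters `γ : Y → K` (constant ones, unless `Y` is totally disconnected) with: at most
`(ρ + ε) N` coordinates in `[0, N)` of a point of `X` are not given by one of these letters. -/
def FewOutside (c : X → (ℤ → K) × Y) (ρ : ℝ) : Prop :=
  ∀ ε > 0, ∃ N : ℕ, 0 < N ∧ ∀ y : Y, ∃ V ∈ 𝓝 y, ∃ Γ : Set (Y → K), Γ.Finite ∧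
    (∀ γ ∈ Γ, ContinuousOn γ V ∧ (TotallyDisconnectedSpace Y ∨ ∃ p, ∀ y, γ y = p)) ∧
    ∀ x, (c x).2 ∈ V →
      ({i : ℤ | 0 ≤ i ∧ i < N ∧ ∀ γ ∈ Γ, (c x).1 i ≠ γ (c x).2}.ncard : ℝ) ≤ (ρ + ε) * N

/-- For every `ε > 0` and arbitrarily large `N` there are a point `x₀` and `J ⊆ [0, N)` with
`|J| ≥ (ρ - ε) N` such that the coordinates of `x₀` in `J` may be replaced by any elements
of `E`. -/
def ManyFree (c : X → (ℤ → K) × Y) (E : Set K) (ρ : ℝ) : Prop :=
  ∀ ε > 0, ∀ N₀ : ℕ, ∃ N : ℕ, N₀ ≤ N ∧ ∃ J ⊆ Finset.Ico (0 : ℤ) N,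
    (ρ - ε) * N ≤ J.card ∧ ∃ x₀, ∀ z : ℤ → K, (∀ i ∈ J, z i ∈ E) →
      (∀ i ∉ J, z i = (c x₀).1 i) → (z, (c x₀).2) ∈ range c

/-- `E` contains a copy of `[0,1]^q` for every integer `q ≤ dim K`. -/
def ContainsCubes (E : Set K) : Prop :=
  ∀ q : ℕ, (q : ℝ≥0∞) ≤ coveringDim K →
    ∃ e : (Fin q → unitInterval) → K, Continuous e ∧ Function.Injective e ∧ range e ⊆ E

/-- Cubes `Ψ k` in `X` along which the continuous observable `f` is free on `J k`: the pairs
`(j, s)` in `J k` have `j < N k`; along `Ψ k` the observable `f_s ∘ h^j` is the coordinate `(j, s)`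
of the cube for `(j, s) ∈ J k`, and for the other `(j, s)` with `j < N k` it has no value in the
nonempty open set `O` or it is constant; the maps `h^i ∘ Ψ k`, `i < N k`, are uniformly
equicontinuous (for the sup metric of the cube and the uniformity of `X`). -/
structure FreeCubes (h : X ≃ₜ X) {q : ℕ} (f : X → Fin q → unitInterval) (O : Set unitInterval)
    (N : ℕ → ℕ) (J : ℕ → Finset (ℕ × Fin q)) (Ψ : ℕ → (ℕ → Fin q → unitInterval) → X) : Prop where
  obs : Continuous f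
  isOpen : IsOpen O
  nonempty : O.Nonempty
  tend : Tendsto N atTop atTop
  cont : ∀ k, Continuous (Ψ k)
  lt : ∀ k, ∀ p ∈ J k, p.1 < N k
  free : ∀ k, ∀ p ∈ J k, ∀ y, f ((h ^ p.1) (Ψ k y)) p.2 = y p.1 p.2
  other : ∀ k, ∀ p : ℕ × Fin q, p.1 < N k → p ∉ J k →
    (∀ y, f ((h ^ p.1) (Ψ k y)) p.2 ∉ O) ∨ ∃ r, ∀ y, f ((h ^ p.1) (Ψ k y)) p.2 = r
  equi : ∀ 𝒰 : Set (Set X), IsFinOpenCover 𝒰 → ∃ η > 0, ∀ k, ∀ i < N k, ∀ y y',
    (∀ j s, dist (y j s) (y' j s) < η) → ∃ U ∈ 𝒰, (h ^ i) (Ψ k y) ∈ U ∧ (h ^ i) (Ψ k y') ∈ U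

end Shift

end Vale.Agent.P093
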