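import Vale.Agent.P093.MathlibUsed

open Filter Topology Set
open scoped ENNReal ComplexOrder

namespace Vale.Agent.P093

section MeanDimension

variable {X : Type*} [TopologicalSpace X]

/-- `𝒱` is a finite open cover of `X`. -/
def IsFinOpenCover (𝒱 : Set (Set X)) : Prop :=
  𝒱.Finite ∧ (∀ V ∈ 𝒱, IsOpen V) ∧ ⋃₀ 𝒱 = univ

/-- `D(𝒰)`: the least order of a finite open refinement of `𝒰`; the order of a cover is one less
than the largest number of its members with nonempty common intersection. -/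
noncomputable def coverDim (𝒰 : Set (Set X)) : ℕ :=
  sInf {d : ℕ | ∃ 𝒱 : Set (Set X), IsFinOpenCover 𝒱 ∧ (∀ V ∈ 𝒱, ∃ U ∈ 𝒰, V ⊆ U) ∧
    ∀ S ⊆ 𝒱, (⋂₀ S).Nonempty → S.encard ≤ d + 1}

/-- `𝒰^{[0,N)} = ⋁_{j < N} h^{-j} 𝒰`. -/
def iterCover (h : X ≃ₜ X) (𝒰 : Set (Set X)) (N : ℕ) : Set (Set X) :=
  {W | ∃ f : ℕ → Set X, (∀ j, f j ∈ 𝒰) ∧ W = ⋂ j ∈ Finset.range N, (⇑(h ^ j)) ⁻¹' (f j)}

/-- The mean dimension `mdim(X,h) = sup_𝒰 lim_N D(𝒰^{[0,N)})/N`, the supremum over finite open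
covers. The limit exists by subadditivity; it is written as a limsup. -/
noncomputable def meanDim (h : X ≃ₜ X) : ℝ≥0∞ :=
  ⨆ 𝒰 : {𝒰 : Set (Set X) // IsFinOpenCover 𝒰},
    limsup (fun N : ℕ => (coverDim (iterCover h 𝒰.1 N) : ℝ≥0∞) / N) atTop

/-- `h` is a minimal homeomorphism: all orbits are dense. -/
def IsMinimalHomeo (h : X ≃ₜ X) : Prop :=
  ∀ x : X, Dense (Set.range fun n : ℤ => (h ^ n) x)

end MeanDimension

end Vale.Agent.P093
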