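import Vale.Agent.P093.LemmaT
import Mathlib.Analysis.Matrix.PosDef

/-!
The positive contraction `beta u = 1 - (|u| - u.σ) / 2`, which equals `hopf u` on the unit sphere
and has trace at least one on the unit ball.
-/

open Matrix
open scoped ComplexOrder

namespace Vale.Agent.P093

noncomputable section

/-- `1 - (|u| - u.σ) / 2` -/
def betaM (u : EuclideanSpace ℝ (Fin 3)) : Matrix (Fin 2) (Fin 2) ℂ :=
  !![((1 - ‖u‖ / 2 + u 2 / 2 : ℝ) : ℂ), ((u 0 : ℝ) - (u 1 : ℝ) * Complex.I) / 2;
    ((u 0 : ℝ) + (u 1 : ℝ) * Complex.I) / 2, ((1 - ‖u‖ / 2 - u 2 / 2 : ℝ) : ℂ)]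

theorem betaM_sphere {u : EuclideanSpace ℝ (Fin 3)} (hu : ‖u‖ = 1) : betaM u = hopf u := by
  unfold betaM hopf
  rw [hu]
  ext a b
  fin_cases a <;> fin_cases b
  · simp only [Fin.zero_eta, Matrix.of_apply, Matrix.cons_val_zero]
    push_cast; ring
  · rfl
  · rfl
  · simp only [Fin.mk_one, Matrix.of_apply, Matrix.cons_val_one]
    push_cast; ring

theorem betaM_trace (u : EuclideanSpace ℝ (Fin 3)) : (betaM u).trace = ((2 - ‖u‖ : ℝ) : ℂ) := by
  simp only [betaM, Matrix.trace, Fin.sum_univ_two, Matrix.diag_apply, Matrix.of_apply,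
    Matrix.cons_val_zero, Matrix.cons_val_one]
  push_cast
  ring

theorem betaM_continuous : Continuous betaM := by
  apply continuous_pi
  intro a
  apply continuous_pi
  intro b
  have h : ∀ i : Fin 3, Continuous fun v : EuclideanSpace ℝ (Fin 3) => v i := by
    intro i; fun_prop
  fin_cases a <;> fin_cases b
  · exact Complex.continuous_ofReal.comp
      ((continuous_const.sub (continuous_norm.div_const 2)).add ((h 2).div_const 2))
  · exact (((Complex.continuous_ofReal.comp (h 0)).sub
      ((Complex.continuous_ofReal.comp (h 1)).mul continuous_const)).div_const 2)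
  · exact (((Complex.continuous_ofReal.comp (h 0)).add
      ((Complex.continuous_ofReal.comp (h 1)).mul continuous_const)).div_const 2)
  · exact Complex.continuous_ofReal.comp
      ((continuous_const.sub (continuous_norm.div_const 2)).sub ((h 2).div_const 2))

theorem betaM_isHermitian (u : EuclideanSpace ℝ (Fin 3)) : (betaM u).IsHermitian := by
  unfold betaM
  ext a b
  fin_cases a <;> fin_cases b <;>
    simp [Matrix.conjTranspose_apply, Complex.conj_ofReal, sub_eq_add_neg]

/-- the Cauchy-Schwarz inequality behind positivity -/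
theorem bloch_ineq (u : EuclideanSpace ℝ (Fin 3)) (x y : ℂ) :
    |u 2 * (Complex.normSq x - Complex.normSq y) +
      2 * (u 0 * (x.re * y.re + x.im * y.im) + u 1 * (x.re * y.im - x.im * y.re))| ≤
      ‖u‖ * (Complex.normSq x + Complex.normSq y) := by
  have hn : ‖u‖ ^ 2 = u 0 ^ 2 + u 1 ^ 2 + u 2 ^ 2 := by
    rw [EuclideanSpace.norm_sq_eq]
    simp [Fin.sum_univ_three, sq_abs]
  apply abs_le_of_sq_le_sq
  · rw [mul_pow, hn, Complex.normSq_apply, Complex.normSq_apply]
    set a := x.re; set b := x.im; set c := y.re; set d := y.im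
    have key : (u 0 ^ 2 + u 1 ^ 2 + u 2 ^ 2) * (a * a + b * b + (c * c + d * d)) ^ 2 -
      (u 2 * (a * a + b * b - (c * c + d * d)) +
        2 * (u 0 * (a * c + b * d) + u 1 * (a * d - b * c))) ^ 2 =
      (u 0 * (2 * (a * d - b * c)) - u 1 * (2 * (a * c + b * d))) ^ 2 +
      (u 0 * (a * a + b * b - (c * c + d * d)) - u 2 * (2 * (a * c + b * d))) ^ 2 +
      (u 1 * (a * a + b * b - (c * c + d * d)) - u 2 * (2 * (a * d - b * c))) ^ 2 := by ring
    nlinarith [key, sq_nonneg (u 0 * (2 * (a * d - b * c)) - u 1 * (2 * (a * c + b * d))),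
      sq_nonneg (u 0 * (a * a + b * b - (c * c + d * d)) - u 2 * (2 * (a * c + b * d))),
      sq_nonneg (u 1 * (a * a + b * b - (c * c + d * d)) - u 2 * (2 * (a * d - b * c)))]
  · exact mul_nonneg (norm_nonneg _) (add_nonneg (Complex.normSq_nonneg _) (Complex.normSq_nonneg _))

theorem betaM_quad (u : EuclideanSpace ℝ (Fin 3)) (x : Fin 2 → ℂ) :
    star x ⬝ᵥ (betaM u *ᵥ x) =
      (((1 - ‖u‖ / 2) * (Complex.normSq (x 0) + Complex.normSq (x 1)) +
        (u 2 * (Complex.normSq (x 0) - Complex.normSq (x 1)) +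
        2 * (u 0 * ((x 0).re * (x 1).re + (x 0).im * (x 1).im) +
          u 1 * ((x 0).re * (x 1).im - (x 0).im * (x 1).re))) / 2 : ℝ) : ℂ) := by
  apply Complex.ext
  · simp only [dotProduct, Matrix.mulVec, Fin.sum_univ_two, betaM, Matrix.of_apply,
      Matrix.cons_val_zero, Matrix.cons_val_one, Pi.star_apply, RCLike.star_def, Complex.add_re,
      Complex.mul_re, Complex.conj_re, Complex.conj_im, Complex.add_im, Complex.mul_im,
      Complex.ofReal_re, Complex.ofReal_im, Complex.normSq_apply, Complex.div_re, Complex.div_im,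
      Complex.sub_re, Complex.sub_im, Complex.I_re, Complex.I_im, Complex.re_ofNat,
      Complex.im_ofNat]
    ring
  · simp only [dotProduct, Matrix.mulVec, Fin.sum_univ_two, betaM, Matrix.of_apply,
      Matrix.cons_val_zero, Matrix.cons_val_one, Pi.star_apply, RCLike.star_def, Complex.add_re,
      Complex.mul_re, Complex.conj_re, Complex.conj_im, Complex.add_im, Complex.mul_im,
      Complex.ofReal_re, Complex.ofReal_im, Complex.normSq_apply, Complex.div_re, Complex.div_im,
      Complex.sub_re, Complex.sub_im, Complex.I_re, Complex.I_im, Complex.re_ofNat,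
      Complex.im_ofNat]
    ring

theorem betaM_posSemidef {u : EuclideanSpace ℝ (Fin 3)} (hu : ‖u‖ ≤ 1) : (betaM u).PosSemidef := by
  apply Matrix.PosSemidef.of_dotProduct_mulVec_nonneg (betaM_isHermitian u)
  intro x
  rw [betaM_quad]
  rw [Complex.zero_le_real]
  have h := (abs_le.mp (bloch_ineq u (x 0) (x 1))).1
  have h2 : 0 ≤ Complex.normSq (x 0) + Complex.normSq (x 1) :=
    add_nonneg (Complex.normSq_nonneg _) (Complex.normSq_nonneg _)
  nlinarith [mul_nonneg (sub_nonneg.mpr hu) h2]

theorem one_sub_betaM_posSemidef (u : EuclideanSpace ℝ (Fin 3)) :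
    (1 - betaM u).PosSemidef := by
  apply Matrix.PosSemidef.of_dotProduct_mulVec_nonneg
    (Matrix.isHermitian_one.sub (betaM_isHermitian u))
  intro x
  rw [Matrix.sub_mulVec, dotProduct_sub, betaM_quad, Matrix.one_mulVec]
  have h1 : star x ⬝ᵥ x = ((Complex.normSq (x 0) + Complex.normSq (x 1) : ℝ) : ℂ) := by
    simp only [dotProduct, Fin.sum_univ_two, Pi.star_apply, RCLike.star_def]
    rw [mul_comm, Complex.mul_conj, mul_comm, Complex.mul_conj]
    push_cast
    rfl
  rw [h1, ← Complex.ofReal_sub, Complex.zero_le_real]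
  have h := (abs_le.mp (bloch_ineq u (x 0) (x 1))).2
  nlinarith

end

end Vale.Agent.P093
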