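import Vale.Agent.P093.MdimDefs
import Mathlib.Topology.PartitionOfUnity
import Mathlib.Topology.Separation.Regular
import Mathlib.Data.Fintype.Powerset
import Mathlib.Algebra.BigOperators.Fin

/-!
Ostrand's coloured covers.
-/

open Set Filter

namespace Vale.Agent.P093

noncomputable section

open scoped Classical in
/-- number of colours missed by a point -/
def misses {K : Type*} {k : ℕ} (C : Fin k → Set (Set K)) (x : K) : ℕ :=
  ∑ c, if x ∈ ⋃₀ C c then 0 else 1

/-- a coloured family of small open sets such that every point misses at most `q` colours -/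
structure Colored {K : Type*} [TopologicalSpace K] (W : Set (Set K)) (q k : ℕ)
    (C : Fin k → Set (Set K)) : Prop where
  fin : ∀ c, (C c).Finite
  op : ∀ c, ∀ s ∈ C c, IsOpen s
  ref : ∀ c, Refines (C c) W
  disj : ∀ c, ∀ s ∈ C c, ∀ t ∈ C c, (s ∩ t).Nonempty → s = t
  miss : ∀ x, misses C x ≤ q

theorem misses_le {K : Type*} {k : ℕ} (C : Fin k → Set (Set K)) (x : K) : misses C x ≤ k := by
  classical
  unfold misses
  calc (∑ c, if x ∈ ⋃₀ C c then 0 else 1) ≤ ∑ _c : Fin k, 1 := by
        apply Finset.sum_le_sum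
        intro c _
        split_ifs <;> simp
    _ = k := by simp

theorem colored_empty {K : Type*} [TopologicalSpace K] (W : Set (Set K)) {q k : ℕ} (h : k ≤ q) :
    Colored W q k (fun _ => ∅) where
  fin := fun _ => Set.finite_empty
  op := fun _ s hs => absurd hs (Set.notMem_empty s)
  ref := fun _ s hs => absurd hs (Set.notMem_empty s)
  disj := fun _ s hs => absurd hs (Set.notMem_empty s)
  miss := fun x => (misses_le _ x).trans h

/-- first step: `q + 1` colours -/
theorem colored_base {K : Type*} [TopologicalSpace K] [NormalSpace K] {W V : Set (Set K)} {q : ℕ}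
    (hV : IsFinCover V) (hr : Refines V W)
    (hq : ∀ x : K, ∀ S : Finset (Set K), ↑S ⊆ V → (∀ s ∈ S, x ∈ s) → S.card ≤ q + 1) :
    ∃ C : Fin (q + 1) → Set (Set K), Colored W q (q + 1) C := by
  classical
  have : Finite V := hV.1.to_subtype
  have : Fintype V := Fintype.ofFinite V
  obtain ⟨f, hf⟩ := PartitionOfUnity.exists_isSubordinate_of_locallyFinite (s := (Set.univ : Set K))
    isClosed_univ (fun v : V => (v : Set K)) (fun v => hV.2.1 v v.2) (locallyFinite_of_finite _)
    (by
      intro x _
      have : x ∈ ⋃₀ V := by rw [hV.2.2]; trivial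
      obtain ⟨v, hv, hxv⟩ := this
      exact Set.mem_iUnion.mpr ⟨⟨v, hv⟩, hxv⟩)
  have hsum : ∀ x, ∑ v, f v x = 1 := by
    intro x
    have := f.sum_eq_one (x := x) (Set.mem_univ x)
    rwa [finsum_eq_sum_of_fintype] at this
  let US : Finset V → Set K := fun S => {x | (∀ i ∈ S, 0 < f i x) ∧ ∀ i ∈ S, ∀ i' ∉ S, f i' x < f i x}
  have hUo : ∀ S, IsOpen (US S) := by
    intro S
    have h1 : US S = (⋂ i ∈ S, {x | 0 < f i x}) ∩ ⋂ i ∈ S, ⋂ i' ∈ (Sᶜ : Finset V),
        {x | f i' x < f i x} := by
      ext x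
      simp [US]
    rw [h1]
    apply IsOpen.inter
    · apply isOpen_biInter_finset
      intro i _
      exact isOpen_lt continuous_const (f i).continuous
    · apply isOpen_biInter_finset
      intro i _
      apply isOpen_biInter_finset
      intro i' _
      exact isOpen_lt (f i').continuous (f i).continuous
  have hmem : ∀ i x, 0 < f i x → x ∈ (i : Set K) := by
    intro i x h
    apply hf i
    apply subset_tsupport
    exact h.ne'
  refine ⟨fun c => {s | ∃ S : Finset V, S.card = c + 1 ∧ s = US S}, ?_, ?_, ?_, ?_, ?_⟩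
  · intro c
    apply (Set.finite_range US).subset
    rintro s ⟨S, _, rfl⟩
    exact ⟨S, rfl⟩
  · rintro c s ⟨S, _, rfl⟩
    exact hUo S
  · rintro c s ⟨S, hS, rfl⟩
    have hne : S.Nonempty := by
      rw [← Finset.card_pos, hS]; omega
    obtain ⟨i, hi⟩ := hne
    obtain ⟨w, hw, hiw⟩ := hr i i.2
    exact ⟨w, hw, fun x hx => hiw (hmem i x (hx.1 i hi))⟩
  · rintro c s ⟨S, hS, rfl⟩ t ⟨T, hT, rfl⟩ ⟨x, hxS, hxT⟩
    by_contra hne
    have hST : S ≠ T := fun h => hne (by rw [h])
    have hcard : S.card = T.card := by rw [hS, hT]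
    have h1 : ∃ i ∈ S, i ∉ T := by
      by_contra hcon
      push Not at hcon
      exact hST (Finset.eq_of_subset_of_card_le hcon hcard.ge)
    have h2 : ∃ i ∈ T, i ∉ S := by
      by_contra hcon
      push Not at hcon
      exact hST (Finset.eq_of_subset_of_card_le hcon hcard.le).symm
    obtain ⟨i, hiS, hiT⟩ := h1
    obtain ⟨j, hjT, hjS⟩ := h2
    have a1 := hxS.2 i hiS j hjS
    have a2 := hxT.2 j hjT i hiT
    exact absurd (a1.trans a2) (lt_irrefl _)
  · intro x
    let S : Finset V := Finset.univ.filter fun i => 0 < f i x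
    have hS1 : S.Nonempty := by
      by_contra hcon
      rw [Finset.not_nonempty_iff_eq_empty] at hcon
      have : ∀ v, f v x = 0 := by
        intro v
        have : v ∉ S := by rw [hcon]; simp
        have h2 : ¬ 0 < f v x := by simpa [S] using this
        exact le_antisymm (not_lt.mp h2) (f.nonneg v x)
      have h3 := hsum x
      simp [this] at h3
    have hS2 : S.card ≤ q + 1 := by
      have := hq x (S.map ⟨Subtype.val, Subtype.val_injective⟩) (by
        intro s hs
        simp only [Finset.coe_map, Function.Embedding.coeFn_mk, Set.mem_image] at hs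
        obtain ⟨v, _, rfl⟩ := hs
        exact v.2) (by
        intro s hs
        rw [Finset.mem_map] at hs
        obtain ⟨v, hv, rfl⟩ := hs
        apply hmem
        simpa [S] using hv)
      rwa [Finset.card_map] at this
    have hc : S.card - 1 < q + 1 := by omega
    have hcp := Finset.card_pos.mpr hS1
    have hx : x ∈ ⋃₀ {s | ∃ S' : Finset V, S'.card = ((⟨S.card - 1, hc⟩ : Fin (q + 1)) : ℕ) + 1 ∧
        s = US S'} := by
      refine ⟨US S, ⟨S, ?_, rfl⟩, ?_, ?_⟩
      · simp only; omega
      · intro i hi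
        simpa [S] using hi
      · intro i hi i' hi'
        have h1 : 0 < f i x := by simpa [S] using hi
        have h2 : ¬ 0 < f i' x := by simpa [S] using hi'
        linarith
    unfold misses
    rw [← Finset.add_sum_erase _ _ (Finset.mem_univ (⟨S.card - 1, hc⟩ : Fin (q + 1)))]
    rw [if_pos hx, zero_add]
    refine (Finset.sum_le_sum (g := fun _ => 1) (fun c _ => by split_ifs <;> simp)).trans ?_
    rw [Finset.sum_const, Finset.card_erase_of_mem (Finset.mem_univ _), Finset.card_univ,
      Fintype.card_fin]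
    simp

/-- disjoint open neighbourhoods of finitely many pairwise disjoint closed sets -/
theorem exists_disjoint_nhds {K ι : Type*} [TopologicalSpace K] [NormalSpace K] [Finite ι]
    (F : ι → Set K) (hF : ∀ i, IsClosed (F i)) (hd : ∀ i j, i ≠ j → Disjoint (F i) (F j)) :
    ∃ N : ι → Set K, (∀ i, IsOpen (N i)) ∧ (∀ i, F i ⊆ N i) ∧
      ∀ i j, i ≠ j → Disjoint (N i) (N j) := by
  classical
  have h : ∀ i j : ι, i ≠ j → ∃ U V : Set K, IsOpen U ∧ IsOpen V ∧ F i ⊆ U ∧ F j ⊆ V ∧
      Disjoint U V := fun i j hij => by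
    obtain ⟨U, V, hU, hV, h1, h2, h3⟩ := normal_separation (hF i) (hF j) (hd i j hij)
    exact ⟨U, V, hU, hV, h1, h2, h3⟩
  choose! U V hU hV h1 h2 h3 using h
  refine ⟨fun i => ⋂ j : {j : ι // j ≠ i}, (U i j ∩ V j i), ?_, ?_, ?_⟩
  · intro i
    apply isOpen_iInter_of_finite
    rintro ⟨j, hj⟩
    exact (hU i j hj.symm).inter (hV j i hj)
  · intro i x hx
    rw [Set.mem_iInter]
    rintro ⟨j, hj⟩
    exact ⟨h1 i j hj.symm hx, h2 j i hj hx⟩
  · intro i j hij
    rw [Set.disjoint_left]
    intro x hx hx'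
    rw [Set.mem_iInter] at hx hx'
    have a := (hx ⟨j, hij.symm⟩).1
    have b := (hx' ⟨i, hij⟩).2
    exact Set.disjoint_left.mp (h3 i j hij) a b

/-- one more colour -/
theorem colored_step {K : Type*} [TopologicalSpace K] [NormalSpace K] {W : Set (Set K)} {q k : ℕ}
    (hk : q < k) {C : Fin k → Set (Set K)} (hC : Colored W q k C) :
    ∃ C' : Fin (k + 1) → Set (Set K), Colored W q (k + 1) C' := by
  classical
  -- sets of colours of cardinality `k - q`
  let I := {A : Finset (Fin k) // A.card = k - q}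
  have hIne : ∀ A : I, (A : Finset (Fin k)).Nonempty := by
    intro A
    rw [← Finset.card_pos, A.2]
    omega
  let i0 : I → Fin k := fun A => (hIne A).choose
  have hi0 : ∀ A : I, i0 A ∈ (A : Finset (Fin k)) := fun A => (hIne A).choose_spec
  let F : I → Set K := fun A => {x | ∀ c, c ∉ (A : Finset (Fin k)) → x ∉ ⋃₀ C c}
  have hUo : ∀ c, IsOpen (⋃₀ C c) := fun c => isOpen_sUnion (hC.op c)
  have hFc : ∀ A, IsClosed (F A) := by
    intro A
    have : F A = ⋂ c, ⋂ (_ : c ∉ (A : Finset (Fin k))), (⋃₀ C c)ᶜ := by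
      ext x; simp [F]
    rw [this]
    exact isClosed_iInter fun c => isClosed_iInter fun _ => (hUo c).isClosed_compl
  have hmissF : ∀ A x, x ∈ F A → misses C x = q ∧
      (Finset.univ.filter fun c => x ∉ ⋃₀ C c) = (A : Finset (Fin k))ᶜ := by
    intro A x hx
    have h1 : misses C x = (Finset.univ.filter fun c => x ∉ ⋃₀ C c).card := by
      unfold misses
      rw [Finset.card_filter]
      apply Finset.sum_congr rfl
      intro c _
      by_cases h : x ∈ ⋃₀ C c <;> simp [h]
    have h2 : (A : Finset (Fin k))ᶜ ⊆ Finset.univ.filter fun c => x ∉ ⋃₀ C c := by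
      intro c hc
      rw [Finset.mem_compl] at hc
      simp only [Finset.mem_filter, Finset.mem_univ, true_and]
      exact hx c hc
    have h3 : ((A : Finset (Fin k))ᶜ).card = q := by
      rw [Finset.card_compl, A.2, Fintype.card_fin]
      omega
    have h4 := hC.miss x
    rw [h1] at h4
    have h5 : (A : Finset (Fin k))ᶜ = Finset.univ.filter fun c => x ∉ ⋃₀ C c :=
      Finset.eq_of_subset_of_card_le h2 (by rw [h3]; exact h4)
    refine ⟨?_, h5.symm⟩
    rw [h1, ← h5, h3]
  have hFd : ∀ A B, A ≠ B → Disjoint (F A) (F B) := by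
    intro A B hAB
    rw [Set.disjoint_left]
    intro x hxA hxB
    apply hAB
    apply Subtype.ext
    have := (hmissF A x hxA).2.symm.trans (hmissF B x hxB).2
    exact compl_injective this
  obtain ⟨N, hNo, hNF, hNd⟩ := exists_disjoint_nhds F hFc hFd
  let newC : Set (Set K) := {s | ∃ A : I, ∃ t ∈ C (i0 A), s = N A ∩ t}
  refine ⟨Fin.snoc C newC, ?_, ?_, ?_, ?_, ?_⟩
  · intro c
    refine Fin.lastCases ?_ (fun c => ?_) c
    · rw [Fin.snoc_last]
      have : newC = ⋃ A : I, (fun t => N A ∩ t) '' C (i0 A) := by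
        ext s
        simp only [newC, Set.mem_setOf_eq, Set.mem_iUnion, Set.mem_image]
        constructor
        · rintro ⟨A, t, ht, rfl⟩; exact ⟨A, t, ht, rfl⟩
        · rintro ⟨A, t, ht, rfl⟩; exact ⟨A, t, ht, rfl⟩
      rw [this]
      exact Set.finite_iUnion fun A => (hC.fin _).image _
    · rw [Fin.snoc_castSucc]
      exact hC.fin c
  · intro c
    refine Fin.lastCases ?_ (fun c => ?_) c
    · rw [Fin.snoc_last]
      rintro s ⟨A, t, ht, rfl⟩
      exact (hNo A).inter (hC.op _ t ht)
    · rw [Fin.snoc_castSucc]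
      exact hC.op c
  · intro c
    refine Fin.lastCases ?_ (fun c => ?_) c
    · rw [Fin.snoc_last]
      rintro s ⟨A, t, ht, rfl⟩
      obtain ⟨w, hw, htw⟩ := hC.ref _ t ht
      exact ⟨w, hw, Set.inter_subset_right.trans htw⟩
    · rw [Fin.snoc_castSucc]
      exact hC.ref c
  · intro c
    refine Fin.lastCases ?_ (fun c => ?_) c
    · rw [Fin.snoc_last]
      rintro s ⟨A, t, ht, rfl⟩ s' ⟨B, t', ht', rfl⟩ ⟨x, hx, hx'⟩
      have hAB : A = B := by
        by_contra hne
        exact Set.disjoint_left.mp (hNd A B hne) hx.1 hx'.1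
      subst hAB
      rw [hC.disj _ t ht t' ht' ⟨x, hx.2, hx'.2⟩]
    · rw [Fin.snoc_castSucc]
      exact hC.disj c
  · intro x
    have h1 : misses (Fin.snoc C newC : Fin (k + 1) → Set (Set K)) x =
        misses C x + if x ∈ ⋃₀ newC then 0 else 1 := by
      unfold misses
      rw [Fin.sum_univ_castSucc]
      simp only [Fin.snoc_castSucc, Fin.snoc_last]
    rw [h1]
    by_cases hlt : misses C x < q
    · split_ifs <;> omega
    · have heq : misses C x = q := le_antisymm (hC.miss x) (not_lt.mp hlt)
      have hcard : (Finset.univ.filter fun c => x ∉ ⋃₀ C c).card = q := by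
        rw [← heq]
        unfold misses
        rw [Finset.card_filter]
        apply Finset.sum_congr rfl
        intro c _
        by_cases h : x ∈ ⋃₀ C c <;> simp [h]
      let A : I := ⟨(Finset.univ.filter fun c => x ∉ ⋃₀ C c)ᶜ, by
        rw [Finset.card_compl, hcard, Fintype.card_fin]⟩
      have hxF : x ∈ F A := by
        intro c hc
        simpa [A] using hc
      have hx0 : x ∈ ⋃₀ C (i0 A) := by
        have := hi0 A
        simpa [A] using this
      obtain ⟨t, ht, hxt⟩ := hx0
      have : x ∈ ⋃₀ newC := ⟨N A ∩ t, ⟨A, t, ht, rfl⟩, hNF A hxF, hxt⟩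
      rw [if_pos this, heq, add_zero]

/-- Ostrand's theorem for finite covers -/
theorem exists_colored {K : Type*} [TopologicalSpace K] [NormalSpace K] {W V : Set (Set K)} {q : ℕ}
    (hV : IsFinCover V) (hr : Refines V W)
    (hq : ∀ x : K, ∀ S : Finset (Set K), ↑S ⊆ V → (∀ s ∈ S, x ∈ s) → S.card ≤ q + 1) (k : ℕ) :
    ∃ C : Fin k → Set (Set K), Colored W q k C := by
  rcases le_or_gt k q with h | h
  · exact ⟨_, colored_empty W h⟩
  · induction k, h using Nat.le_induction with
    | base => exact colored_base hV hr hq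
    | succ k hk ih =>
      obtain ⟨C, hC⟩ := ih
      exact colored_step (by omega) hC

end

end Vale.Agent.P093
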