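import Vale.Agent.P093.FinProp
open Filter Topology Set
open scoped ENNReal ComplexOrder
set_option linter.unusedSectionVars false
set_option linter.unusedSimpArgs false
namespace Vale.Agent.P093

section Hilbert
variable {H : Type*} [NormedAddCommGroup H] [InnerProductSpace ℂ H] [CompleteSpace H]

theorem hilbert_core {m n : ℕ} (x : Fin m → Fin n → H →L[ℂ] H) (bo : Fin m → Fin m → H →L[ℂ] H)
    (a : Fin n → H →L[ℂ] H) (δ c : ℝ) (hδ : 0 ≤ δ) (hc : δ * n < c)
    (hx : ∀ i l, ‖(∑ κ, ∑ κ', star (x κ i) * bo κ κ' * x κ' l) -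
      (if i = l then a l else 0)‖ ≤ δ)
    (ζ : Fin n → H) (hζ : ∀ κ, ∑ κ', bo κ κ' (∑ l, x κ' l (ζ l)) = 0)
    (ha : c * ∑ l, ‖ζ l‖ ^ 2 ≤ (∑ l, inner ℂ (ζ l) (a l (ζ l))).re) : ∀ l, ζ l = 0 := by
  set T : Fin n → Fin n → H →L[ℂ] H := fun i l =>
    (∑ κ, ∑ κ', star (x κ i) * bo κ κ' * x κ' l) - (if i = l then a l else 0) with hT
  have h1 : ∑ i, ∑ l, inner ℂ (ζ i) (T i l (ζ l)) = - ∑ l, inner ℂ (ζ l) (a l (ζ l)) := by
    have e1 : ∀ i l, inner ℂ (ζ i) (T i l (ζ l)) =
        (∑ κ, inner ℂ (x κ i (ζ i)) (∑ κ', bo κ κ' (x κ' l (ζ l)))) -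
          (if i = l then inner ℂ (ζ i) (a l (ζ l)) else 0) := by
      intro i l
      simp only [hT, _root_.sub_apply, inner_sub_right]
      congr 1
      · rw [_root_.sum_apply, inner_sum]
        refine Finset.sum_congr rfl fun κ _ => ?_
        rw [_root_.sum_apply, inner_sum, inner_sum]
        refine Finset.sum_congr rfl fun κ' _ => ?_
        change inner ℂ (ζ i) ((star (x κ i)) (bo κ κ' (x κ' l (ζ l)))) = _
        rw [ContinuousLinearMap.star_eq_adjoint, ContinuousLinearMap.adjoint_inner_right]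
      · split_ifs <;> simp
    simp_rw [e1, Finset.sum_sub_distrib]
    have e2 : ∑ i, ∑ l, ∑ κ, inner ℂ (x κ i (ζ i)) (∑ κ', bo κ κ' (x κ' l (ζ l))) = 0 := by
      have : ∑ i, ∑ l, ∑ κ, inner ℂ (x κ i (ζ i)) (∑ κ', bo κ κ' (x κ' l (ζ l))) =
        ∑ i, ∑ κ, inner ℂ (x κ i (ζ i)) (∑ κ', bo κ κ' (∑ l, x κ' l (ζ l))) := by
        refine Finset.sum_congr rfl fun i _ => ?_
        rw [Finset.sum_comm]
        refine Finset.sum_congr rfl fun κ _ => ?_
        rw [← inner_sum]
        congr 1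
        rw [Finset.sum_comm]
        refine Finset.sum_congr rfl fun κ' _ => ?_
        rw [map_sum]
      rw [this]
      exact Finset.sum_eq_zero fun i _ => Finset.sum_eq_zero fun κ _ => by
        rw [hζ, inner_zero_right]
    rw [e2]
    simp
  have h2 : ‖∑ i, ∑ l, inner ℂ (ζ i) (T i l (ζ l))‖ ≤ δ * n * ∑ l, ‖ζ l‖ ^ 2 := by
    calc ‖∑ i, ∑ l, inner ℂ (ζ i) (T i l (ζ l))‖ ≤ ∑ i, ∑ l, ‖ζ i‖ * (δ * ‖ζ l‖) := by
          refine (norm_sum_le _ _).trans (Finset.sum_le_sum fun i _ => ?_)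
          refine (norm_sum_le _ _).trans (Finset.sum_le_sum fun l _ => ?_)
          refine (norm_inner_le_norm _ _).trans ?_
          gcongr
          exact (T i l).le_of_opNorm_le (hx i l) _
      _ = δ * (∑ i, ‖ζ i‖) ^ 2 := by
          rw [sq, Finset.sum_mul_sum, Finset.mul_sum]
          refine Finset.sum_congr rfl fun i _ => ?_
          rw [Finset.mul_sum]
          refine Finset.sum_congr rfl fun l _ => ?_
          ring
      _ ≤ δ * (n * ∑ l, ‖ζ l‖ ^ 2) := by
          gcongr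
          have := sq_sum_le_card_mul_sum_sq (s := (Finset.univ : Finset (Fin n))) (f := fun i => ‖ζ i‖)
          simpa using this
      _ = _ := by ring
  rw [h1, norm_neg] at h2
  have h3 := (Complex.re_le_norm (∑ l, inner ℂ (ζ l) (a l (ζ l)))).trans h2
  have h4 : ∑ l, ‖ζ l‖ ^ 2 = 0 := by
    have hnn : 0 ≤ ∑ l, ‖ζ l‖ ^ 2 := Finset.sum_nonneg fun _ _ => by positivity
    nlinarith
  intro l
  rw [Finset.sum_eq_zero_iff_of_nonneg (fun _ _ => by positivity)] at h4
  have := h4 l (Finset.mem_univ l)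
  simpa using this

end Hilbert

section Core

variable {X : Type*} [TopologicalSpace X] [CompactSpace X]

theorem multOp_mem (h : X ≃ₜ X) (f : C(X, ℂ)) : multOp h f ∈ crossedProductAlg h := by
  apply StarSubalgebra.le_topologicalClosure
  exact StarAlgebra.subset_adjoin ℂ _ (Or.inl ⟨f, rfl⟩)

theorem shiftOp_mem (h : X ≃ₜ X) : shiftOp X ∈ crossedProductAlg h := by
  apply StarSubalgebra.le_topologicalClosure
  exact StarAlgebra.subset_adjoin ℂ _ (Or.inr rfl)

/-- operator underlying an element of the crossed product -/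
def toOp {h : X ≃ₜ X} (a : CrossedProduct h) : Ell2 X →L[ℂ] Ell2 X := Subtype.val a

theorem toOp_mul {h : X ≃ₜ X} (a b : CrossedProduct h) : toOp (a * b) = toOp a * toOp b := rfl
theorem toOp_add {h : X ≃ₜ X} (a b : CrossedProduct h) : toOp (a + b) = toOp a + toOp b := rfl
theorem toOp_sub {h : X ≃ₜ X} (a b : CrossedProduct h) : toOp (a - b) = toOp a - toOp b := rfl
theorem toOp_star {h : X ≃ₜ X} (a : CrossedProduct h) : toOp (star a) = star (toOp a) := rfl
theorem toOp_zero {h : X ≃ₜ X} : toOp (0 : CrossedProduct h) = 0 := rfl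
theorem toOp_one {h : X ≃ₜ X} : toOp (1 : CrossedProduct h) = 1 := rfl
theorem norm_toOp {h : X ≃ₜ X} (a : CrossedProduct h) : ‖toOp a‖ = ‖a‖ := rfl
theorem toOp_injective {h : X ≃ₜ X} : Function.Injective (toOp (h := h)) := Subtype.val_injective
theorem toOp_sum {h : X ≃ₜ X} {ι : Type*} (s : Finset ι) (f : ι → CrossedProduct h) :
    toOp (∑ i ∈ s, f i) = ∑ i ∈ s, toOp (f i) := by
  classical
  induction s using Finset.induction_on with
  | empty => simp [toOp_zero]
  | insert a s ha ih => rw [Finset.sum_insert ha, Finset.sum_insert ha, toOp_add, ih]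
theorem continuous_toOp {h : X ≃ₜ X} : Continuous (toOp (h := h)) := continuous_subtype_val

theorem ell2_ext {T S : Ell2 X →L[ℂ] Ell2 X} (hTS : ∀ v i, T v i = S v i) : T = S := by
  apply ContinuousLinearMap.ext
  intro v
  ext i
  exact hTS v i

/-- The embedding `C(X) → C(X) ⋊ ℤ`. -/
noncomputable def piHom (h : X ≃ₜ X) : C(X, ℂ) →⋆ₐ[ℂ] CrossedProduct h where
  toFun f := ⟨multOp h f, multOp_mem h f⟩
  map_one' := by
    apply toOp_injective
    apply ell2_ext
    intro v i
    change multOp h 1 v i = v i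
    rw [multOp_apply]; simp
  map_mul' f g := by
    apply toOp_injective
    apply ell2_ext
    intro v i
    change multOp h (f * g) v i = multOp h f (multOp h g v) i
    rw [multOp_apply, multOp_apply, multOp_apply, ContinuousMap.mul_apply, mul_assoc]
  map_zero' := by
    apply toOp_injective
    apply ell2_ext
    intro v i
    change multOp h 0 v i = 0
    rw [multOp_apply]; simp
  map_add' f g := by
    apply toOp_injective
    apply ell2_ext
    intro v i
    change multOp h (f + g) v i = multOp h f v i + multOp h g v i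
    rw [multOp_apply, multOp_apply, multOp_apply, ContinuousMap.add_apply, add_mul]
  commutes' r := by
    apply toOp_injective
    apply ell2_ext
    intro v i
    have : (toOp ((algebraMap ℂ (CrossedProduct h)) r)) v i = r * v i := rfl
    rw [this]
    change multOp h (algebraMap ℂ C(X, ℂ) r) v i = _
    rw [multOp_apply]; simp
  map_star' f := by
    apply toOp_injective
    change multOp h (star f) = star (multOp h f)
    rw [ContinuousLinearMap.star_eq_adjoint, ContinuousLinearMap.eq_adjoint_iff]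
    intro v w
    rw [lp.inner_eq_tsum, lp.inner_eq_tsum]
    refine tsum_congr fun i => ?_
    rw [multOp_apply, multOp_apply]
    have key : ∀ c a b : ℂ, inner ℂ (star c * a) b = inner ℂ a (c * b) := by
      intro c a b
      simp only [RCLike.inner_apply, map_mul, RCLike.star_def, RingHomCompTriple.comp_apply,
        RingHom.id_apply, Complex.conj_conj]
      ring
    exact key _ _ _

theorem toOp_piHom (h : X ≃ₜ X) (f : C(X, ℂ)) : toOp (piHom h f) = multOp h f := rfl

theorem exists_seq_finProp (h : X ≃ₜ X) (a : CrossedProduct h) :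
    ∃ s : ℕ → CrossedProduct h, (∀ k, FinProp (toOp (s k))) ∧ Tendsto s atTop (𝓝 a) := by
  have h1 : (toOp a) ∈ closure
      ((StarAlgebra.adjoin ℂ (Set.range (multOp h) ∪ {shiftOp X}) :
        StarSubalgebra ℂ (Ell2 X →L[ℂ] Ell2 X)) : Set (Ell2 X →L[ℂ] Ell2 X)) := by
    have h1 : toOp a ∈ (crossedProductAlg h : Set (Ell2 X →L[ℂ] Ell2 X)) := a.2
    unfold crossedProductAlg at h1
    rw [StarSubalgebra.topologicalClosure_coe] at h1
    exact h1
  obtain ⟨s, hs, hlim⟩ := mem_closure_iff_seq_limit.1 h1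
  refine ⟨fun k => (⟨s k, StarSubalgebra.le_topologicalClosure _ (hs k)⟩ : crossedProductAlg h),
    fun k => finProp_of_mem_adjoin h (hs k), ?_⟩
  exact tendsto_subtype_rng.2 hlim

/-- the diagonal matrix over the crossed product with entries `g l` -/
noncomputable def diagMat (h : X ≃ₜ X) {n : ℕ} (g : Fin n → C(X, ℂ)) :
    CStarMatrix (Fin n) (Fin n) (CrossedProduct h) :=
  CStarMatrix.ofMatrix fun i l => if i = l then piHom h (g l) else 0

/-- the matrix over the crossed product with entries in `C(X)` -/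
noncomputable def fullMat (h : X ≃ₜ X) {m : ℕ} (β : Fin m → Fin m → C(X, ℂ)) :
    CStarMatrix (Fin m) (Fin m) (CrossedProduct h) :=
  CStarMatrix.ofMatrix fun i l => piHom h (β i l)

theorem sum_swap_aux {A : Type*} [Ring A] {m : ℕ} (s : Fin m → A) (b : Fin m → Fin m → A)
    (y : Fin m → A) :
    ∑ κ', (∑ κ, s κ * b κ κ') * y κ' = ∑ κ, ∑ κ', s κ * b κ κ' * y κ' := by
  simp_rw [Finset.sum_mul]
  rw [Finset.sum_comm]

theorem mul_entry {h : X ≃ₜ X} {m n : ℕ} (x : CStarMatrix (Fin m) (Fin n) (CrossedProduct h))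
    (β : Fin m → Fin m → C(X, ℂ)) (i l : Fin n) :
    (x.conjTranspose * fullMat h β * x) i l =
      ∑ κ, ∑ κ', star (x κ i) * piHom h (β κ κ') * x κ' l := by
  have h1 : (x.conjTranspose * fullMat h β * x) i l =
      ∑ κ', (∑ κ, star (x κ i) * piHom h (β κ κ')) * x κ' l := rfl
  rw [h1]
  exact sum_swap_aux (fun κ => star (x κ i)) (fun κ κ' => piHom h (β κ κ')) (fun κ' => x κ' l)

/-- approximation step -/
theorem exists_approx {h : X ≃ₜ X} {m n : ℕ} (β : Fin m → Fin m → C(X, ℂ))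
    (g : Fin n → C(X, ℂ)) (hle : CuntzLE (diagMat h g) (fullMat h β)) (δ : ℝ) (hδ : 0 < δ) :
    ∃ x : Fin m → Fin n → Ell2 X →L[ℂ] Ell2 X, (∀ κ l, FinProp (x κ l)) ∧
      ∀ i l, ‖(∑ κ, ∑ κ', star (x κ i) * multOp h (β κ κ') * x κ' l) -
        (if i = l then multOp h (g l) else 0)‖ ≤ δ := by
  obtain ⟨x, hx⟩ := hle
  have hx' : ∀ i l, Tendsto (fun k => ((x k).conjTranspose * fullMat h β * x k) i l) atTop
      (𝓝 (diagMat h g i l)) := by
    intro i l
    exact ((continuous_apply_apply i l).tendsto _).comp hx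
  have h1 : ∀ᶠ k in atTop, ∀ i l, ‖((x k).conjTranspose * fullMat h β * x k) i l -
      diagMat h g i l‖ < δ := by
    rw [eventually_all]
    intro i
    rw [eventually_all]
    intro l
    have := (tendsto_iff_norm_sub_tendsto_zero.1 (hx' i l))
    exact this.eventually_lt_const hδ
  obtain ⟨k, hk⟩ := h1.exists
  choose s hs hlim using fun κ l => exists_seq_finProp h (x k κ l)
  have h2 : ∀ i l, Tendsto (fun p => ∑ κ, ∑ κ', star (s κ i p) * piHom h (β κ κ') * s κ' l p)
      atTop (𝓝 (∑ κ, ∑ κ', star (x k κ i) * piHom h (β κ κ') * x k κ' l)) := by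
    intro i l
    refine tendsto_finsetSum _ fun κ _ => tendsto_finsetSum _ fun κ' _ => ?_
    exact (((continuous_star.tendsto _).comp (hlim κ i)).mul tendsto_const_nhds).mul (hlim κ' l)
  have h3 : ∀ᶠ p in atTop, ∀ i l, ‖(∑ κ, ∑ κ', star (s κ i p) * piHom h (β κ κ') * s κ' l p) -
      diagMat h g i l‖ < δ := by
    rw [eventually_all]
    intro i
    rw [eventually_all]
    intro l
    have := ((h2 i l).sub_const (diagMat h g i l)).norm
    refine this.eventually_lt_const ?_
    rw [← mul_entry]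
    exact hk i l
  obtain ⟨p, hp⟩ := h3.exists
  refine ⟨fun κ l => toOp (s κ l p), fun κ l => hs κ l p, fun i l => ?_⟩
  have := (hp i l).le
  rw [← norm_toOp, toOp_sub, toOp_sum] at this
  simp_rw [toOp_sum, toOp_mul, toOp_star, toOp_piHom] at this
  have h4 : toOp (diagMat h g i l) = if i = l then multOp h (g l) else 0 := by
    change toOp (if i = l then piHom h (g l) else 0) = _
    split_ifs
    · rfl
    · rfl
  rw [h4] at this
  exact this


/-- common propagation bound -/
theorem exists_kernel {m n : ℕ} (x : Fin m → Fin n → Ell2 X →L[ℂ] Ell2 X)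
    (hx : ∀ κ l, FinProp (x κ l)) :
    ∃ (R : ℕ) (K : Fin m → Fin n → ℤ → ℤ → C(X, ℂ)), ∀ κ l j (x0 : X),
      x κ l (dvec j x0) = ∑ i ∈ Finset.Icc (j - R) (j + R), K κ l i j x0 • (dvec i x0 : Ell2 X) := by
  choose R K hK using hx
  let R' : ℕ := ∑ κ, ∑ l, R κ l
  have hR : ∀ κ l, R κ l ≤ R' := fun κ l =>
    (Finset.single_le_sum (f := fun l => R κ l) (fun _ _ => Nat.zero_le _)
      (Finset.mem_univ l)).trans
    (Finset.single_le_sum (f := fun κ => ∑ l, R κ l) (fun _ _ => Nat.zero_le _)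
      (Finset.mem_univ κ))
  choose K' hK' using fun κ l => FinProp.mono (hR κ l) (hK κ l)
  exact ⟨R', K', fun κ l j x0 => hK' κ l j x0⟩

theorem inner_dvec_dvec (i j : ℤ) (x0 : X) :
    inner ℂ (dvec i x0 : Ell2 X) (dvec j x0 : Ell2 X) = if i = j then 1 else 0 := by
  classical
  rw [inner_dvec_left, dvec_apply]
  simp

theorem norm_sum_dvec (I : Finset ℤ) (c : ℤ → ℂ) (x0 : X) :
    ‖∑ j ∈ I, c j • (dvec j x0 : Ell2 X)‖ ^ 2 = ∑ j ∈ I, ‖c j‖ ^ 2 := by
  classical
  rw [@norm_sq_eq_re_inner ℂ, sum_inner]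
  simp_rw [inner_sum, inner_smul_left, inner_smul_right, inner_dvec_dvec]
  simp only [mul_ite, mul_one, mul_zero, Finset.sum_ite_eq]
  rw [map_sum]
  refine Finset.sum_congr rfl fun i hi => ?_
  rw [if_pos hi]
  simp only [RCLike.conj_mul]
  norm_cast

theorem core (h : X ≃ₜ X) {m n : ℕ} (β : Fin m → Fin m → C(X, ℂ)) (g : Fin n → C(X, ℝ))
    (hle : CuntzLE (diagMat h (fun l => ⟨fun x => (g l x : ℂ), by fun_prop⟩)) (fullMat h β)) :
    ∃ (R : ℕ) (K : Fin m → Fin n → ℤ → ℤ → C(X, ℂ)), ∀ (x0 : X) (I : Finset ℤ)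
      (z : ℤ → Fin n → ℂ), (∀ j ∈ I, ∀ l, z j l ≠ 0 → 3 / 4 ≤ g l ((h ^ j) x0)) →
      (∀ (i : ℤ) (κ : Fin m), ∑ κ', β κ κ' ((h ^ i) x0) *
        (∑ l, ∑ j ∈ I, if i ∈ Finset.Icc (j - (R:ℤ)) (j + R) then K κ' l i j x0 * z j l else 0)
          = 0) →
      ∀ j ∈ I, ∀ l, z j l = 0 := by
  classical
  obtain ⟨x, hxf, hx⟩ := exists_approx β _ hle (1 / (2 * (n + 1))) (by positivity)
  obtain ⟨R, K, hK⟩ := exists_kernel x hxf
  refine ⟨R, K, fun x0 I z hz hker => ?_⟩
  set ζ : Fin n → Ell2 X := fun l => ∑ j ∈ I, z j l • (dvec j x0 : Ell2 X) with hζ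
  have hxζ : ∀ κ', ∑ l, x κ' l (ζ l) = ∑ i ∈ I.biUnion (fun j => Finset.Icc (j - (R:ℤ)) (j + R)),
      (∑ l, ∑ j ∈ I, if i ∈ Finset.Icc (j - (R:ℤ)) (j + R) then K κ' l i j x0 * z j l else 0) •
        (dvec i x0 : Ell2 X) := by
    intro κ'
    simp_rw [Finset.sum_smul]
    rw [Finset.sum_comm]
    refine Finset.sum_congr rfl fun l _ => ?_
    rw [Finset.sum_comm]
    rw [hζ, map_sum]
    refine Finset.sum_congr rfl fun j hj => ?_
    rw [map_smul, hK, Finset.smul_sum]
    rw [← Finset.sum_subset (Finset.subset_biUnion_of_mem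
      (fun j => Finset.Icc (j - (R:ℤ)) (j + R)) hj)]
    · refine Finset.sum_congr rfl fun i hi => ?_
      rw [if_pos hi, smul_smul, mul_comm]
    · intro i _ hi
      rw [if_neg hi, zero_smul]
  have hmain := hilbert_core x (fun κ κ' => multOp h (β κ κ'))
    (fun l => multOp h ⟨fun x => (g l x : ℂ), by fun_prop⟩) (1 / (2 * (n + 1))) (3 / 4)
    (by positivity) (by
      have : (0:ℝ) < n + 1 := by positivity
      rw [div_mul_eq_mul_div, div_lt_div_iff₀ (by positivity) (by positivity)]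
      nlinarith) hx ζ (by
      intro κ
      simp_rw [hxζ, map_sum, map_smul, multOp_dvec, smul_smul]
      rw [Finset.sum_comm]
      refine Finset.sum_eq_zero fun i _ => ?_
      rw [← Finset.sum_smul]
      have := hker i κ
      simp_rw [mul_comm (β κ _ _)] at this
      rw [this, zero_smul]) (by
      simp_rw [hζ, norm_sum_dvec, map_sum, map_smul, multOp_dvec, smul_smul]
      rw [Complex.re_sum, Finset.mul_sum]
      refine Finset.sum_le_sum fun l _ => ?_
      simp_rw [sum_inner, inner_sum, inner_smul_left, inner_smul_right, inner_dvec_dvec]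
      simp only [mul_ite, mul_one, mul_zero, Finset.sum_ite_eq]
      rw [Complex.re_sum, Finset.mul_sum]
      refine Finset.sum_le_sum fun j hj => ?_
      rw [if_pos hj]
      by_cases hzz : z j l = 0
      · simp [hzz]
      · have h1 := hz j hj l hzz
        have h2 : ((starRingEnd ℂ) (z j l) * (z j l * ((g l ((h ^ j) x0) : ℝ) : ℂ))).re =
            g l ((h ^ j) x0) * ‖z j l‖ ^ 2 := by
          rw [← mul_assoc, RCLike.conj_mul]
          change (((‖z j l‖ : ℝ) : ℂ) ^ 2 * ((g l ((h ^ j) x0) : ℝ) : ℂ)).re = _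
          rw [← Complex.ofReal_pow, ← Complex.ofReal_mul, Complex.ofReal_re]
          ring
        change _ ≤ ((starRingEnd ℂ) (z j l) * (z j l * ((g l ((h ^ j) x0) : ℝ) : ℂ))).re
        rw [h2]
        gcongr)
  intro j hj l
  have h0 := hmain l
  have h1 : ‖ζ l‖ ^ 2 = 0 := by rw [h0]; simp
  rw [hζ, norm_sum_dvec, Finset.sum_eq_zero_iff_of_nonneg (fun _ _ => by positivity)] at h1
  simpa using h1 j hj

end Core

end Vale.Agent.P093
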