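import Vale.Agent.P093.Core
open Filter Topology Set
open scoped ENNReal ComplexOrder
set_option linter.unusedSectionVars false
set_option linter.unusedSimpArgs false
namespace Vale.Agent.P093

section Factor
open scoped MatrixOrder Matrix.Norms.L2Operator
theorem psd_factor {m : ℕ} {A : Matrix (Fin m) (Fin m) ℂ} (hA : A.PosSemidef) :
    ∃ B : Matrix (Fin m) (Fin m) ℂ, A = B.conjTranspose * B :=
  CStarAlgebra.nonneg_iff_eq_star_mul_self.mp hA.nonneg
end Factor

section General
variable {A : Type*} [CStarAlgebra A] [PartialOrder A] [StarOrderedRing A]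

set_option backward.isDefEq.respectTransparency false in
theorem traceEval_nonneg (τ : TracialState A) {n : ℕ} {a : CStarMatrix (Fin n) (Fin n) A}
    (ha : 0 ≤ a) : 0 ≤ traceEval τ a := by
  obtain ⟨b, rfl⟩ := CStarAlgebra.nonneg_iff_eq_star_mul_self.1 ha
  unfold traceEval
  have h1 : ∀ i, (star b * b) i i = ∑ k, star (b k i) * b k i := fun i => rfl
  simp_rw [h1, map_sum]
  have h2 : ∀ i k, 0 ≤ τ.toFun (star (b k i) * b k i) := fun i k => τ.nonneg _
  rw [Complex.re_sum]
  refine Finset.sum_nonneg fun i _ => ?_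
  rw [Complex.re_sum]
  exact Finset.sum_nonneg fun k _ => (Complex.nonneg_iff.1 (h2 i k)).1

theorem traceEval_sub (τ : TracialState A) {n : ℕ} (a b : CStarMatrix (Fin n) (Fin n) A) :
    traceEval τ (a - b) = traceEval τ a - traceEval τ b := by
  unfold traceEval
  rw [← Complex.sub_re, ← Finset.sum_sub_distrib]
  simp_rw [CStarMatrix.sub_apply, map_sub]

theorem traceEval_mono (τ : TracialState A) {n : ℕ} {a b : CStarMatrix (Fin n) (Fin n) A}
    (hab : a ≤ b) : traceEval τ a ≤ traceEval τ b := by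
  have := traceEval_nonneg τ (sub_nonneg.2 hab)
  rw [traceEval_sub] at this
  linarith

set_option backward.isDefEq.respectTransparency false in
theorem root_mono {n : ℕ} {a : CStarMatrix (Fin n) (Fin n) A}
    (ha : 0 ≤ a) (ha1 : a ≤ 1) {m m' : ℕ} (hm : 1 ≤ m) (hm' : m ≤ m') :
    cfc (fun t : ℝ => t ^ (1 / (m : ℝ))) a ≤ cfc (fun t : ℝ => t ^ (1 / (m' : ℝ))) a := by
  have hs : IsSelfAdjoint a := IsSelfAdjoint.of_nonneg ha
  have hm0 : (0 : ℝ) < m := by exact_mod_cast hm
  have hm0' : (0 : ℝ) < m' := by exact_mod_cast (lt_of_lt_of_le hm hm')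
  refine cfc_mono ?_ ?_ ?_
  · intro x hx
    have hx0 : 0 ≤ x := spectrum_nonneg_of_nonneg ha hx
    have hx1 : x ≤ 1 := by
      have := (cfc_le_one_iff (R := ℝ) (fun t => t) a (by fun_prop) hs).1 (by
        rw [cfc_id' ℝ a]; exact ha1)
      exact this x hx
    rcases hx0.eq_or_lt with h0 | h0
    · rw [← h0, Real.zero_rpow (by positivity), Real.zero_rpow (by positivity)]
    · apply Real.rpow_le_rpow_of_exponent_ge h0 hx1
      exact one_div_le_one_div_of_le hm0 (by exact_mod_cast hm')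
  · exact (Real.continuous_rpow_const (by positivity)).continuousOn
  · exact (Real.continuous_rpow_const (by positivity)).continuousOn

theorem traceEval_one (τ : TracialState A) (n : ℕ) :
    traceEval τ (1 : CStarMatrix (Fin n) (Fin n) A) = n := by
  unfold traceEval
  simp_rw [CStarMatrix.one_apply_eq, τ.map_one]
  simp

set_option backward.isDefEq.respectTransparency false in
theorem spec_le_one {n : ℕ} {a : CStarMatrix (Fin n) (Fin n) A}
    (ha : 0 ≤ a) (ha1 : a ≤ 1) {x : ℝ} (hx : x ∈ spectrum ℝ a) : 0 ≤ x ∧ x ≤ 1 := by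
  have hs : IsSelfAdjoint a := IsSelfAdjoint.of_nonneg ha
  refine ⟨spectrum_nonneg_of_nonneg ha hx, ?_⟩
  have := (cfc_le_one_iff (R := ℝ) (fun t => t) a (by fun_prop) hs).1 (by
    rw [cfc_id' ℝ a]; exact ha1)
  exact this x hx

set_option backward.isDefEq.respectTransparency false in
theorem root_le_one {n : ℕ} {a : CStarMatrix (Fin n) (Fin n) A}
    (ha : 0 ≤ a) (ha1 : a ≤ 1) (m : ℕ) :
    cfc (fun t : ℝ => t ^ (1 / (m : ℝ))) a ≤ 1 := by
  refine cfc_le_one _ _ fun x hx => ?_
  obtain ⟨h0, h1⟩ := spec_le_one ha ha1 hx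
  exact Real.rpow_le_one h0 h1 (by positivity)

set_option backward.isDefEq.respectTransparency false in
theorem tendsto_dTau (τ : TracialState A) {n : ℕ} {a : CStarMatrix (Fin n) (Fin n) A}
    (ha : 0 ≤ a) (ha1 : a ≤ 1) :
    Tendsto (fun m : ℕ => traceEval τ (cfc (fun t : ℝ => t ^ (1 / (m : ℝ))) a)) atTop
      (𝓝 (dTau τ a)) := by
  have hmono : Monotone fun m : ℕ =>
      traceEval τ (cfc (fun t : ℝ => t ^ (1 / ((m + 1 : ℕ) : ℝ))) a) := by
    intro m m' hmm
    exact traceEval_mono τ (root_mono ha ha1 (by omega) (by omega))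
  have hbdd : BddAbove (Set.range fun m : ℕ =>
      traceEval τ (cfc (fun t : ℝ => t ^ (1 / ((m + 1 : ℕ) : ℝ))) a)) := by
    refine ⟨n, ?_⟩
    rintro _ ⟨m, rfl⟩
    rw [← traceEval_one τ n]
    exact traceEval_mono τ (root_le_one ha ha1 _)
  have h1 := tendsto_atTop_ciSup hmono hbdd
  have h2 := (tendsto_add_atTop_iff_nat (f := fun m : ℕ =>
    traceEval τ (cfc (fun t : ℝ => t ^ (1 / (m : ℝ))) a)) 1).1 h1
  have h3 : dTau τ a = _ := h2.limUnder_eq
  rw [h3]
  exact h2

set_option backward.isDefEq.respectTransparency false in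
theorem traceEval_le_dTau (τ : TracialState A) {n : ℕ} {a : CStarMatrix (Fin n) (Fin n) A}
    (ha : 0 ≤ a) (ha1 : a ≤ 1) : traceEval τ a ≤ dTau τ a := by
  refine ge_of_tendsto (tendsto_dTau τ ha ha1) ?_
  filter_upwards [eventually_ge_atTop 1] with m hm
  have h1 := traceEval_mono τ (root_mono ha ha1 le_rfl hm)
  have h2 : cfc (fun t : ℝ => t ^ (1 / ((1 : ℕ) : ℝ))) a = a := by
    have hs : IsSelfAdjoint a := IsSelfAdjoint.of_nonneg ha
    have h3 : (fun t : ℝ => t ^ (1 / ((1 : ℕ) : ℝ))) = fun t => t := by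
      funext t
      simp
    rw [h3, cfc_id' ℝ a]
  rwa [h2] at h1

set_option backward.isDefEq.respectTransparency false in
theorem dTau_le (τ : TracialState A) {n : ℕ} {a : CStarMatrix (Fin n) (Fin n) A}
    (ha : 0 ≤ a) (ha1 : a ≤ 1) (C : ℝ)
    (hC : ∀ m : ℕ, 1 ≤ m → traceEval τ (cfc (fun t : ℝ => t ^ (1 / (m : ℝ))) a) ≤ C) :
    dTau τ a ≤ C := by
  refine le_of_tendsto (tendsto_dTau τ ha ha1) ?_
  filter_upwards [eventually_ge_atTop 1] with m hm
  exact hC m hm

set_option backward.isDefEq.respectTransparency false in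
/-- an `m`-th root -/
theorem cfc_root {n : ℕ} {a c : CStarMatrix (Fin n) (Fin n) A} {m : ℕ} (hm : 1 ≤ m)
    (hc : 0 ≤ c) (hca : c ^ m = a) :
    cfc (fun t : ℝ => t ^ (1 / (m : ℝ))) a = c := by
  have hs : IsSelfAdjoint c := IsSelfAdjoint.of_nonneg hc
  have hm0 : (0 : ℝ) < m := by exact_mod_cast hm
  rw [← hca, ← cfc_comp_pow (fun t : ℝ => t ^ (1 / (m : ℝ))) m c
    (Real.continuous_rpow_const (by positivity)).continuousOn hs]
  have h1 : cfc (fun x : ℝ => (x ^ m) ^ (1 / (m : ℝ))) c = cfc (fun x : ℝ => x) c := by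
    refine cfc_congr fun x hx => ?_
    have hx0 : 0 ≤ x := spectrum_nonneg_of_nonneg hc hx
    change (x ^ m) ^ (1 / (m : ℝ)) = x
    rw [one_div, Real.pow_rpow_inv_natCast hx0 (by omega)]
  rw [h1, cfc_id' ℝ c]

end General

section Crossed

variable {X : Type*} [TopologicalSpace X] [CompactSpace X]

theorem fullMat_apply (h : X ≃ₜ X) {m : ℕ} (β : Fin m → Fin m → C(X, ℂ)) (i j : Fin m) :
    fullMat h β i j = piHom h (β i j) := rfl

theorem fullMat_mul (h : X ≃ₜ X) {m : ℕ} (β γ : Fin m → Fin m → C(X, ℂ)) :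
    fullMat h β * fullMat h γ = fullMat h fun i k => ∑ j, β i j * γ j k := by
  ext i k
  rw [fullMat_apply]
  have h1 : (fullMat h β * fullMat h γ) i k = ∑ j, piHom h (β i j) * piHom h (γ j k) := rfl
  rw [h1, map_sum]
  simp_rw [map_mul]

theorem fullMat_star (h : X ≃ₜ X) {m : ℕ} (β : Fin m → Fin m → C(X, ℂ)) :
    star (fullMat h β) = fullMat h fun i j => star (β j i) := by
  ext i j
  rw [fullMat_apply, map_star]
  rfl

theorem fullMat_one (h : X ≃ₜ X) {m : ℕ} :
    fullMat h (fun i j => if i = j then (1 : C(X, ℂ)) else 0) =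
      (1 : CStarMatrix (Fin m) (Fin m) (CrossedProduct h)) := by
  ext i j
  rw [fullMat_apply, CStarMatrix.one_apply]
  split_ifs
  · exact map_one _
  · exact map_zero _

theorem fullMat_sub (h : X ≃ₜ X) {m : ℕ} (β γ : Fin m → Fin m → C(X, ℂ)) :
    fullMat h β - fullMat h γ = fullMat h fun i j => β i j - γ i j := by
  ext i j
  rw [fullMat_apply, CStarMatrix.sub_apply, map_sub]
  rfl

theorem diagMat_eq (h : X ≃ₜ X) {n : ℕ} (g : Fin n → C(X, ℂ)) :
    diagMat h g = fullMat h fun i l => if i = l then g l else 0 := by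
  ext i l
  rw [fullMat_apply]
  change (if i = l then piHom h (g l) else 0) = _
  split_ifs
  · rfl
  · exact (map_zero _).symm

theorem diagMat_mul (h : X ≃ₜ X) {n : ℕ} (g g' : Fin n → C(X, ℂ)) :
    diagMat h g * diagMat h g' = diagMat h (g * g') := by
  rw [diagMat_eq, diagMat_eq, diagMat_eq, fullMat_mul]
  congr 1
  funext i k
  by_cases hik : i = k
  · subst hik
    simp
  · rw [if_neg hik]
    refine Finset.sum_eq_zero fun j _ => ?_
    by_cases hij : i = j
    · subst hij
      rw [if_neg hik, mul_zero]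
    · rw [if_neg hij, zero_mul]

theorem diagMat_one (h : X ≃ₜ X) {n : ℕ} : diagMat h (1 : Fin n → C(X, ℂ)) = 1 := by
  rw [diagMat_eq, ← fullMat_one]
  rfl

theorem diagMat_pow (h : X ≃ₜ X) {n : ℕ} (g : Fin n → C(X, ℂ)) (k : ℕ) :
    diagMat h g ^ k = diagMat h (g ^ k) := by
  induction k with
  | zero => rw [pow_zero, pow_zero, diagMat_one]
  | succ k ih => rw [pow_succ, pow_succ, ih, diagMat_mul]

theorem diagMat_star (h : X ≃ₜ X) {n : ℕ} (g : Fin n → C(X, ℂ)) :
    star (diagMat h g) = diagMat h (star g) := by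
  rw [diagMat_eq, diagMat_eq, fullMat_star]
  congr 1
  funext i j
  by_cases hij : i = j
  · subst hij
    simp
  · rw [if_neg hij, if_neg fun hh => hij hh.symm, star_zero]

theorem diagMat_sub (h : X ≃ₜ X) {n : ℕ} (g g' : Fin n → C(X, ℂ)) :
    diagMat h g - diagMat h g' = diagMat h (g - g') := by
  rw [diagMat_eq, diagMat_eq, diagMat_eq, fullMat_sub]
  congr 1
  funext i k
  by_cases hik : i = k
  · subst hik
    simp
  · simp [hik]

/-- real function as a complex function -/
def cf (g : C(X, ℝ)) : C(X, ℂ) := ⟨fun x => (g x : ℂ), by fun_prop⟩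

theorem cf_apply (g : C(X, ℝ)) (x : X) : cf g x = (g x : ℂ) := rfl

set_option backward.isDefEq.respectTransparency false in
theorem diagMat_nonneg (h : X ≃ₜ X) {n : ℕ} (g : Fin n → C(X, ℝ)) (hg : ∀ l x, 0 ≤ g l x) :
    0 ≤ diagMat h (fun l => cf (g l)) := by
  rw [CStarAlgebra.nonneg_iff_eq_star_mul_self]
  refine ⟨diagMat h (fun l => ⟨fun x => ((Real.sqrt (g l x) : ℝ) : ℂ), by fun_prop⟩), ?_⟩
  rw [diagMat_star, diagMat_mul]
  congr 1
  funext l
  ext x
  simp only [Pi.mul_apply, Pi.star_apply, ContinuousMap.mul_apply, ContinuousMap.star_apply,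
    ContinuousMap.coe_mk, RCLike.star_def, Complex.conj_ofReal, cf_apply]
  rw [← Complex.ofReal_mul, Real.mul_self_sqrt (hg l x)]

set_option backward.isDefEq.respectTransparency false in
theorem diagMat_le_one (h : X ≃ₜ X) {n : ℕ} (g : Fin n → C(X, ℝ)) (hg : ∀ l x, g l x ≤ 1) :
    diagMat h (fun l => cf (g l)) ≤ 1 := by
  rw [← sub_nonneg, ← diagMat_one, diagMat_sub]
  have := diagMat_nonneg h (fun l => 1 - g l) (fun l x => by
    simp only [ContinuousMap.sub_apply, ContinuousMap.one_apply]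
    linarith [hg l x])
  convert this using 2
  funext l
  ext x
  simp [cf_apply]

theorem traceEval_diag (h : X ≃ₜ X) {n : ℕ} (τ : TracialState (CrossedProduct h))
    (g : Fin n → C(X, ℂ)) : traceEval τ (diagMat h g) = (∑ l, τ.toFun (piHom h (g l))).re := by
  unfold traceEval
  congr 2
  funext i
  congr 1
  change (if i = i then piHom h (g i) else 0) = _
  rw [if_pos rfl]

/-- positivity of a trace on positive functions -/
theorem trace_fun_nonneg (h : X ≃ₜ X) (τ : TracialState (CrossedProduct h)) (g : C(X, ℝ))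
    (hg : ∀ x, 0 ≤ g x) : 0 ≤ (τ.toFun (piHom h (cf g))).re := by
  have h1 : cf g = star (⟨fun x => ((Real.sqrt (g x) : ℝ) : ℂ), by fun_prop⟩ : C(X, ℂ)) *
      ⟨fun x => ((Real.sqrt (g x) : ℝ) : ℂ), by fun_prop⟩ := by
    ext x
    simp only [ContinuousMap.mul_apply, ContinuousMap.star_apply,
      ContinuousMap.coe_mk, RCLike.star_def, Complex.conj_ofReal, cf_apply]
    rw [← Complex.ofReal_mul, Real.mul_self_sqrt (hg x)]
  rw [h1, map_mul, map_star]
  exact (Complex.nonneg_iff.1 (τ.nonneg _)).1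

theorem trace_fun_mono (h : X ≃ₜ X) (τ : TracialState (CrossedProduct h)) (f g : C(X, ℝ))
    (hfg : ∀ x, f x ≤ g x) :
    (τ.toFun (piHom h (cf f))).re ≤ (τ.toFun (piHom h (cf g))).re := by
  have h1 := trace_fun_nonneg h τ (g - f) (fun x => by
    simp only [ContinuousMap.sub_apply]; linarith [hfg x])
  have h2 : cf (g - f) = cf g - cf f := by
    ext x
    simp [cf_apply]
  rw [h2, map_sub, map_sub, Complex.sub_re] at h1
  linarith

set_option backward.isDefEq.respectTransparency false in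
theorem dTau_diag_le (h : X ≃ₜ X) {n : ℕ} (τ : TracialState (CrossedProduct h))
    (g G : Fin n → C(X, ℝ)) (hg0 : ∀ l x, 0 ≤ g l x) (hg1 : ∀ l x, g l x ≤ 1)
    (hG0 : ∀ l x, 0 ≤ G l x) (hG : ∀ l x, g l x ≠ 0 → 1 ≤ G l x) :
    dTau τ (diagMat h (fun l => cf (g l))) ≤ (τ.toFun (piHom h (cf (∑ l, G l)))).re := by
  refine dTau_le τ (diagMat_nonneg h g hg0) (diagMat_le_one h g hg1) _ fun m hm => ?_
  have hm0 : (0 : ℝ) < m := by exact_mod_cast hm
  let c : Fin n → C(X, ℝ) := fun l =>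
    ⟨fun x => g l x ^ (1 / (m : ℝ)),
      (Real.continuous_rpow_const (by positivity)).comp (g l).continuous⟩
  have hc : ∀ l x, c l x = g l x ^ (1 / (m : ℝ)) := fun l x => rfl
  have hc0 : ∀ l x, 0 ≤ c l x := fun l x => Real.rpow_nonneg (hg0 l x) _
  rw [cfc_root (c := diagMat h (fun l => cf (c l))) hm (diagMat_nonneg h c hc0) (by
    rw [diagMat_pow]
    congr 1
    funext l
    ext x
    simp only [Pi.pow_apply, ContinuousMap.pow_apply, cf_apply, hc]
    rw [← Complex.ofReal_pow, ← Real.rpow_natCast, ← Real.rpow_mul (hg0 l x),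
      one_div_mul_cancel hm0.ne', Real.rpow_one])]
  rw [traceEval_diag, ← map_sum, ← map_sum]
  have h1 : ∑ l, cf (c l) = cf (∑ l, c l) := by
    ext x
    simp [cf_apply]
  rw [h1]
  refine trace_fun_mono h τ _ _ fun x => ?_
  rw [ContinuousMap.sum_apply, ContinuousMap.sum_apply]
  refine Finset.sum_le_sum fun l _ => ?_
  rw [hc]
  by_cases h0 : g l x = 0
  · rw [h0, Real.zero_rpow (by positivity)]
    exact hG0 l x
  · exact (Real.rpow_le_one (hg0 l x) (hg1 l x) (by positivity)).trans (hG l x h0)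

/-- shift unitary as an element of the crossed product -/
noncomputable def uElt (h : X ≃ₜ X) : CrossedProduct h := (⟨shiftOp X, shiftOp_mem h⟩ :
  crossedProductAlg h)

theorem toOp_uElt (h : X ≃ₜ X) : toOp (uElt h) = shiftOp X := rfl

theorem star_u_mul_u (h : X ≃ₜ X) : star (uElt h) * uElt h = 1 := by
  apply toOp_injective
  rw [toOp_mul, toOp_star, toOp_uElt, toOp_one]
  apply ContinuousLinearMap.ext
  intro v
  refine ext_inner_left ℂ fun w => ?_
  change inner ℂ w ((star (shiftOp X)) (shiftOp X v)) = inner ℂ w v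
  rw [ContinuousLinearMap.star_eq_adjoint, ContinuousLinearMap.adjoint_inner_right,
    lp.inner_eq_tsum, lp.inner_eq_tsum]
  exact ((Equiv.subRight (1 : ℤ)).prodCongr (Equiv.refl X)).tsum_eq
        (fun i => inner ℂ (w i) (v i))

theorem u_mul_star_u (h : X ≃ₜ X) : uElt h * star (uElt h) = 1 := by
  apply toOp_injective
  rw [toOp_mul, toOp_star, toOp_uElt, toOp_one]
  apply ell2_ext
  intro v i
  obtain ⟨n, x⟩ := i
  change (star (shiftOp X) v) (n - 1, x) = v (n, x)
  rw [← inner_dvec_left, ContinuousLinearMap.star_eq_adjoint,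
    ContinuousLinearMap.adjoint_inner_right, shiftOp_dvec, inner_dvec_left, sub_add_cancel]

theorem u_pi (h : X ≃ₜ X) (f : C(X, ℂ)) :
    uElt h * piHom h (f.comp (h : C(X, X))) = piHom h f * uElt h := by
  apply toOp_injective
  rw [toOp_mul, toOp_mul, toOp_uElt, toOp_piHom, toOp_piHom]
  apply ell2_ext
  intro v i
  change (multOp h (f.comp (h : C(X, X))) v) (i.1 - 1, i.2) = multOp h f (shiftOp X v) i
  rw [multOp_apply, multOp_apply]
  change f (h ((h ^ (i.1 - 1)) i.2)) * v (i.1 - 1, i.2) = f ((h ^ i.1) i.2) * v (i.1 - 1, i.2)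
  have : h ((h ^ (i.1 - 1)) i.2) = (h ^ i.1) i.2 := by
    change (h * h ^ (i.1 - 1)) i.2 = _
    rw [← zpow_one_add]
    congr 2
    ring
  rw [this]

theorem trace_inv (h : X ≃ₜ X) (τ : TracialState (CrossedProduct h)) (f : C(X, ℂ)) :
    τ.toFun (piHom h (f.comp (h : C(X, X)))) = τ.toFun (piHom h f) := by
  have h1 : piHom h (f.comp (h : C(X, X))) =
      star (uElt h) * (piHom h f * uElt h) := by
    rw [← u_pi, ← mul_assoc, star_u_mul_u, one_mul]
  rw [h1, τ.tracial, mul_assoc, u_mul_star_u, mul_one]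

theorem trace_inv_pow (h : X ≃ₜ X) (τ : TracialState (CrossedProduct h)) (f : C(X, ℂ)) (j : ℕ) :
    τ.toFun (piHom h (f.comp ((h ^ (j : ℤ) : X ≃ₜ X) : C(X, X)))) = τ.toFun (piHom h f) := by
  induction j with
  | zero =>
    congr 2
  | succ j ih =>
    rw [← ih, ← trace_inv h τ (f.comp ((h ^ (j : ℤ) : X ≃ₜ X) : C(X, X)))]
    congr 2

/-- averages along orbits control traces -/
theorem trace_average (h : X ≃ₜ X) (τ : TracialState (CrossedProduct h)) (f g : C(X, ℝ)) (c : ℝ)
    (N : ℕ) (hN : 0 < N)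
    (hav : ∀ x, ∑ j ∈ Finset.range N, f ((h ^ (j : ℤ)) x) + c * N ≤
      ∑ j ∈ Finset.range N, g ((h ^ (j : ℤ)) x)) :
    (τ.toFun (piHom h (cf f))).re + c ≤ (τ.toFun (piHom h (cf g))).re := by
  have key : ∀ f : C(X, ℝ), (τ.toFun (piHom h (cf (∑ j ∈ Finset.range N,
      f.comp ((h ^ (j : ℤ) : X ≃ₜ X) : C(X, X)))))).re = N * (τ.toFun (piHom h (cf f))).re := by
    intro f
    have h1 : cf (∑ j ∈ Finset.range N, f.comp ((h ^ (j : ℤ) : X ≃ₜ X) : C(X, X))) =
        ∑ j ∈ Finset.range N, (cf f).comp ((h ^ (j : ℤ) : X ≃ₜ X) : C(X, X)) := by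
      ext x
      simp [cf_apply]
    rw [h1, map_sum, map_sum]
    simp_rw [trace_inv_pow]
    simp
  have h2 := trace_fun_mono h τ (∑ j ∈ Finset.range N, f.comp ((h ^ (j : ℤ) : X ≃ₜ X) : C(X, X)) +
    ContinuousMap.const X (c * N))
    (∑ j ∈ Finset.range N, g.comp ((h ^ (j : ℤ) : X ≃ₜ X) : C(X, X))) (fun x => by
      simp only [ContinuousMap.add_apply, ContinuousMap.sum_apply, ContinuousMap.comp_apply,
        ContinuousMap.const_apply]
      exact hav x)
  have h3 : cf (∑ j ∈ Finset.range N, f.comp ((h ^ (j : ℤ) : X ≃ₜ X) : C(X, X)) +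
      ContinuousMap.const X (c * N)) =
      cf (∑ j ∈ Finset.range N, f.comp ((h ^ (j : ℤ) : X ≃ₜ X) : C(X, X))) +
        ((c * N : ℝ) : ℂ) • (1 : C(X, ℂ)) := by
    ext x
    simp [cf_apply]
  rw [h3, map_add, map_add, Complex.add_re, key, key, map_smul, map_smul, map_one, τ.map_one,
    smul_eq_mul, mul_one, Complex.ofReal_re] at h2
  have hN' : (0 : ℝ) < N := by exact_mod_cast hN
  nlinarith

/-- entries of a matrix valued function, as matrices over the complex numbers -/
noncomputable def matAt {m : ℕ} (β : Fin m → Fin m → C(X, ℂ)) (x : X) :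
    CStarMatrix (Fin m) (Fin m) ℂ := CStarMatrix.ofMatrix fun k k' => β k k' x

theorem continuous_matAt {m : ℕ} (β : Fin m → Fin m → C(X, ℂ)) : Continuous (matAt β) := by
  have : Continuous fun x => (fun k k' => β k k' x : Matrix (Fin m) (Fin m) ℂ) := by
    refine continuous_pi fun k => continuous_pi fun k' => (β k k').continuous
  exact this

set_option backward.isDefEq.respectTransparency false in
theorem fullMat_nonneg (h : X ≃ₜ X) {m : ℕ} (β : Fin m → Fin m → C(X, ℂ))
    (hβ : ∀ x, (Matrix.of fun k k' => β k k' x).PosSemidef) : 0 ≤ fullMat h β := by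
  have hpos : ∀ x, 0 ≤ matAt β x := by
    intro x
    obtain ⟨B, hB⟩ := psd_factor (hβ x)
    rw [CStarAlgebra.nonneg_iff_eq_star_mul_self]
    exact ⟨CStarMatrix.ofMatrix B, hB⟩
  have hc : Continuous fun x => CFC.sqrt (matAt β x) :=
    CFC.continuousOn_sqrt.comp_continuous (continuous_matAt β) hpos
  let γ : Fin m → Fin m → C(X, ℂ) := fun k k' => ⟨fun x => CFC.sqrt (matAt β x) k k', by
    exact (continuous_apply_apply k k').comp hc⟩
  have hsa : ∀ x, star (CFC.sqrt (matAt β x)) = CFC.sqrt (matAt β x) := fun x =>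
    (IsSelfAdjoint.of_nonneg (CFC.sqrt_nonneg (matAt β x))).star_eq
  rw [CStarAlgebra.nonneg_iff_eq_star_mul_self]
  refine ⟨fullMat h γ, ?_⟩
  rw [fullMat_star, fullMat_mul]
  congr 1
  funext k k'
  ext x
  have h1 := CFC.sqrt_mul_sqrt_self (matAt β x) (hpos x)
  have h2 : (star (CFC.sqrt (matAt β x)) * CFC.sqrt (matAt β x)) k k' = β k k' x := by
    rw [hsa, h1]
    rfl
  rw [← h2, ContinuousMap.sum_apply]
  rfl

set_option backward.isDefEq.respectTransparency false in
theorem fullMat_le_one (h : X ≃ₜ X) {m : ℕ} (β : Fin m → Fin m → C(X, ℂ))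
    (hβ : ∀ x, (1 - Matrix.of fun k k' => β k k' x).PosSemidef) : fullMat h β ≤ 1 := by
  rw [← sub_nonneg, ← fullMat_one, fullMat_sub]
  refine fullMat_nonneg h _ fun x => ?_
  have := hβ x
  convert this using 1
  ext k k'
  simp only [Matrix.of_apply, Matrix.sub_apply, Matrix.one_apply, ContinuousMap.sub_apply]
  split_ifs <;> simp

/-- the trace of a positive matrix valued function, as a real function -/
noncomputable def trFun {m : ℕ} (β : Fin m → Fin m → C(X, ℂ)) : C(X, ℝ) :=
  ⟨fun x => ∑ k, (β k k x).re, by fun_prop⟩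

theorem trFun_apply {m : ℕ} (β : Fin m → Fin m → C(X, ℂ)) (x : X) :
    trFun β x = ∑ k, (β k k x).re := rfl

theorem traceEval_full (h : X ≃ₜ X) {m : ℕ} (τ : TracialState (CrossedProduct h))
    (β : Fin m → Fin m → C(X, ℂ))
    (hβ : ∀ x, (Matrix.of fun k k' => β k k' x).PosSemidef) :
    traceEval τ (fullMat h β) = (τ.toFun (piHom h (cf (trFun β)))).re := by
  unfold traceEval
  congr 1
  have h1 : cf (trFun β) = ∑ k, β k k := by
    ext x
    rw [cf_apply, trFun_apply, ContinuousMap.sum_apply, Complex.ofReal_sum]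
    refine Finset.sum_congr rfl fun k _ => ?_
    have h2 := (hβ x).1.apply k k
    simp only [Matrix.of_apply] at h2
    exact Complex.conj_eq_iff_re.1 h2
  rw [h1, map_sum, map_sum]
  rfl

end Crossed

end Vale.Agent.P093
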