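import Vale.Agent.P093.NC
import Vale.Agent.P093.TR
open Filter Topology Set
open scoped ENNReal ComplexOrder
set_option linter.unusedSectionVars false
namespace Vale.Agent.P093

variable {X : Type*} [TopologicalSpace X] [CompactSpace X]

set_option backward.isDefEq.respectTransparency false in
/-- Criterion: a real number `r` is not a comparison bound for the crossed product if there are
scalar functions `g l` and a matrix valued positive contraction `β` on `X` whose orbit averages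
differ by more than `r` and which admit test families of product of two-spheres. -/
theorem not_comparisonBound (h : X ≃ₜ X) {n m : ℕ} (g G : Fin n → C(X, ℝ))
    (β : Fin m → Fin m → C(X, ℂ)) (r r' : ℝ) (N₀ : ℕ) (hN₀ : 0 < N₀) (hr : r < r')
    (hg0 : ∀ l x, 0 ≤ g l x) (hg1 : ∀ l x, g l x ≤ 1) (hG0 : ∀ l x, 0 ≤ G l x)
    (hG : ∀ l x, g l x ≠ 0 → 1 ≤ G l x)
    (hβ : ∀ x, (Matrix.of fun k k' => β k k' x).PosSemidef)
    (hβ1 : ∀ x, (1 - Matrix.of fun k k' => β k k' x).PosSemidef)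
    (hav : ∀ x, ∑ j ∈ Finset.range N₀, ∑ l, G l ((h ^ (j : ℤ)) x) + r' * N₀ ≤
      ∑ j ∈ Finset.range N₀, ∑ k, (β k k ((h ^ (j : ℤ)) x)).re)
    (fam : ∀ R : ℕ, ∃ (N M t : ℕ) (ψ : (Fin M → S2) → X), Continuous ψ ∧
      ∃ (B₁ : (Fin N × Fin m → ℂ) →ₗ[ℂ] (Fin M × Fin 2 → ℂ))
        (B₂ : (Fin N × Fin m → ℂ) →ₗ[ℂ] (Fin t → ℂ)),
      (∀ v u, (∀ i, (hopf (v i)).mulVec (fun e => B₁ u (i, e)) = 0) → B₂ u = 0 →
        ∀ (j : Fin N) k, ∑ k', β k k' ((h ^ ((j : ℕ) : ℤ)) (ψ v)) * u (j, k') = 0) ∧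
      ∀ v, t < (Finset.univ.filter (fun p : Fin N × Fin n => R ≤ (p.1 : ℕ) ∧
        (p.1 : ℕ) + R < N ∧ g p.2 ((h ^ ((p.1 : ℕ) : ℤ)) (ψ v)) = 1)).card) :
    ¬ IsComparisonBound (CrossedProduct h) r := by
  rintro ⟨-, hcomp⟩
  have hle : CuntzLE (diagMat h (fun l => cf (g l))) (fullMat h β) := by
    refine hcomp n m _ _ (diagMat_nonneg h g hg0) (fullMat_nonneg h β hβ) fun τ => ?_
    have h1 := dTau_diag_le h τ g G hg0 hg1 hG0 hG
    have h2 := traceEval_le_dTau τ (fullMat_nonneg h β hβ) (fullMat_le_one h β hβ1)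
    rw [traceEval_full h τ β hβ] at h2
    have h3 := trace_average h τ (∑ l, G l) (trFun β) r' N₀ hN₀ (fun x => by
      have := hav x
      simp only [ContinuousMap.sum_apply, trFun_apply]
      exact this)
    linarith
  obtain ⟨R, hR⟩ := nc h β g hle
  obtain ⟨N, M, t, ψ, hψ, B₁, B₂, hB, hcard⟩ := fam R
  obtain ⟨v, hv⟩ := hR N M t ψ hψ B₁ B₂ hB
  exact absurd hv (not_le.2 (hcard v))

/-- lower bound for the radius of comparison -/
theorem le_radius (A : Type*) [CStarAlgebra A] [PartialOrder A] [StarOrderedRing A] (c : ℝ)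
    (hc : ∀ r, 0 ≤ r → r < c → ¬ IsComparisonBound A r) :
    ENNReal.ofReal c ≤ radiusOfComparison A := by
  unfold radiusOfComparison
  refine le_iInf fun r => ENNReal.ofReal_le_ofReal ?_
  by_contra hlt
  exact hc r.1 r.2.1 (not_le.1 hlt) r.2

end Vale.Agent.P093
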