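import Vale.Agent.P093.GCov

/-!
The star homomorphism from a generated C*-algebra onto the concrete crossed product.
-/

open Filter Topology Set
open scoped ComplexOrder

set_option linter.unusedSectionVars false

namespace Vale.Agent.P093

section GLam

variable {X : Type*} [TopologicalSpace X] [CompactSpace X] [T2Space X] {h : X ≃ₜ X}
  {A : Type*} [CStarAlgebra A] {π : C(X, ℂ) →⋆ₐ[ℂ] A} {u : A}

/-- type of closed pairs -/
def PairC (h : X ≃ₜ X) (π : C(X, ℂ) →⋆ₐ[ℂ] A) (u : A) : Type _ := pairAlgC h π u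

noncomputable instance : CStarAlgebra (PairC h π u) :=
  StarSubalgebra.cstarAlgebra (pairAlgC h π u)
    (h_closed := StarSubalgebra.isClosed_topologicalClosure _)

/-- the underlying pair -/
noncomputable def PairC.val (b : PairC h π u) : A × OpX X := Subtype.val b

/-- construct a pair -/
def PairC.mk (b : A × OpX X) (hb : b ∈ pairAlgC h π u) : PairC h π u :=
  (⟨b, hb⟩ : pairAlgC h π u)

/-- first projection -/
noncomputable def fstHom (h : X ≃ₜ X) (π : C(X, ℂ) →⋆ₐ[ℂ] A) (u : A) : PairC h π u →⋆ₐ[ℂ] A where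
  toFun b := b.val.1
  map_one' := rfl
  map_mul' _ _ := rfl
  map_zero' := rfl
  map_add' _ _ := rfl
  commutes' _ := rfl
  map_star' _ := rfl

/-- second projection -/
noncomputable def sndHom (h : X ≃ₜ X) (π : C(X, ℂ) →⋆ₐ[ℂ] A) (u : A) :
    PairC h π u →⋆ₐ[ℂ] OpX X where
  toFun b := b.val.2
  map_one' := rfl
  map_mul' _ _ := rfl
  map_zero' := rfl
  map_add' _ _ := rfl
  commutes' _ := rfl
  map_star' _ := rfl

theorem fstHom_injective (hfree : ∀ (k : ℤ) (x : X), k ≠ 0 → (h ^ k) x ≠ x)
    (hπ : Function.Injective π) (hu1 : star u * u = 1) (hu2 : u * star u = 1)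
    (hcov : ∀ f : C(X, ℂ), u * π f * star u = π (f.comp (h.symm : C(X, X)))) :
    Function.Injective (fstHom h π u) := by
  rw [injective_iff_map_eq_zero]
  intro b hb
  have h2 := snd_eq_zero hfree hπ hu1 hu2 hcov b.2 hb
  apply Subtype.ext
  exact Prod.ext hb h2

theorem fstHom_surjective (hfree : ∀ (k : ℤ) (x : X), k ≠ 0 → (h ^ k) x ≠ x)
    (hπ : Function.Injective π) (hu1 : star u * u = 1) (hu2 : u * star u = 1)
    (hcov : ∀ f : C(X, ℂ), u * π f * star u = π (f.comp (h.symm : C(X, X))))
    (hd : Dense (StarAlgebra.adjoin ℂ (Set.range π ∪ {u}) : Set A)) :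
    Function.Surjective (fstHom h π u) := by
  have hinj := fstHom_injective hfree hπ hu1 hu2 hcov
  have hiso : Isometry (fstHom h π u) := by
    refine AddMonoidHomClass.isometry_of_norm _ fun b => ?_
    exact NonUnitalStarAlgHom.norm_map (fstHom h π u) hinj b
  have hcl : IsClosed (Set.range (fstHom h π u)) := hiso.isClosedEmbedding.isClosed_range
  have hsub : (StarAlgebra.adjoin ℂ (Set.range π ∪ {u}) : StarSubalgebra ℂ A) ≤
      (fstHom h π u).range := by
    refine StarAlgebra.adjoin_le ?_
    rintro a (⟨f, rfl⟩ | ha)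
    · exact ⟨(⟨(π f, multOp h f), pair_mem_closure f⟩ : pairAlgC h π u), rfl⟩
    · rw [Set.mem_singleton_iff] at ha
      subst ha
      exact ⟨(⟨(a, shiftOp X), pair_u_mem_closure⟩ : pairAlgC h π a), rfl⟩
  have hall : closure (StarAlgebra.adjoin ℂ (Set.range π ∪ {u}) : Set A) ⊆
      Set.range (fstHom h π u) := closure_minimal (fun a ha => hsub ha) hcl
  rw [hd.closure_eq] at hall
  intro a
  exact hall (mem_univ a)

/-- **The comparison homomorphism.** -/
theorem exists_lam (hfree : ∀ (k : ℤ) (x : X), k ≠ 0 → (h ^ k) x ≠ x)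
    (hπ : Function.Injective π) (hu1 : star u * u = 1) (hu2 : u * star u = 1)
    (hcov : ∀ f : C(X, ℂ), u * π f * star u = π (f.comp (h.symm : C(X, X))))
    (hd : Dense (StarAlgebra.adjoin ℂ (Set.range π ∪ {u}) : Set A)) :
    ∃ Λ : A →⋆ₐ[ℂ] CrossedProduct h, (∀ f, Λ (π f) = piHom h f) ∧ Λ u = uElt h := by
  have hbij : Function.Bijective (fstHom h π u) :=
    ⟨fstHom_injective hfree hπ hu1 hu2 hcov, fstHom_surjective hfree hπ hu1 hu2 hcov hd⟩
  let e : PairC h π u ≃⋆ₐ[ℂ] A := StarAlgEquiv.ofBijective (fstHom h π u) hbij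
  have hmem : ∀ b ∈ pairAlgC h π u, b.2 ∈ crossedProductAlg h := by
    intro b hb
    have hcl : IsClosed {b : A × OpX X | b.2 ∈ (crossedProductAlg h : Set (OpX X))} :=
      (StarSubalgebra.isClosed_topologicalClosure _).preimage continuous_snd
    have hsub : ((pairAlg h π u : StarSubalgebra ℂ (A × OpX X)) : Set (A × OpX X)) ⊆
        {b : A × OpX X | b.2 ∈ (crossedProductAlg h : Set (OpX X))} := by
      have h1 : pairAlg h π u ≤ (crossedProductAlg h).comap (StarAlgHom.snd ℂ A (OpX X)) := by
        refine StarAlgebra.adjoin_le ?_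
        rintro a (⟨f, rfl⟩ | ha)
        · exact multOp_mem h f
        · rw [Set.mem_singleton_iff] at ha
          subst ha
          exact shiftOp_mem h
      exact fun a ha => h1 ha
    have hb' : b ∈ closure ((pairAlg h π u : StarSubalgebra ℂ (A × OpX X)) : Set (A × OpX X)) := by
      have h2 : b ∈ (pairAlgC h π u : Set (A × OpX X)) := hb
      unfold pairAlgC at h2
      rwa [StarSubalgebra.topologicalClosure_coe] at h2
    exact closure_minimal hsub hcl hb'
  have hmem' : ∀ b : PairC h π u, sndHom h π u b ∈ crossedProductAlg h := fun b => hmem _ b.2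
  let s : PairC h π u →⋆ₐ[ℂ] CrossedProduct h :=
    { toFun := fun b => (⟨sndHom h π u b, hmem' b⟩ : crossedProductAlg h)
      map_one' := rfl
      map_mul' := fun _ _ => rfl
      map_zero' := rfl
      map_add' := fun _ _ => rfl
      commutes' := fun _ => rfl
      map_star' := fun _ => rfl }
  refine ⟨s.comp (e.symm : A →⋆ₐ[ℂ] PairC h π u), fun f => ?_, ?_⟩
  · have h1 : e.symm (π f) = PairC.mk (π f, multOp h f) (pair_mem_closure f) := by
      refine (EquivLike.injective e) ?_
      exact StarAlgEquiv.apply_symm_apply e _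
    change s (e.symm (π f)) = _
    rw [h1]
    rfl
  · have h1 : e.symm u = PairC.mk (u, shiftOp X) pair_u_mem_closure := by
      refine (EquivLike.injective e) ?_
      exact StarAlgEquiv.apply_symm_apply e _
    change s (e.symm u) = _
    rw [h1]
    rfl

end GLam

end Vale.Agent.P093
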