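import Vale.Agent.P093.TR

/-!
Trace computations in a C*-algebra that contains a covariant pair.
-/

open Filter Topology Set
open scoped ENNReal ComplexOrder
set_option linter.unusedSectionVars false
set_option linter.unusedSimpArgs false
namespace Vale.Agent.P093

section CrossedG

variable {X : Type*} [TopologicalSpace X] [CompactSpace X]
  {A : Type*} [CStarAlgebra A] [PartialOrder A] [StarOrderedRing A] (π : C(X, ℂ) →⋆ₐ[ℂ] A)

/-- the diagonal matrix with entries `π (g l)` -/
noncomputable def diagM {n : ℕ} (g : Fin n → C(X, ℂ)) : CStarMatrix (Fin n) (Fin n) A :=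
  CStarMatrix.ofMatrix fun i l => if i = l then π (g l) else 0

/-- the matrix with entries `π (β i l)` -/
noncomputable def fullM {m : ℕ} (β : Fin m → Fin m → C(X, ℂ)) :
    CStarMatrix (Fin m) (Fin m) A :=
  CStarMatrix.ofMatrix fun i l => π (β i l)

theorem fullM_apply {m : ℕ} (β : Fin m → Fin m → C(X, ℂ)) (i j : Fin m) :
    fullM π β i j = π (β i j) := rfl

theorem fullM_mul {m : ℕ} (β γ : Fin m → Fin m → C(X, ℂ)) :
    fullM π β * fullM π γ = fullM π fun i k => ∑ j, β i j * γ j k := by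
  ext i k
  rw [fullM_apply]
  have h1 : (fullM π β * fullM π γ) i k = ∑ j, π (β i j) * π (γ j k) := rfl
  rw [h1, map_sum]
  simp_rw [map_mul]

theorem fullM_star {m : ℕ} (β : Fin m → Fin m → C(X, ℂ)) :
    star (fullM π β) = fullM π fun i j => star (β j i) := by
  ext i j
  rw [fullM_apply, map_star]
  rfl

theorem fullM_one {m : ℕ} :
    fullM π (fun i j => if i = j then (1 : C(X, ℂ)) else 0) =
      (1 : CStarMatrix (Fin m) (Fin m) A) := by
  ext i j
  rw [fullM_apply, CStarMatrix.one_apply]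
  split_ifs
  · exact map_one _
  · exact map_zero _

theorem fullM_sub {m : ℕ} (β γ : Fin m → Fin m → C(X, ℂ)) :
    fullM π β - fullM π γ = fullM π fun i j => β i j - γ i j := by
  ext i j
  rw [fullM_apply, CStarMatrix.sub_apply, map_sub]
  rfl

theorem diagM_eq {n : ℕ} (g : Fin n → C(X, ℂ)) :
    diagM π g = fullM π fun i l => if i = l then g l else 0 := by
  ext i l
  rw [fullM_apply]
  change (if i = l then π (g l) else 0) = _
  split_ifs
  · rfl
  · exact (map_zero _).symm

theorem diagM_mul {n : ℕ} (g g' : Fin n → C(X, ℂ)) :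
    diagM π g * diagM π g' = diagM π (g * g') := by
  rw [diagM_eq, diagM_eq, diagM_eq, fullM_mul]
  congr 1
  funext i k
  by_cases hik : i = k
  · subst hik
    simp
  · rw [if_neg hik]
    refine Finset.sum_eq_zero fun j _ => ?_
    by_cases hij : i = j
    · subst hij
      rw [if_neg hik, mul_zero]
    · rw [if_neg hij, zero_mul]

theorem diagM_one {n : ℕ} : diagM π (1 : Fin n → C(X, ℂ)) = 1 := by
  rw [diagM_eq, ← fullM_one π]
  rfl

theorem diagM_pow {n : ℕ} (g : Fin n → C(X, ℂ)) (k : ℕ) :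
    diagM π g ^ k = diagM π (g ^ k) := by
  induction k with
  | zero => rw [pow_zero, pow_zero, diagM_one]
  | succ k ih => rw [pow_succ, pow_succ, ih, diagM_mul]

theorem diagM_star {n : ℕ} (g : Fin n → C(X, ℂ)) :
    star (diagM π g) = diagM π (star g) := by
  rw [diagM_eq, diagM_eq, fullM_star]
  congr 1
  funext i j
  by_cases hij : i = j
  · subst hij
    simp
  · rw [if_neg hij, if_neg fun hh => hij hh.symm, star_zero]

theorem diagM_sub {n : ℕ} (g g' : Fin n → C(X, ℂ)) :
    diagM π g - diagM π g' = diagM π (g - g') := by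
  rw [diagM_eq, diagM_eq, diagM_eq, fullM_sub]
  congr 1
  funext i k
  by_cases hik : i = k
  · subst hik
    simp
  · simp [hik]

set_option backward.isDefEq.respectTransparency false in
theorem diagM_nonneg {n : ℕ} (g : Fin n → C(X, ℝ)) (hg : ∀ l x, 0 ≤ g l x) :
    0 ≤ diagM π (fun l => cf (g l)) := by
  rw [CStarAlgebra.nonneg_iff_eq_star_mul_self]
  refine ⟨diagM π (fun l => ⟨fun x => ((Real.sqrt (g l x) : ℝ) : ℂ), by fun_prop⟩), ?_⟩
  rw [diagM_star, diagM_mul]
  congr 1
  funext l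
  ext x
  simp only [Pi.mul_apply, Pi.star_apply, ContinuousMap.mul_apply, ContinuousMap.star_apply,
    ContinuousMap.coe_mk, RCLike.star_def, Complex.conj_ofReal, cf_apply]
  rw [← Complex.ofReal_mul, Real.mul_self_sqrt (hg l x)]

set_option backward.isDefEq.respectTransparency false in
theorem diagM_le_one {n : ℕ} (g : Fin n → C(X, ℝ)) (hg : ∀ l x, g l x ≤ 1) :
    diagM π (fun l => cf (g l)) ≤ 1 := by
  rw [← sub_nonneg, ← diagM_one π, diagM_sub]
  have := diagM_nonneg π (fun l => 1 - g l) (fun l x => by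
    simp only [ContinuousMap.sub_apply, ContinuousMap.one_apply]
    linarith [hg l x])
  convert this using 2
  funext l
  ext x
  simp [cf_apply]

theorem traceEval_diag' {n : ℕ} (τ : TracialState A)
    (g : Fin n → C(X, ℂ)) : traceEval τ (diagM π g) = (∑ l, τ.toFun (π (g l))).re := by
  unfold traceEval
  congr 2
  funext i
  congr 1
  change (if i = i then π (g i) else 0) = _
  rw [if_pos rfl]

/-- positivity of a trace on positive functions -/
theorem trace_fun_nonneg' (τ : TracialState A) (g : C(X, ℝ))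
    (hg : ∀ x, 0 ≤ g x) : 0 ≤ (τ.toFun (π (cf g))).re := by
  have h1 : cf g = star (⟨fun x => ((Real.sqrt (g x) : ℝ) : ℂ), by fun_prop⟩ : C(X, ℂ)) *
      ⟨fun x => ((Real.sqrt (g x) : ℝ) : ℂ), by fun_prop⟩ := by
    ext x
    simp only [ContinuousMap.mul_apply, ContinuousMap.star_apply,
      ContinuousMap.coe_mk, RCLike.star_def, Complex.conj_ofReal, cf_apply]
    rw [← Complex.ofReal_mul, Real.mul_self_sqrt (hg x)]
  rw [h1, map_mul, map_star]
  exact (Complex.nonneg_iff.1 (τ.nonneg _)).1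

theorem trace_fun_mono' (τ : TracialState A) (f g : C(X, ℝ))
    (hfg : ∀ x, f x ≤ g x) :
    (τ.toFun (π (cf f))).re ≤ (τ.toFun (π (cf g))).re := by
  have h1 := trace_fun_nonneg' π τ (g - f) (fun x => by
    simp only [ContinuousMap.sub_apply]; linarith [hfg x])
  have h2 : cf (g - f) = cf g - cf f := by
    ext x
    simp [cf_apply]
  rw [h2, map_sub, map_sub, Complex.sub_re] at h1
  linarith

set_option backward.isDefEq.respectTransparency false in
theorem dTau_diag_le' {n : ℕ} (τ : TracialState A)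
    (g G : Fin n → C(X, ℝ)) (hg0 : ∀ l x, 0 ≤ g l x) (hg1 : ∀ l x, g l x ≤ 1)
    (hG0 : ∀ l x, 0 ≤ G l x) (hG : ∀ l x, g l x ≠ 0 → 1 ≤ G l x) :
    dTau τ (diagM π (fun l => cf (g l))) ≤ (τ.toFun (π (cf (∑ l, G l)))).re := by
  refine dTau_le τ (diagM_nonneg π g hg0) (diagM_le_one π g hg1) _ fun m hm => ?_
  have hm0 : (0 : ℝ) < m := by exact_mod_cast hm
  let c : Fin n → C(X, ℝ) := fun l =>
    ⟨fun x => g l x ^ (1 / (m : ℝ)),
      (Real.continuous_rpow_const (by positivity)).comp (g l).continuous⟩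
  have hc : ∀ l x, c l x = g l x ^ (1 / (m : ℝ)) := fun l x => rfl
  have hc0 : ∀ l x, 0 ≤ c l x := fun l x => Real.rpow_nonneg (hg0 l x) _
  rw [cfc_root (c := diagM π (fun l => cf (c l))) hm (diagM_nonneg π c hc0) (by
    rw [diagM_pow]
    congr 1
    funext l
    ext x
    simp only [Pi.pow_apply, ContinuousMap.pow_apply, cf_apply, hc]
    rw [← Complex.ofReal_pow, ← Real.rpow_natCast, ← Real.rpow_mul (hg0 l x),
      one_div_mul_cancel hm0.ne', Real.rpow_one])]
  rw [traceEval_diag', ← map_sum, ← map_sum]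
  have h1 : ∑ l, cf (c l) = cf (∑ l, c l) := by
    ext x
    simp [cf_apply]
  rw [h1]
  refine trace_fun_mono' π τ _ _ fun x => ?_
  rw [ContinuousMap.sum_apply, ContinuousMap.sum_apply]
  refine Finset.sum_le_sum fun l _ => ?_
  rw [hc]
  by_cases h0 : g l x = 0
  · rw [h0, Real.zero_rpow (by positivity)]
    exact hG0 l x
  · exact (Real.rpow_le_one (hg0 l x) (hg1 l x) (by positivity)).trans (hG l x h0)


theorem trace_inv' (h : X ≃ₜ X) {u : A} (hu1 : star u * u = 1) (hu2 : u * star u = 1)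
    (hcov : ∀ f : C(X, ℂ), u * π f * star u = π (f.comp (h.symm : C(X, X))))
    (τ : TracialState A) (f : C(X, ℂ)) :
    τ.toFun (π (f.comp (h : C(X, X)))) = τ.toFun (π f) := by
  have h0 : (f.comp (h : C(X, X))).comp (h.symm : C(X, X)) = f := by
    ext x
    simp
  have h1 : π (f.comp (h : C(X, X))) = star u * (π f * u) := by
    have h2 := hcov (f.comp (h : C(X, X)))
    rw [h0] at h2
    rw [← h2, mul_assoc _ (star u), hu1, mul_one, ← mul_assoc, hu1, one_mul]
  rw [h1, τ.tracial, mul_assoc, hu2, mul_one]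

theorem trace_inv_pow' (h : X ≃ₜ X) {u : A} (hu1 : star u * u = 1) (hu2 : u * star u = 1)
    (hcov : ∀ f : C(X, ℂ), u * π f * star u = π (f.comp (h.symm : C(X, X))))
    (τ : TracialState A) (f : C(X, ℂ)) (j : ℕ) :
    τ.toFun (π (f.comp ((h ^ (j : ℤ) : X ≃ₜ X) : C(X, X)))) = τ.toFun (π f) := by
  induction j with
  | zero =>
    congr 2
  | succ j ih =>
    rw [← ih, ← trace_inv' π h hu1 hu2 hcov τ (f.comp ((h ^ (j : ℤ) : X ≃ₜ X) : C(X, X)))]
    congr 2

/-- averages along orbits control traces -/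
theorem trace_average' (h : X ≃ₜ X) {u : A} (hu1 : star u * u = 1) (hu2 : u * star u = 1)
    (hcov : ∀ f : C(X, ℂ), u * π f * star u = π (f.comp (h.symm : C(X, X))))
    (τ : TracialState A) (f g : C(X, ℝ)) (c : ℝ)
    (N : ℕ) (hN : 0 < N)
    (hav : ∀ x, ∑ j ∈ Finset.range N, f ((h ^ (j : ℤ)) x) + c * N ≤
      ∑ j ∈ Finset.range N, g ((h ^ (j : ℤ)) x)) :
    (τ.toFun (π (cf f))).re + c ≤ (τ.toFun (π (cf g))).re := by
  have key : ∀ f : C(X, ℝ), (τ.toFun (π (cf (∑ j ∈ Finset.range N,
      f.comp ((h ^ (j : ℤ) : X ≃ₜ X) : C(X, X)))))).re = N * (τ.toFun (π (cf f))).re := by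
    intro f
    have h1 : cf (∑ j ∈ Finset.range N, f.comp ((h ^ (j : ℤ) : X ≃ₜ X) : C(X, X))) =
        ∑ j ∈ Finset.range N, (cf f).comp ((h ^ (j : ℤ) : X ≃ₜ X) : C(X, X)) := by
      ext x
      simp [cf_apply]
    rw [h1, map_sum, map_sum]
    simp_rw [trace_inv_pow' π h hu1 hu2 hcov]
    simp
  have h2 := trace_fun_mono' π τ (∑ j ∈ Finset.range N, f.comp ((h ^ (j : ℤ) : X ≃ₜ X) : C(X, X)) +
    ContinuousMap.const X (c * N))
    (∑ j ∈ Finset.range N, g.comp ((h ^ (j : ℤ) : X ≃ₜ X) : C(X, X))) (fun x => by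
      simp only [ContinuousMap.add_apply, ContinuousMap.sum_apply, ContinuousMap.comp_apply,
        ContinuousMap.const_apply]
      exact hav x)
  have h3 : cf (∑ j ∈ Finset.range N, f.comp ((h ^ (j : ℤ) : X ≃ₜ X) : C(X, X)) +
      ContinuousMap.const X (c * N)) =
      cf (∑ j ∈ Finset.range N, f.comp ((h ^ (j : ℤ) : X ≃ₜ X) : C(X, X))) +
        ((c * N : ℝ) : ℂ) • (1 : C(X, ℂ)) := by
    ext x
    simp [cf_apply]
  rw [h3, map_add, map_add, Complex.add_re, key, key, map_smul, map_smul, map_one, τ.map_one,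
    smul_eq_mul, mul_one, Complex.ofReal_re] at h2
  have hN' : (0 : ℝ) < N := by exact_mod_cast hN
  nlinarith


set_option backward.isDefEq.respectTransparency false in
theorem fullM_nonneg {m : ℕ} (β : Fin m → Fin m → C(X, ℂ))
    (hβ : ∀ x, (Matrix.of fun k k' => β k k' x).PosSemidef) : 0 ≤ fullM π β := by
  have hpos : ∀ x, 0 ≤ matAt β x := by
    intro x
    obtain ⟨B, hB⟩ := psd_factor (hβ x)
    rw [CStarAlgebra.nonneg_iff_eq_star_mul_self]
    exact ⟨CStarMatrix.ofMatrix B, hB⟩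
  have hc : Continuous fun x => CFC.sqrt (matAt β x) :=
    CFC.continuousOn_sqrt.comp_continuous (continuous_matAt β) hpos
  let γ : Fin m → Fin m → C(X, ℂ) := fun k k' => ⟨fun x => CFC.sqrt (matAt β x) k k', by
    exact (continuous_apply_apply k k').comp hc⟩
  have hsa : ∀ x, star (CFC.sqrt (matAt β x)) = CFC.sqrt (matAt β x) := fun x =>
    (IsSelfAdjoint.of_nonneg (CFC.sqrt_nonneg (matAt β x))).star_eq
  rw [CStarAlgebra.nonneg_iff_eq_star_mul_self]
  refine ⟨fullM π γ, ?_⟩
  rw [fullM_star, fullM_mul]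
  congr 1
  funext k k'
  ext x
  have h1 := CFC.sqrt_mul_sqrt_self (matAt β x) (hpos x)
  have h2 : (star (CFC.sqrt (matAt β x)) * CFC.sqrt (matAt β x)) k k' = β k k' x := by
    rw [hsa, h1]
    rfl
  rw [← h2, ContinuousMap.sum_apply]
  rfl

set_option backward.isDefEq.respectTransparency false in
theorem fullM_le_one {m : ℕ} (β : Fin m → Fin m → C(X, ℂ))
    (hβ : ∀ x, (1 - Matrix.of fun k k' => β k k' x).PosSemidef) : fullM π β ≤ 1 := by
  rw [← sub_nonneg, ← fullM_one π, fullM_sub]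
  refine fullM_nonneg π _ fun x => ?_
  have := hβ x
  convert this using 1
  ext k k'
  simp only [Matrix.of_apply, Matrix.sub_apply, Matrix.one_apply, ContinuousMap.sub_apply]
  split_ifs <;> simp

theorem traceEval_full' {m : ℕ} (τ : TracialState A)
    (β : Fin m → Fin m → C(X, ℂ))
    (hβ : ∀ x, (Matrix.of fun k k' => β k k' x).PosSemidef) :
    traceEval τ (fullM π β) = (τ.toFun (π (cf (trFun β)))).re := by
  unfold traceEval
  congr 1
  have h1 : cf (trFun β) = ∑ k, β k k := by
    ext x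
    rw [cf_apply, trFun_apply, ContinuousMap.sum_apply, Complex.ofReal_sum]
    refine Finset.sum_congr rfl fun k _ => ?_
    have h2 := (hβ x).1.apply k k
    simp only [Matrix.of_apply] at h2
    exact Complex.conj_eq_iff_re.1 h2
  rw [h1, map_sum, map_sum]
  rfl

end CrossedG

end Vale.Agent.P093
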