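import Vale.Agent.P093.Criterion
import Vale.Agent.P093.TRG
import Vale.Agent.P093.GLam

/-!
The criterion for an arbitrary C*-algebra generated by a covariant pair.
-/

open Filter Topology Set
open scoped ENNReal ComplexOrder
set_option linter.unusedSectionVars false
namespace Vale.Agent.P093

variable {X : Type*} [TopologicalSpace X] [CompactSpace X] [T2Space X]
  {A : Type*} [CStarAlgebra A] [PartialOrder A] [StarOrderedRing A]

set_option backward.isDefEq.respectTransparency false in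
theorem cuntzLE_map {h : X ≃ₜ X} {π : C(X, ℂ) →⋆ₐ[ℂ] A} (Λ : A →⋆ₐ[ℂ] CrossedProduct h)
    (hΛ : ∀ f, Λ (π f) = piHom h f) {m n : ℕ} (g : Fin n → C(X, ℂ))
    (β : Fin m → Fin m → C(X, ℂ)) (hle : CuntzLE (diagM π g) (fullM π β)) :
    CuntzLE (diagMat h g) (fullMat h β) := by
  obtain ⟨x, hx⟩ := hle
  have hcont : Continuous Λ := by
    exact map_continuous Λ
  refine ⟨fun k => CStarMatrix.ofMatrix fun i l => Λ (x k i l), ?_⟩
  have hx' : ∀ i l, Tendsto (fun k => ((x k).conjTranspose * fullM π β * x k) i l) atTop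
      (𝓝 (diagM π g i l)) := by
    intro i l
    exact ((continuous_apply_apply i l).tendsto _).comp hx
  have hent : ∀ k i l, ((CStarMatrix.ofMatrix fun i l => Λ (x k i l) :
      CStarMatrix (Fin m) (Fin n) (CrossedProduct h)).conjTranspose * fullMat h β *
      (CStarMatrix.ofMatrix fun i l => Λ (x k i l))) i l =
      Λ (((x k).conjTranspose * fullM π β * x k) i l) := by
    intro k i l
    rw [mul_entry]
    have h1 : ((x k).conjTranspose * fullM π β * x k) i l =
      ∑ κ', (∑ κ, star (x k κ i) * π (β κ κ')) * x k κ' l := rfl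
    rw [h1, sum_swap_aux (fun κ => star (x k κ i)) (fun κ κ' => π (β κ κ')) (fun κ' => x k κ' l),
      map_sum]
    refine Finset.sum_congr rfl fun κ _ => ?_
    rw [map_sum]
    refine Finset.sum_congr rfl fun κ' _ => ?_
    rw [map_mul, map_mul, map_star, hΛ]
    rfl
  have hdiag : ∀ i l, diagMat h g i l = Λ (diagM π g i l) := by
    intro i l
    change (if i = l then piHom h (g l) else 0) = Λ (if i = l then π (g l) else 0)
    split_ifs
    · exact (hΛ _).symm
    · exact (map_zero Λ).symm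
  refine tendsto_pi_nhds.2 fun i => tendsto_pi_nhds.2 fun l => ?_
  have h2 : Tendsto (fun k => Λ (((x k).conjTranspose * fullM π β * x k) i l)) atTop
      (𝓝 (Λ (diagM π g i l))) := (hcont.tendsto _).comp (hx' i l)
  rw [← hdiag] at h2
  refine h2.congr fun k => ?_
  exact (hent k i l).symm

set_option backward.isDefEq.respectTransparency false in
/-- **Criterion** for algebras generated by a covariant pair. -/
theorem not_comparisonBound' {h : X ≃ₜ X} (hfree : ∀ (k : ℤ) (x : X), k ≠ 0 → (h ^ k) x ≠ x)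
    (hA : IsCrossedProduct h A) {n m : ℕ} (g G : Fin n → C(X, ℝ))
    (β : Fin m → Fin m → C(X, ℂ)) (r r' : ℝ) (N₀ : ℕ) (hN₀ : 0 < N₀) (hr : r < r')
    (hg0 : ∀ l x, 0 ≤ g l x) (hg1 : ∀ l x, g l x ≤ 1) (hG0 : ∀ l x, 0 ≤ G l x)
    (hG : ∀ l x, g l x ≠ 0 → 1 ≤ G l x)
    (hβ : ∀ x, (Matrix.of fun k k' => β k k' x).PosSemidef)
    (hβ1 : ∀ x, (1 - Matrix.of fun k k' => β k k' x).PosSemidef)
    (hav : ∀ x, ∑ j ∈ Finset.range N₀, ∑ l, G l ((h ^ (j : ℤ)) x) + r' * N₀ ≤
      ∑ j ∈ Finset.range N₀, ∑ k, (β k k ((h ^ (j : ℤ)) x)).re)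
    (fam : ∀ R : ℕ, ∃ (N M t : ℕ) (ψ : (Fin M → S2) → X), Continuous ψ ∧
      ∃ (B₁ : (Fin N × Fin m → ℂ) →ₗ[ℂ] (Fin M × Fin 2 → ℂ))
        (B₂ : (Fin N × Fin m → ℂ) →ₗ[ℂ] (Fin t → ℂ)),
      (∀ v u, (∀ i, (hopf (v i)).mulVec (fun e => B₁ u (i, e)) = 0) → B₂ u = 0 →
        ∀ (j : Fin N) k, ∑ k', β k k' ((h ^ ((j : ℕ) : ℤ)) (ψ v)) * u (j, k') = 0) ∧
      ∀ v, t < (Finset.univ.filter (fun p : Fin N × Fin n => R ≤ (p.1 : ℕ) ∧
        (p.1 : ℕ) + R < N ∧ g p.2 ((h ^ ((p.1 : ℕ) : ℤ)) (ψ v)) = 1)).card) :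
    ¬ IsComparisonBound A r := by
  obtain ⟨π, u, hπ, hu1, hu2, hcov, hd⟩ := hA
  obtain ⟨Λ, hΛ, -⟩ := exists_lam hfree hπ hu1 hu2 hcov hd
  rintro ⟨-, hcomp⟩
  have hle : CuntzLE (diagM π (fun l => cf (g l))) (fullM π β) := by
    refine hcomp n m _ _ (diagM_nonneg π g hg0) (fullM_nonneg π β hβ) fun τ => ?_
    have h1 := dTau_diag_le' π τ g G hg0 hg1 hG0 hG
    have h2 := traceEval_le_dTau τ (fullM_nonneg π β hβ) (fullM_le_one π β hβ1)
    rw [traceEval_full' π τ β hβ] at h2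
    have h3 := trace_average' π h hu1 hu2 hcov τ (∑ l, G l) (trFun β) r' N₀ hN₀ (fun x => by
      have := hav x
      simp only [ContinuousMap.sum_apply, trFun_apply]
      exact this)
    linarith
  obtain ⟨R, hR⟩ := nc h β g (cuntzLE_map Λ hΛ _ β hle)
  obtain ⟨N, M, t, ψ, hψ, B₁, B₂, hB, hcard⟩ := fam R
  obtain ⟨v, hv⟩ := hR N M t ψ hψ B₁ B₂ hB
  exact absurd hv (not_le.2 (hcard v))

/-- the concrete crossed product is generated by a covariant pair -/
theorem isCrossedProduct_crossedProduct (h : X ≃ₜ X) : IsCrossedProduct h (CrossedProduct h) := by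
  refine ⟨piHom h, uElt h, ?_, star_u_mul_u h, u_mul_star_u h, fun f => ?_, ?_⟩
  · intro f g hfg
    have h1 : multOp h f = multOp h g := congrArg toOp hfg
    ext x
    have h2 : multOp h f (dvec 0 x) (0, x) = multOp h g (dvec 0 x) (0, x) := by rw [h1]
    rw [multOp_dvec, multOp_dvec, lp.coeFn_smul, lp.coeFn_smul, Pi.smul_apply, Pi.smul_apply,
      dvec_apply] at h2
    simpa using h2
  · have h0 : (f.comp (h.symm : C(X, X))).comp (h : C(X, X)) = f := by
      ext x
      simp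
    have h1 := u_pi h (f.comp (h.symm : C(X, X)))
    rw [h0] at h1
    rw [h1, mul_assoc, u_mul_star_u, mul_one]
  · rw [dense_iff_closure_eq, eq_univ_iff_forall]
    intro a
    have h1 : (toOp a) ∈ closure
        ((StarAlgebra.adjoin ℂ (Set.range (multOp h) ∪ {shiftOp X}) :
          StarSubalgebra ℂ (Ell2 X →L[ℂ] Ell2 X)) : Set (Ell2 X →L[ℂ] Ell2 X)) := by
      have h1 : toOp a ∈ (crossedProductAlg h : Set (Ell2 X →L[ℂ] Ell2 X)) := a.2
      unfold crossedProductAlg at h1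
      rw [StarSubalgebra.topologicalClosure_coe] at h1
      exact h1
    obtain ⟨s, hs, hlim⟩ := mem_closure_iff_seq_limit.1 h1
    have key : ∀ T ∈ StarAlgebra.adjoin ℂ (Set.range (multOp h) ∪ {shiftOp X}),
        ∃ b : CrossedProduct h, b ∈ StarAlgebra.adjoin ℂ (Set.range (piHom h) ∪ {uElt h}) ∧
          toOp b = T := by
      intro T hT
      have h2 : StarAlgebra.adjoin ℂ (Set.range (multOp h) ∪ {shiftOp X}) ≤
          (StarAlgebra.adjoin ℂ (Set.range (piHom h) ∪ {uElt h})).map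
            (crossedProductAlg h).subtype := by
        refine StarAlgebra.adjoin_le ?_
        rintro T (⟨f, rfl⟩ | hT)
        · exact ⟨piHom h f, StarAlgebra.subset_adjoin ℂ _ (Or.inl ⟨f, rfl⟩), rfl⟩
        · rw [Set.mem_singleton_iff] at hT
          subst hT
          exact ⟨uElt h, StarAlgebra.subset_adjoin ℂ _ (Or.inr rfl), rfl⟩
      obtain ⟨b, hb, hbT⟩ := h2 hT
      exact ⟨b, hb, hbT⟩
    choose! b hb hbT using key
    refine mem_closure_iff_seq_limit.2 ⟨fun k => b (s k), fun k => hb _ (hs k), ?_⟩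
    refine tendsto_subtype_rng.2 ?_
    refine hlim.congr fun k => ?_
    exact (hbT _ (hs k)).symm

end Vale.Agent.P093
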