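import Vale.Agent.P093.MathlibUsed

/-!
The crossed product of `C(X)` by a homeomorphism `h`, characterized by generators and relations.
-/

open Topology

namespace Vale.Agent.P093

/-- `A` is generated as a C*-algebra by a copy of `C(X)` and a unitary `u` that implements `h`:
`u f u* = f ∘ h⁻¹`. When `h` is minimal and `X` is infinite, `C(X) ⋊_h ℤ` is simple, so this says
exactly that `A` is isomorphic to `C(X) ⋊_h ℤ`. -/
def IsCrossedProduct {X : Type*} [TopologicalSpace X] [CompactSpace X] (h : X ≃ₜ X)
    (A : Type*) [CStarAlgebra A] : Prop :=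
  ∃ (π : C(X, ℂ) →⋆ₐ[ℂ] A) (u : A), Function.Injective π ∧ star u * u = 1 ∧ u * star u = 1 ∧
    (∀ f : C(X, ℂ), u * π f * star u = π (f.comp (h.symm : C(X, X)))) ∧
    Dense (StarAlgebra.adjoin ℂ (Set.range π ∪ {u}) : Set A)

end Vale.Agent.P093
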