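import Vale.Agent.P093.Forms2
import Mathlib.Analysis.Calculus.ContDiff.RCLike
import Mathlib.Analysis.Complex.Basic
import Mathlib.Analysis.SpecialFunctions.Exp

/-!
Sections of line bundles on the torus with nonzero product of curvatures have a common zero.
-/

open MeasureTheory Set
open scoped ContDiff

namespace Vale.Agent.P093

noncomputable section

/-- smooth cut-off of the inverse -/
def cutInv (ε : ℝ) (z : ℂ) : ℂ :=
  (Real.smoothTransition ((2 * Complex.normSq z - ε) / ε) : ℂ) * z⁻¹

theorem normSq_contDiff {n : WithTop ℕ∞} : ContDiff ℝ n (fun z : ℂ => Complex.normSq z) := by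
  have h : (fun z : ℂ => Complex.normSq z) = fun z => Complex.reCLM z * Complex.reCLM z +
      Complex.imCLM z * Complex.imCLM z := by
    funext z; simp [Complex.normSq_apply]
  rw [h]
  exact (Complex.reCLM.contDiff.mul Complex.reCLM.contDiff).add
    (Complex.imCLM.contDiff.mul Complex.imCLM.contDiff)

theorem cutInv_contDiff {ε : ℝ} (hε : 0 < ε) {n : ℕ∞} : ContDiff ℝ n (cutInv ε) := by
  rw [contDiff_iff_contDiffAt]
  intro z
  by_cases hz : z = 0
  · subst hz
    have h0 : cutInv ε =ᶠ[nhds 0] fun _ => (0 : ℂ) := by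
      have hc : Continuous (fun z : ℂ => Complex.normSq z) := Complex.continuous_normSq
      have : ∀ᶠ z in nhds (0 : ℂ), Complex.normSq z < ε / 2 := by
        apply hc.continuousAt.eventually_lt continuousAt_const
        simp only [map_zero]; positivity
      filter_upwards [this] with w hw
      unfold cutInv
      rw [Real.smoothTransition.zero_of_nonpos]
      · simp
      · apply div_nonpos_of_nonpos_of_nonneg _ hε.le
        linarith
    exact contDiffAt_const.congr_of_eventuallyEq h0
  · unfold cutInv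
    apply ContDiffAt.mul
    · have h1 : ContDiff ℝ n (fun z : ℂ => Real.smoothTransition
          ((2 * Complex.normSq z - ε) / ε)) := by
        apply Real.smoothTransition.contDiff.comp
        exact ((contDiff_const.mul normSq_contDiff).sub contDiff_const).div_const _
      exact (Complex.ofRealCLM.contDiff.comp h1).contDiffAt
    · exact contDiffAt_inv ℝ hz

theorem cutInv_mul {ε : ℝ} {z : ℂ} (hε : 0 < ε) (hz : ε ≤ Complex.normSq z) :
    cutInv ε z * z = 1 := by
  have hz0 : z ≠ 0 := by
    rintro rfl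
    simp at hz
    linarith
  unfold cutInv
  rw [Real.smoothTransition.one_of_one_le]
  · simp [hz0]
  · rw [le_div_iff₀ hε]; linarith

theorem cutInv_phase {ε : ℝ} {z c : ℂ} (hc : Complex.normSq c = 1) :
    cutInv ε (c * z) = c⁻¹ * cutInv ε z := by
  unfold cutInv
  rw [map_mul, hc, one_mul, mul_inv]
  ring

section Eta

variable {ι : Type*} [Fintype ι] [DecidableEq ι]
variable {Λ : Type*} [NormedRing Λ] [NormedAlgebra ℂ Λ]

theorem dd_shift {e : ι → Λ} {f : (ι → ℝ) → Λ} (v x : ι → ℝ) :
    dd e f (x + v) = dd e (fun y => f (y + v)) x := by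
  unfold dd pd
  apply Finset.sum_congr rfl
  intro i _
  rw [fderiv_comp_add_right]

theorem dd_sc_phase {e : ι → Λ} (k : ι) (c : ℂ) (x : ι → ℝ) :
    dd e (sc Λ (fun y : ι → ℝ => Complex.exp (c * (y k : ℂ)))) x =
      e k * algebraMap ℂ Λ c * sc Λ (fun y : ι → ℝ => Complex.exp (c * (y k : ℂ))) x := by
  unfold dd
  have hd : HasFDerivAt (fun y : ι → ℝ => Complex.exp (c * (y k : ℂ)))
      (Complex.exp (c * (x k : ℂ)) • (c • coordL k)) x := by
    have h1 : HasFDerivAt (fun y : ι → ℝ => c * (y k : ℂ)) (c • coordL k) x :=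
      ((coordL k).hasFDerivAt (x := x)).const_mul c
    exact h1.cexp
  have h2 := ((scL Λ).hasFDerivAt (x := Complex.exp (c * (x k : ℂ)))).comp x hd
  have h3 : ∀ i, pd i (sc Λ (fun y : ι → ℝ => Complex.exp (c * (y k : ℂ)))) x =
      algebraMap ℂ Λ (Complex.exp (c * (x k : ℂ)) * (c * (if k = i then 1 else 0))) := by
    intro i
    unfold pd
    have : fderiv ℝ (sc Λ (fun y : ι → ℝ => Complex.exp (c * (y k : ℂ)))) x =
      (scL Λ).comp (Complex.exp (c * (x k : ℂ)) • (c • coordL k)) := h2.fderiv
    rw [this]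
    change algebraMap ℂ Λ _ = _
    congr 1
    change Complex.exp (c * (x k : ℂ)) * (c * ((Pi.single i (1 : ℝ) : ι → ℝ) k : ℂ)) = _
    by_cases h : k = i
    · subst h; simp
    · simp [h]
  simp only [h3]
  rw [Finset.sum_eq_single k]
  · simp only [if_true, mul_one, map_mul, sc]
    rw [mul_assoc, Algebra.commutes (Complex.exp _)]
  · intro b _ hb
    simp [hb.symm]
  · simp

theorem eta_smooth {m : ℕ} (X Y : Fin m → ι) (d : Fin m → ℤ) (e : ι → Λ)
    {f g : (ι → ℝ) → ℂ} (hf : ContDiff ℝ 3 f) (hg : ContDiff ℝ 2 g) :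
    ContDiff ℝ 2 (eta X Y d e f g) := by
  have hF : ContDiff ℝ 3 (sc Λ f) := sc_contDiff hf
  have hG : ContDiff ℝ 2 (sc Λ g) := sc_contDiff hg
  have hdF : ContDiff ℝ 2 (dd e (sc Λ f)) := by
    unfold dd
    apply ContDiff.sum
    intro i _
    exact contDiff_const.mul (pd_contDiff (n := 2) (by exact hF) i)
  exact hG.mul (hdF.sub ((hF.of_le (by norm_num)).mul (conn_contDiff X Y d e)))

theorem eta_odd {m : ℕ} (X Y : Fin m → ι) (d : Fin m → ℤ) {e : ι → Λ}
    (he : ∀ i j, e i * e j = - (e j * e i))
    {f g : (ι → ℝ) → ℂ} (hf : ContDiff ℝ 3 f) (i : ι) (x : ι → ℝ) :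
    eta X Y d e f g x * e i = - (e i * eta X Y d e f g x) := by
  have h1 : dd e (sc Λ f) x * e i = - (e i * dd e (sc Λ f) x) := by
    unfold dd
    rw [Finset.sum_mul, Finset.mul_sum, ← Finset.sum_neg_distrib]
    apply Finset.sum_congr rfl
    intro j _
    rw [mul_assoc, pd_sc_comm (hf.differentiable (by norm_num)), ← mul_assoc, he j i]
    simp [mul_assoc]
  have h2 : conn X Y d e x * e i = - (e i * conn X Y d e x) := by
    unfold conn
    rw [Finset.sum_mul, Finset.mul_sum, ← Finset.sum_neg_distrib]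
    apply Finset.sum_congr rfl
    intro j _
    rw [mul_assoc, Algebra.commutes, ← mul_assoc, he (X j) i]
    simp [mul_assoc]
  unfold eta
  rw [mul_assoc, sub_mul, h1, mul_assoc, h2, sc_comm g, sc_comm g]
  simp only [mul_sub, sub_mul, mul_neg, neg_mul]
  have h3 : sc Λ f x * (e i * conn X Y d e x) = e i * (sc Λ f x * conn X Y d e x) := by
    rw [← mul_assoc, sc_comm f x (e i), mul_assoc]
  rw [h3]
  simp only [mul_assoc]
  abel

theorem eta_per {m : ℕ} {X Y : Fin m → ι} {d : Fin m → ℤ} {e : ι → Λ}
    {f : (ι → ℝ) → ℂ} (hq : Quasi X Y d f) {ε : ℝ}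
    (hX : Function.Injective Y) (hXY : ∀ j j', X j ≠ Y j')
    (hs : ∀ i, (∃ j, i = X j) ∨ ∃ j, i = Y j) :
    Per (eta X Y d e f (fun x => cutInv ε (f x))) := by
  intro i x
  rcases hs i with ⟨j, rfl⟩ | ⟨j, rfl⟩
  · have h1 : sc Λ (fun x => cutInv ε (f x)) (x + Pi.single (X j) 1) =
        sc Λ (fun x => cutInv ε (f x)) x := by
      unfold sc; simp only [hq.qx]
    have h2 : sc Λ f (x + Pi.single (X j) 1) = sc Λ f x := by
      unfold sc; rw [hq.qx]
    have h3 : conn X Y d e (x + Pi.single (X j) 1) = conn X Y d e x := by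
      unfold conn
      apply Finset.sum_congr rfl
      intro j' _
      rw [Pi.add_apply, Pi.single_eq_of_ne (hXY j j').symm, add_zero]
    have h4 : dd e (sc Λ f) (x + Pi.single (X j) 1) = dd e (sc Λ f) x := by
      rw [dd_shift]
      congr 1
      funext y
      unfold sc; rw [hq.qx]
    unfold eta
    rw [h1, h2, h3, h4]
  · set c : (ι → ℝ) → ℂ := fun y => Complex.exp (2 * Real.pi * Complex.I * (d j) * (y (X j)))
      with hc
    have hcn : ∀ y, Complex.normSq (c y) = 1 := by
      intro y
      simp only [hc]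
      have : (2 * Real.pi * Complex.I * (d j) * (y (X j)) : ℂ) =
          ((2 * Real.pi * (d j) * (y (X j)) : ℝ) : ℂ) * Complex.I := by
        push_cast; ring
      rw [this, Complex.normSq_eq_norm_sq, Complex.norm_exp_ofReal_mul_I]
      norm_num
    have hc0 : c x ≠ 0 := Complex.exp_ne_zero _
    have h1 : sc Λ (fun x => cutInv ε (f x)) (x + Pi.single (Y j) 1) =
        algebraMap ℂ Λ (c x)⁻¹ * sc Λ (fun x => cutInv ε (f x)) x := by
      have h0 : cutInv ε (f (x + Pi.single (Y j) 1)) = (c x)⁻¹ * cutInv ε (f x) := by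
        rw [hq.qy]; exact cutInv_phase (hcn x)
      unfold sc
      simp only [h0, map_mul]
    have h2 : sc Λ f (x + Pi.single (Y j) 1) = algebraMap ℂ Λ (c x) * sc Λ f x := by
      unfold sc; rw [hq.qy, map_mul]
    have h3 : conn X Y d e (x + Pi.single (Y j) 1) = conn X Y d e x +
        e (X j) * algebraMap ℂ Λ (2 * Real.pi * Complex.I * (d j)) := by
      unfold conn
      have : ∀ j', e (X j') * algebraMap ℂ Λ (2 * Real.pi * Complex.I * (d j') *
          (((x + Pi.single (Y j) (1 : ℝ) : ι → ℝ) (Y j') : ℝ) : ℂ)) =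
          e (X j') * algebraMap ℂ Λ (2 * Real.pi * Complex.I * (d j') * (x (Y j'))) +
          (if j' = j then e (X j) * algebraMap ℂ Λ (2 * Real.pi * Complex.I * (d j)) else 0) := by
        intro j'
        by_cases h : j' = j
        · subst h
          simp only [Pi.add_apply, Pi.single_eq_same, if_true]
          rw [← mul_add, ← map_add]
          congr 2
          push_cast; ring
        · have h' : Y j' ≠ Y j := fun hh => h (hX hh)
          simp [h, h']
      simp only [this]
      rw [Finset.sum_add_distrib]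
      simp
    have h4 : dd e (sc Λ f) (x + Pi.single (Y j) 1) =
        e (X j) * algebraMap ℂ Λ (2 * Real.pi * Complex.I * (d j)) *
          algebraMap ℂ Λ (c x) * sc Λ f x + algebraMap ℂ Λ (c x) * dd e (sc Λ f) x := by
      rw [dd_shift]
      have : (fun y => sc Λ f (y + Pi.single (Y j) 1)) = fun y => sc Λ c y * sc Λ f y := by
        funext y
        unfold sc; rw [hq.qy, map_mul]
      rw [this]
      have hcs : ContDiff ℝ 1 (sc Λ c) := by
        apply sc_contDiff
        simp only [hc]
        exact (contDiff_const.mul (coordL (X j)).contDiff).cexp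
      rw [dd_even_mul (fun i => sc_comm _ _ _) (hcs.differentiable one_ne_zero x)
        ((sc_contDiff hq.smooth).differentiable (by norm_num) x)]
      have h5 := dd_sc_phase (e := e) (X j) (2 * Real.pi * Complex.I * (d j)) x
      rw [show sc Λ c = sc Λ (fun y : ι → ℝ => Complex.exp ((2 * Real.pi * Complex.I * (d j)) *
        (y (X j) : ℂ))) from rfl, h5]
      rfl
    have h6 : dd e (sc Λ f) (x + Pi.single (Y j) 1) - sc Λ f (x + Pi.single (Y j) 1) *
        conn X Y d e (x + Pi.single (Y j) 1) =
        algebraMap ℂ Λ (c x) * (dd e (sc Λ f) x - sc Λ f x * conn X Y d e x) := by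
      rw [h2, h3, h4]
      have h7 : e (X j) * algebraMap ℂ Λ (2 * Real.pi * Complex.I * (d j)) *
          algebraMap ℂ Λ (c x) * sc Λ f x = algebraMap ℂ Λ (c x) * sc Λ f x *
          (e (X j) * algebraMap ℂ Λ (2 * Real.pi * Complex.I * (d j))) := by
        unfold sc
        rw [mul_assoc, ← map_mul, ← Algebra.commutes]
      rw [h7, mul_add, mul_sub, mul_assoc]
      simp only [mul_assoc]
      abel
    unfold eta
    rw [h6, h1]
    have h8 : algebraMap ℂ Λ (c x)⁻¹ * algebraMap ℂ Λ (c x) = 1 := by
      rw [← map_mul, inv_mul_cancel₀ hc0, map_one]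
    calc algebraMap ℂ Λ (c x)⁻¹ * sc Λ (fun x => cutInv ε (f x)) x *
          (algebraMap ℂ Λ (c x) * (dd e (sc Λ f) x - sc Λ f x * conn X Y d e x))
        = (algebraMap ℂ Λ (c x)⁻¹ * algebraMap ℂ Λ (c x)) *
          (sc Λ (fun x => cutInv ε (f x)) x *
            (dd e (sc Λ f) x - sc Λ f x * conn X Y d e x)) := by
          rw [mul_assoc, mul_assoc, ← mul_assoc (sc Λ _ x), sc_comm _ x (algebraMap ℂ Λ (c x)),
            mul_assoc]
      _ = _ := by rw [h8, one_mul]

end Eta

section Zero

variable {N : ℕ} {Λ : Type*} [NormedRing Λ] [NormedAlgebra ℂ Λ] [CompleteSpace Λ]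

theorem curv_comm {m : ℕ} {ι : Type*} (X Y : Fin m → ι) (d : Fin m → ℤ) {e : ι → Λ}
    (he : ∀ i j, e i * e j = - (e j * e i)) (i : ι) :
    curv X Y d e * e i = e i * curv X Y d e := by
  unfold curv
  rw [Finset.sum_mul, Finset.mul_sum]
  apply Finset.sum_congr rfl
  intro j _
  rw [mul_assoc, Algebra.commutes, ← mul_assoc, mul_assoc (e (X j)), he (Y j) i, mul_neg,
    ← mul_assoc, he (X j) i]
  simp [mul_assoc]

/-- sections whose curvature product is nonzero have a common zero -/
theorem exists_common_zero {m r : ℕ} {X Y : Fin m → Fin (N + 1)} {e : Fin (N + 1) → Λ}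
    (he : ∀ i j, e i * e j = - (e j * e i))
    (hX : Function.Injective Y) (hXY : ∀ j j', X j ≠ Y j')
    (hs : ∀ i, (∃ j, i = X j) ∨ ∃ j, i = Y j)
    (d : Fin r → Fin m → ℤ) (f : Fin r → (Fin (N + 1) → ℝ) → ℂ)
    (hf : ∀ l, Quasi X Y (d l) (f l))
    (hprod : (List.ofFn fun l => curv X Y (d l) e).prod ≠ 0) :
    ∃ x, ∀ l, f l x = 0 := by
  by_contra hcon
  push Not at hcon
  have hS : Continuous (fun x : Fin (N + 1) → ℝ => ∑ l, Complex.normSq (f l x)) := by
    apply continuous_finset_sum
    intro l _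
    exact Complex.continuous_normSq.comp (hf l).smooth.continuous
  have hne : (Icc (0 : Fin (N + 1) → ℝ) 1).Nonempty := ⟨0, by simp [zero_le_one]⟩
  obtain ⟨x0, hx0, hmin⟩ := isCompact_Icc.exists_isMinOn hne hS.continuousOn
  set s := ∑ l, Complex.normSq (f l x0) with hs'
  have hspos : 0 < s := by
    obtain ⟨l, hl⟩ := hcon x0
    have h1 : 0 < Complex.normSq (f l x0) := Complex.normSq_pos.mpr hl
    exact lt_of_lt_of_le h1 (Finset.single_le_sum (f := fun l => Complex.normSq (f l x0))
      (fun i _ => Complex.normSq_nonneg _) (Finset.mem_univ l))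
  set ε := s / (2 * (r + 1)) with hε'
  have hε : 0 < ε := by positivity
  apply hprod
  have key := prod_const_eq_zero he
    (List.ofFn fun l => (curv X Y (d l) e, eta X Y (d l) e (f l) (fun x => cutInv ε (f l x))))
    (by
      intro p hp
      rw [List.mem_ofFn] at hp
      obtain ⟨l, rfl⟩ := hp
      refine ⟨curv_comm X Y (d l) he, ?_, ?_, ?_⟩
      · exact eta_smooth X Y (d l) e (hf l).smooth
          ((cutInv_contDiff hε (n := 2)).comp ((hf l).smooth.of_le (by norm_num)))
      · exact eta_per (hf l) hX hXY hs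
      · exact eta_odd X Y (d l) he (hf l).smooth)
    (by
      intro x hx
      have hx1 : s ≤ ∑ l, Complex.normSq (f l x) := hmin hx
      have : ∃ l, ε < Complex.normSq (f l x) := by
        by_contra hno
        push Not at hno
        have h1 : ∑ l, Complex.normSq (f l x) ≤ ∑ _l : Fin r, ε := Finset.sum_le_sum
          (fun l _ => hno l)
        rw [Finset.sum_const, Finset.card_univ, Fintype.card_fin, nsmul_eq_mul] at h1
        have h2 : s ≤ r * ε := hx1.trans h1
        have h3 : (r : ℝ) * ε < s := by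
          rw [hε']
          rw [mul_div_assoc', div_lt_iff₀ (by positivity)]
          nlinarith
        linarith
      obtain ⟨l, hl⟩ := this
      refine ⟨_, List.mem_ofFn.mpr ⟨l, rfl⟩, ?_⟩
      simp only
      rw [dd_eta (g := fun x => cutInv ε (f l x)) X Y (d l) e he (hf l).smooth
        ((cutInv_contDiff hε (n := 2)).comp ((hf l).smooth.of_le (by norm_num))), sub_self]
      have hcont : Continuous (fun y => Complex.normSq (f l y)) :=
        Complex.continuous_normSq.comp (hf l).smooth.continuous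
      have : ∀ᶠ y in nhds x, ε < Complex.normSq (f l y) :=
        continuousAt_const.eventually_lt hcont.continuousAt hl
      filter_upwards [this] with y hy
      exact cutInv_mul hε hy.le)
  have h2 : (List.map Prod.fst (List.ofFn fun l => (curv X Y (d l) e,
      eta X Y (d l) e (f l) (fun x => cutInv ε (f l x))))) =
      List.ofFn fun l => curv X Y (d l) e := by
    rw [List.map_ofFn]; rfl
  rw [h2] at key
  exact key

end Zero

end

end Vale.Agent.P093
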