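import Vale.Agent.P093.Ext
import Vale.Agent.P093.Forms3

/-!
The degree matrix used for the obstruction and the nonvanishing of the curvature product.
-/

namespace Vale.Agent.P093

noncomputable section

/-- degree matrix: the first `n` bundles are `L_l` dual twisted by the last `M` ones, the last `M`
bundles are the twists alone -/
def degM (n M : ℕ) (l j : Fin (n + M)) : ℤ :=
  if (j : ℕ) < n then (if l = j then -1 else 0) else 1

theorem curv_prod_ne_zero {n M N : ℕ} (σ : Fin (n + M) × Fin 2 ≃ Fin (N + 1))
    {Λ : Type*} [NormedRing Λ] [NormedAlgebra ℂ Λ] {e : Fin (N + 1) → Λ}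
    (he : ∀ i j, e i * e j = - (e j * e i))
    (hprod : (List.ofFn fun j : Fin (n + M) => e (σ (j, 0)) * e (σ (j, 1))).prod ≠ 0) :
    (List.ofFn fun l => curv (fun j => σ (j, 0)) (fun j => σ (j, 1)) (degM n M l) e).prod ≠ 0 := by
  set a : Fin (n + M) → Λ := fun j => e (σ (j, 0)) * e (σ (j, 1)) with ha
  set c : Λ := algebraMap ℂ Λ (2 * Real.pi * Complex.I) with hc
  have hcc : ∀ x : Λ, c * x = x * c := fun x => Algebra.commutes _ _
  have hee : ∀ i, e i * e i = 0 := by
    intro i
    have h := he i i
    have h4 : (2 : ℂ) • (e i * e i) = 0 := by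
      rw [two_smul]
      nth_rewrite 1 [h]
      simp
    rcases smul_eq_zero.mp h4 with h | h
    · norm_num at h
    · exact h
  have hacomm : ∀ i j, a i * a j = a j * a i := by
    intro i j
    simp only [ha]
    have h1 : ∀ k, (e (σ (j, 0)) * e (σ (j, 1))) * e k = e k * (e (σ (j, 0)) * e (σ (j, 1))) := by
      intro k
      rw [mul_assoc, he _ k, mul_neg, ← mul_assoc, he _ k]
      simp [mul_assoc]
    rw [mul_assoc, ← h1, ← mul_assoc, ← h1, mul_assoc]
  have hasq : ∀ i, a i * a i = 0 := by
    intro i
    simp only [ha]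
    rw [mul_assoc, ← mul_assoc (e (σ (i, 1))), he (σ (i, 1)) (σ (i, 0)), neg_mul, mul_neg,
      mul_assoc, hee]
    simp
  set S : Λ := (List.ofFn fun j : Fin M => a (Fin.natAdd n j)).sum with hS
  have hSsum : S = ∑ j : Fin M, a (Fin.natAdd n j) := by
    rw [hS, List.sum_ofFn]
  have hcurv1 : ∀ i : Fin n, curv (fun j => σ (j, 0)) (fun j => σ (j, 1))
      (degM n M (Fin.castAdd M i)) e = c * (S - a (Fin.castAdd M i)) := by
    intro i
    unfold curv
    rw [Fin.sum_univ_add]
    have h1 : ∀ k : Fin M, e (σ (Fin.natAdd n k, 0)) * e (σ (Fin.natAdd n k, 1)) *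
        algebraMap ℂ Λ (2 * Real.pi * Complex.I * (degM n M (Fin.castAdd M i) (Fin.natAdd n k) : ℤ))
        = c * a (Fin.natAdd n k) := by
      intro k
      have : degM n M (Fin.castAdd M i) (Fin.natAdd n k) = 1 := by
        unfold degM
        rw [if_neg]
        simp
      rw [this, Int.cast_one, mul_one, ← hc, hcc]
    have h2 : ∀ k : Fin n, e (σ (Fin.castAdd M k, 0)) * e (σ (Fin.castAdd M k, 1)) *
        algebraMap ℂ Λ (2 * Real.pi * Complex.I *
          (degM n M (Fin.castAdd M i) (Fin.castAdd M k) : ℤ))
        = if k = i then - (c * a (Fin.castAdd M i)) else 0 := by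
      intro k
      have : degM n M (Fin.castAdd M i) (Fin.castAdd M k) = if k = i then -1 else 0 := by
        unfold degM
        rw [if_pos (by simp)]
        by_cases h : k = i
        · subst h; simp
        · have : Fin.castAdd M i ≠ Fin.castAdd M k := by
            intro hh
            apply h
            have := congrArg Fin.val hh
            simp at this
            exact (Fin.ext this).symm
          simp [h, this]
      rw [this]
      by_cases h : k = i
      · subst h
        simp only [if_true, Int.cast_neg, Int.cast_one, mul_neg, mul_one, map_neg, ← hc]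
        rw [hcc]
      · simp [h]
    simp only [h1, h2]
    rw [Finset.sum_ite_eq' Finset.univ i, if_pos (Finset.mem_univ i), ← Finset.mul_sum, ← hSsum,
      mul_sub]
    abel
  have hcurv2 : ∀ i : Fin M, curv (fun j => σ (j, 0)) (fun j => σ (j, 1))
      (degM n M (Fin.natAdd n i)) e = c * S := by
    intro i
    unfold curv
    rw [Fin.sum_univ_add]
    have h1 : ∀ k : Fin M, e (σ (Fin.natAdd n k, 0)) * e (σ (Fin.natAdd n k, 1)) *
        algebraMap ℂ Λ (2 * Real.pi * Complex.I * (degM n M (Fin.natAdd n i) (Fin.natAdd n k) : ℤ))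
        = c * a (Fin.natAdd n k) := by
      intro k
      have : degM n M (Fin.natAdd n i) (Fin.natAdd n k) = 1 := by
        unfold degM
        rw [if_neg]
        simp
      rw [this, Int.cast_one, mul_one, ← hc, hcc]
    have h2 : ∀ k : Fin n, e (σ (Fin.castAdd M k, 0)) * e (σ (Fin.castAdd M k, 1)) *
        algebraMap ℂ Λ (2 * Real.pi * Complex.I *
          (degM n M (Fin.natAdd n i) (Fin.castAdd M k) : ℤ)) = 0 := by
      intro k
      have : degM n M (Fin.natAdd n i) (Fin.castAdd M k) = 0 := by
        unfold degM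
        rw [if_pos (by simp), if_neg]
        intro hh
        have := congrArg Fin.val hh
        simp at this
        omega
      rw [this]
      simp
    simp only [h1, h2]
    rw [Finset.sum_const_zero, zero_add, ← Finset.mul_sum, ← hSsum]
  have hofn : (List.ofFn fun l => curv (fun j => σ (j, 0)) (fun j => σ (j, 1)) (degM n M l) e) =
      (List.ofFn fun i : Fin n => c * (S - a (Fin.castAdd M i))) ++
      (List.ofFn fun _ : Fin M => c * S) := by
    rw [List.ofFn_add]
    congr 1
    · congr 1
      funext i
      exact hcurv1 i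
    · congr 1
      funext i
      exact hcurv2 i
  have hS2 := sum_pow_list (List.ofFn fun j : Fin M => a (Fin.natAdd n j))
    (by
      intro x hx y hy
      rw [List.mem_ofFn] at hx hy
      obtain ⟨i, rfl⟩ := hx
      obtain ⟨j, rfl⟩ := hy
      exact hacomm _ _)
    (by
      intro x hx
      rw [List.mem_ofFn] at hx
      obtain ⟨i, rfl⟩ := hx
      exact hasq _)
  rw [← hS, List.length_ofFn] at hS2
  rw [hofn, List.prod_append, List.ofFn_const, List.prod_replicate]
  have hcS : (c * S) ^ M = c ^ M * S ^ M := (show Commute c S from hcc S).mul_pow M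
  have hST : S * (c * S) ^ M = 0 := by
    rw [hcS, ← mul_assoc]
    have : S * c ^ M = c ^ M * S := ((show Commute S c from (hcc S).symm).pow_right M).eq
    rw [this, mul_assoc, ← pow_succ', hS2.2, mul_zero]
  have hmap : (List.ofFn fun i : Fin n => c * (S - a (Fin.castAdd M i))) =
      (List.ofFn fun i : Fin n => a (Fin.castAdd M i)).map fun x => c * (S - x) := by
    rw [List.map_ofFn]; rfl
  have hSa : ∀ i, S * a i = a i * S := by
    intro i
    rw [hSsum, Finset.sum_mul, Finset.mul_sum]
    exact Finset.sum_congr rfl fun j _ => hacomm _ _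
  rw [hmap, prod_sub_mul _ c hcc (by
    intro x hx
    rw [List.mem_ofFn] at hx
    obtain ⟨i, rfl⟩ := hx
    exact hSa _) hST, List.length_ofFn, hcS, hS2.1]
  have hfin : (List.ofFn fun j : Fin (n + M) => e (σ (j, 0)) * e (σ (j, 1))).prod =
      (List.ofFn fun i : Fin n => a (Fin.castAdd M i)).prod *
      (List.ofFn fun j : Fin M => a (Fin.natAdd n j)).prod := by
    rw [List.ofFn_add, List.prod_append]
    rfl
  have hc1 : (-c) ^ n * (List.ofFn fun i : Fin n => a (Fin.castAdd M i)).prod *
      (c ^ M * M.factorial • (List.ofFn fun j : Fin M => a (Fin.natAdd n j)).prod) =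
      algebraMap ℂ Λ ((-(2 * Real.pi * Complex.I)) ^ n * (2 * Real.pi * Complex.I) ^ M *
        M.factorial) * ((List.ofFn fun i : Fin n => a (Fin.castAdd M i)).prod *
      (List.ofFn fun j : Fin M => a (Fin.natAdd n j)).prod) := by
    rw [map_mul, map_mul, map_pow, map_pow, map_neg, ← hc, map_natCast, nsmul_eq_mul]
    have h1 : ∀ x : Λ, c ^ M * x = x * c ^ M := fun x => by
      rw [hc, ← map_pow]; exact Algebra.commutes _ _
    have h2 : ∀ x : Λ, (M.factorial : Λ) * x = x * (M.factorial : Λ) := fun x => by
      exact Nat.cast_commute _ _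
    set P := (List.ofFn fun i : Fin n => a (Fin.castAdd M i)).prod
    set Q := (List.ofFn fun j : Fin M => a (Fin.natAdd n j)).prod
    calc (-c) ^ n * P * (c ^ M * ((M.factorial : Λ) * Q))
        = (-c) ^ n * ((P * c ^ M) * ((M.factorial : Λ) * Q)) := by simp only [mul_assoc]
      _ = (-c) ^ n * (c ^ M * (P * (M.factorial : Λ)) * Q) := by
          rw [← h1]; simp only [mul_assoc]
      _ = (-c) ^ n * (c ^ M * ((M.factorial : Λ) * P) * Q) := by rw [← h2]
      _ = _ := by simp only [mul_assoc]
  rw [hc1, ← hfin]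
  intro h0
  apply hprod
  have hsc : ((-(2 * Real.pi * Complex.I)) ^ n * (2 * Real.pi * Complex.I) ^ M *
        M.factorial : ℂ) ≠ 0 := by
    have h2 : (2 * Real.pi * Complex.I : ℂ) ≠ 0 := Complex.two_pi_I_ne_zero
    have h3 : (M.factorial : ℂ) ≠ 0 := by exact_mod_cast Nat.factorial_ne_zero M
    exact mul_ne_zero (mul_ne_zero (pow_ne_zero _ (neg_ne_zero.mpr h2)) (pow_ne_zero _ h2)) h3
  rw [← Algebra.smul_def] at h0
  exact (smul_eq_zero.mp h0).resolve_left hsc

end

end Vale.Agent.P093
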