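import Mathlib
import Vale.Agent.P093.Comparison
import Vale.Agent.P093.MeanDim

open Filter Topology Set
open scoped ENNReal ComplexOrder

namespace Vale.Agent.P093

section CrossedProduct

/-- The Hilbert space `ℓ²(ℤ × X)`. -/
noncomputable abbrev Ell2 (X : Type*) := lp (fun _ : ℤ × X => ℂ) 2

/-- The shift unitary `(u ξ)(n, x) = ξ(n - 1, x)`. -/
noncomputable def shiftOp (X : Type*) : Ell2 X →L[ℂ] Ell2 X :=
  LinearMap.mkContinuous
    { toFun := fun ξ => ⟨fun i => ξ (i.1 - 1, i.2), by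
        have h := (lp.memℓp ξ).summable (by norm_num)
        refine memℓp_gen ?_
        exact h.comp_injective (i := fun i : ℤ × X => (i.1 - 1, i.2)) (by
          rintro ⟨a, b⟩ ⟨c, d⟩ hh
          simp only [Prod.mk.injEq, sub_left_inj] at hh
          simp [hh.1, hh.2])⟩
      map_add' := fun _ _ => rfl
      map_smul' := fun _ _ => rfl }
    1 (by
      intro ξ
      rw [one_mul]
      refine lp.norm_le_of_tsum_le (by norm_num) (norm_nonneg _) ?_
      rw [lp.norm_rpow_eq_tsum (by norm_num) ξ]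
      refine le_of_eq ?_
      exact ((Equiv.subRight (1 : ℤ)).prodCongr (Equiv.refl X)).tsum_eq
        (fun i => ‖ξ i‖ ^ (2 : ℝ≥0∞).toReal))

variable {X : Type*} [TopologicalSpace X] [CompactSpace X]

/-- The representation of `C(X)`: `(π(f) ξ)(n, x) = f(hⁿ x) ξ(n, x)`. -/
noncomputable def multOp (h : X ≃ₜ X) (f : C(X, ℂ)) : Ell2 X →L[ℂ] Ell2 X :=
  lp.mapCLM 2 (fun i : ℤ × X => f ((h ^ i.1) i.2) • ContinuousLinearMap.id ℂ ℂ) (norm_nonneg f)
    (fun i => (norm_smul_le _ _).trans (by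
      have := f.norm_coe_le_norm ((h ^ i.1) i.2)
      have h1 : ‖ContinuousLinearMap.id ℂ ℂ‖ ≤ 1 := ContinuousLinearMap.norm_id_le
      nlinarith [norm_nonneg (f ((h ^ i.1) i.2)), norm_nonneg f]))

/-- The crossed product `C(X) ⋊_h ℤ` as a closed star subalgebra of `B(ℓ²(ℤ × X))`:
generated by `C(X)` and the shift unitary `u`, which satisfies `u π(f) u^* = π(f ∘ h⁻¹)`. -/
noncomputable def crossedProductAlg (h : X ≃ₜ X) : StarSubalgebra ℂ (Ell2 X →L[ℂ] Ell2 X) :=
  (StarAlgebra.adjoin ℂ (Set.range (multOp h) ∪ {shiftOp X})).topologicalClosure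

/-- The crossed product C*-algebra `C(X) ⋊_h ℤ`. -/
def CrossedProduct (h : X ≃ₜ X) : Type _ := crossedProductAlg h

noncomputable instance (h : X ≃ₜ X) : CStarAlgebra (CrossedProduct h) :=
  StarSubalgebra.cstarAlgebra (crossedProductAlg h)
    (h_closed := StarSubalgebra.isClosed_topologicalClosure _)

noncomputable instance (h : X ≃ₜ X) : PartialOrder (CrossedProduct h) :=
  CStarAlgebra.spectralOrder _

instance (h : X ≃ₜ X) : StarOrderedRing (CrossedProduct h) :=
  CStarAlgebra.spectralOrderedRing _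

end CrossedProduct

end Vale.Agent.P093
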