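import Mathlib.LinearAlgebra.ExteriorAlgebra.Basis
import Mathlib.LinearAlgebra.ExteriorAlgebra.OfAlternating
import Mathlib.LinearAlgebra.Determinant
import Mathlib.Analysis.Matrix.Normed
import Mathlib.Analysis.Complex.Basic
import Mathlib.Topology.Algebra.Module.FiniteDimension
import Mathlib.LinearAlgebra.Matrix.ToLin

/-!
A normed model of the exterior algebra and the top-degree product of two-forms.
-/

namespace Vale.Agent.P093

noncomputable section

open ExteriorAlgebra in
/-- the product of the generators is nonzero -/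
theorem ext_prod_ne_zero {n N : ℕ} (σ : Fin n × Fin 2 ≃ Fin (N + 1)) :
    (List.ofFn fun j : Fin n => ι ℂ (Pi.single (σ (j, 0)) 1 : Fin (N + 1) → ℂ) *
      ι ℂ (Pi.single (σ (j, 1)) 1 : Fin (N + 1) → ℂ)).prod ≠ 0 := by
  set τ : Fin (n * 2) ≃ Fin (N + 1) := finProdFinEquiv.symm.trans σ with hτ
  set v : Fin (n * 2) → (Fin (N + 1) → ℂ) := fun t => Pi.single (τ t) 1 with hv
  have h1 : (List.ofFn fun j : Fin n => ι ℂ (Pi.single (σ (j, 0)) 1 : Fin (N + 1) → ℂ) *
      ι ℂ (Pi.single (σ (j, 1)) 1 : Fin (N + 1) → ℂ)).prod = ιMulti ℂ (n * 2) v := by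
    rw [ιMulti_apply, List.ofFn_mul, List.prod_flatten, List.map_ofFn]
    congr 2
    funext j
    have e0 : ∀ h, τ ⟨(j : ℕ) * 2 + ((0 : Fin 2) : ℕ), h⟩ = σ (j, 0) := by
      intro h
      simp only [hτ, Equiv.trans_apply]
      congr 1
      rw [Equiv.symm_apply_eq]
      apply Fin.ext
      simp [finProdFinEquiv, mul_comm]
    have e1 : ∀ h, τ ⟨(j : ℕ) * 2 + ((1 : Fin 2) : ℕ), h⟩ = σ (j, 1) := by
      intro h
      simp only [hτ, Equiv.trans_apply]
      congr 1
      rw [Equiv.symm_apply_eq]
      apply Fin.ext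
      simp [finProdFinEquiv, mul_comm, add_comm]
    simp only [Function.comp_apply, List.ofFn_succ, List.ofFn_zero, List.prod_cons, List.prod_nil,
      mul_one, hv]
    rw [e0]
    have : (Fin.succ (0 : Fin 1) : Fin 2) = 1 := rfl
    rw [this, e1]
  rw [h1]
  set b : Module.Basis (Fin (n * 2)) ℂ (Fin (N + 1) → ℂ) :=
    (Pi.basisFun ℂ (Fin (N + 1))).reindex τ.symm with hb
  have hbv : ⇑b = v := by
    funext t
    simp [hb, hv]
  intro h0
  have h2 := liftAlternating_apply_ιMulti (R := ℂ) (N := ℂ)
    (fun i => if h : i = n * 2 then (h ▸ b.det) else 0) v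
  rw [h0, map_zero] at h2
  simp only [dite_true] at h2
  rw [← hbv, b.det_self] at h2
  exact zero_ne_one h2

section Comm

variable {A : Type*} [Ring A]

theorem add_pow_succ_of_sq_zero {a s : A} (hc : a * s = s * a) (ha : a * a = 0) (n : ℕ) :
    (a + s) ^ (n + 1) = s ^ (n + 1) + (n + 1) • (a * s ^ n) := by
  have hcp : ∀ k, s ^ k * a = a * s ^ k := fun k =>
    ((show Commute a s from hc).pow_right k).eq.symm
  induction n with
  | zero => simp [add_comm]
  | succ n ih =>
    rw [pow_succ, ih, add_mul, mul_add, mul_add, smul_mul_assoc, smul_mul_assoc]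
    have h1 : a * s ^ n * a = 0 := by
      rw [mul_assoc, hcp, ← mul_assoc, ha, zero_mul]
    have h2 : a * s ^ n * s = a * s ^ (n + 1) := by rw [mul_assoc, ← pow_succ]
    rw [h1, h2, hcp, ← pow_succ, smul_zero, zero_add, succ_nsmul _ (n + 1)]
    abel

theorem sum_pow_list (L : List A) (hc : ∀ x ∈ L, ∀ y ∈ L, x * y = y * x)
    (hz : ∀ x ∈ L, x * x = 0) :
    L.sum ^ L.length = L.length.factorial • L.prod ∧ L.sum ^ (L.length + 1) = 0 := by
  induction L with
  | nil => simp
  | cons a L ih =>
    have ih' := ih (fun x hx y hy => hc x (by simp [hx]) y (by simp [hy]))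
      (fun x hx => hz x (by simp [hx]))
    have hcomm : a * L.sum = L.sum * a := by
      have : Commute a L.sum := Commute.list_sum_right _ _ fun y hy => hc a (by simp) y (by simp [hy])
      exact this
    have ha : a * a = 0 := hz a (by simp)
    rw [List.sum_cons, List.length_cons, List.prod_cons]
    constructor
    · rw [add_pow_succ_of_sq_zero hcomm ha, ih'.2, ih'.1, zero_add, Nat.factorial_succ,
        mul_smul_comm, smul_smul]
    · rw [add_pow_succ_of_sq_zero hcomm ha, ih'.2, mul_zero, smul_zero, add_zero, pow_succ, ih'.2,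
        zero_mul]

theorem prod_sub_mul {S T : A} (L : List A) (c : A) (hc : ∀ x : A, c * x = x * c)
    (hS : ∀ x ∈ L, S * x = x * S) (hST : S * T = 0) :
    (L.map fun a => c * (S - a)).prod * T = (-c) ^ L.length * L.prod * T := by
  have key : S * ((L.map fun a => c * (S - a)).prod * T) = 0 := by
    have : S * (L.map fun a => c * (S - a)).prod = (L.map fun a => c * (S - a)).prod * S := by
      have : Commute S (L.map fun a => c * (S - a)).prod := by
        apply Commute.list_prod_right
        intro y hy
        rw [List.mem_map] at hy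
        obtain ⟨a, ha, rfl⟩ := hy
        change S * (c * (S - a)) = c * (S - a) * S
        rw [← mul_assoc, ← hc S, mul_assoc, mul_assoc, mul_sub, sub_mul, hS a ha]
      exact this
    rw [← mul_assoc, this, mul_assoc, hST, mul_zero]
  induction L with
  | nil => simp
  | cons a L ih =>
    have hS' : ∀ x ∈ L, S * x = x * S := fun x hx => hS x (by simp [hx])
    have key' : S * ((L.map fun a => c * (S - a)).prod * T) = 0 := by
      have : S * (L.map fun a => c * (S - a)).prod = (L.map fun a => c * (S - a)).prod * S := by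
        have : Commute S (L.map fun a => c * (S - a)).prod := by
          apply Commute.list_prod_right
          intro y hy
          rw [List.mem_map] at hy
          obtain ⟨a, ha, rfl⟩ := hy
          change S * (c * (S - a)) = c * (S - a) * S
          rw [← mul_assoc, ← hc S, mul_assoc, mul_assoc, mul_sub, sub_mul, hS' a ha]
        exact this
      rw [← mul_assoc, this, mul_assoc, hST, mul_zero]
    have ih' := ih hS' key'
    rw [List.map_cons, List.prod_cons, List.prod_cons, mul_assoc, mul_assoc c, sub_mul, key',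
      zero_sub, ih', List.length_cons, pow_succ]
    have hcc : ∀ x : A, (-c) * x = x * (-c) := fun x => by rw [neg_mul, mul_neg, hc]
    have hcp : (-c) ^ L.length * a = a * (-c) ^ L.length := by
      have : Commute a ((-c) ^ L.length) := Commute.pow_right (show Commute a (-c) from (hcc a).symm) _
      exact this.symm
    calc c * -(a * ((-c) ^ L.length * L.prod * T))
        = (-c) * (a * ((-c) ^ L.length * L.prod * T)) := by rw [mul_neg, neg_mul]
      _ = (-c) * ((a * (-c) ^ L.length) * (L.prod * T)) := by simp only [mul_assoc]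
      _ = (-c) * (((-c) ^ L.length * a) * (L.prod * T)) := by rw [hcp]
      _ = ((-c) * (-c) ^ L.length) * (a * L.prod * T) := by simp only [mul_assoc]
      _ = ((-c) ^ L.length * (-c)) * (a * L.prod * T) := by rw [hcc]
      _ = _ := by simp only [mul_assoc]

end Comm

/-- existence of a normed algebra with anticommuting generators and nonzero top product -/
theorem exists_ext {n N : ℕ} (σ : Fin n × Fin 2 ≃ Fin (N + 1)) :
    ∃ (Λ : Type) (_ : NormedRing Λ) (_ : NormedAlgebra ℂ Λ) (_ : CompleteSpace Λ)
      (e : Fin (N + 1) → Λ), (∀ i j, e i * e j = - (e j * e i)) ∧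
      (List.ofFn fun j : Fin n => e (σ (j, 0)) * e (σ (j, 1))).prod ≠ 0 := by
  classical
  let B := (Pi.basisFun ℂ (Fin (N + 1))).ExteriorAlgebra
  let L := Algebra.leftMulMatrix B
  let i1 : NormedRing (Matrix (Finset (Fin (N + 1))) (Finset (Fin (N + 1))) ℂ) :=
    Matrix.linftyOpNormedRing
  let i2 : NormedAlgebra ℂ (Matrix (Finset (Fin (N + 1))) (Finset (Fin (N + 1))) ℂ) :=
    Matrix.linftyOpNormedAlgebra
  refine ⟨Matrix (Finset (Fin (N + 1))) (Finset (Fin (N + 1))) ℂ, i1, i2,
    FiniteDimensional.complete ℂ _, fun i => L (ExteriorAlgebra.ι ℂ (Pi.single i 1)), ?_, ?_⟩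
  · intro i j
    have h := congrArg L (eq_neg_of_add_eq_zero_left (ExteriorAlgebra.ι_add_mul_swap
      (R := ℂ) (Pi.single i 1 : Fin (N + 1) → ℂ) (Pi.single j 1)))
    rw [map_neg, map_mul, map_mul] at h
    exact h
  · have h := ext_prod_ne_zero σ
    intro h0
    apply h
    apply Algebra.leftMulMatrix_injective B
    rw [map_zero, ← h0, map_list_prod, List.map_ofFn]
    congr 2
    funext j
    exact map_mul L _ _

end

end Vale.Agent.P093
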