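import Vale.Agent.P093.Defs
open Filter Topology Set
open scoped ENNReal ComplexOrder
set_option linter.unusedSectionVars false
set_option linter.unusedSimpArgs false
namespace Vale.Agent.P093

variable {X : Type*}

open Classical in
/-- basis vector -/
noncomputable def dvec (j : ℤ) (x : X) : Ell2 X := lp.single 2 (j, x) (1 : ℂ)

open Classical in
theorem dvec_apply (j : ℤ) (x : X) (i : ℤ) (y : X) :
    (dvec j x : Ell2 X) (i, y) = if i = j ∧ y = x then 1 else 0 := by
  have : (dvec j x : Ell2 X) (i, y) = (Pi.single (j, x) (1:ℂ) : ℤ × X → ℂ) (i, y) := by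
    unfold dvec
    rw [lp.coeFn_single]
  rw [this, Pi.single_apply]
  simp [Prod.mk.injEq]

theorem inner_dvec_left (j : ℤ) (x : X) (v : Ell2 X) :
    inner ℂ (dvec j x : Ell2 X) v = v (j, x) := by
  classical
  unfold dvec
  have := lp.inner_single_left (𝕜 := ℂ) (G := fun _ : ℤ × X => ℂ) (j, x) (1:ℂ) v
  simpa using this

theorem shiftOp_apply (v : Ell2 X) (i : ℤ × X) : (shiftOp X v) i = v (i.1 - 1, i.2) := rfl

theorem shiftOp_dvec (j : ℤ) (x : X) :
    shiftOp X (dvec j x) = (dvec (j + 1) x : Ell2 X) := by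
  classical
  ext i
  obtain ⟨i, y⟩ := i
  rw [shiftOp_apply, dvec_apply, dvec_apply]
  congr 1
  simp only [eq_iff_iff, and_congr_left_iff]
  intro _
  constructor <;> intro h <;> omega

variable [TopologicalSpace X] [CompactSpace X]

theorem multOp_apply (h : X ≃ₜ X) (f : C(X, ℂ)) (v : Ell2 X) (i : ℤ × X) :
    (multOp h f v) i = f ((h ^ i.1) i.2) * v i := by
  simp [multOp, lp.mapCLM]

theorem multOp_dvec (h : X ≃ₜ X) (f : C(X, ℂ)) (j : ℤ) (x : X) :
    multOp h f (dvec j x) = f ((h ^ j) x) • (dvec j x : Ell2 X) := by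
  classical
  ext i
  obtain ⟨i, y⟩ := i
  rw [multOp_apply, lp.coeFn_smul, Pi.smul_apply, dvec_apply, smul_eq_mul]
  by_cases hh : i = j ∧ y = x
  · obtain ⟨rfl, rfl⟩ := hh; simp
  · simp [hh]

/-- finite propagation operators with continuous kernel -/
def FinProp (T : Ell2 X →L[ℂ] Ell2 X) : Prop :=
  ∃ R : ℕ, ∃ K : ℤ → ℤ → C(X, ℂ), ∀ j x,
    T (dvec j x) = ∑ i ∈ Finset.Icc (j - R) (j + R), K i j x • (dvec i x : Ell2 X)

theorem FinProp.mono {T : Ell2 X →L[ℂ] Ell2 X} {R R' : ℕ} (hR : R ≤ R')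
    {K : ℤ → ℤ → C(X, ℂ)} (hT : ∀ j x,
    T (dvec j x) = ∑ i ∈ Finset.Icc (j - R) (j + R), K i j x • (dvec i x : Ell2 X)) :
    ∃ K' : ℤ → ℤ → C(X, ℂ), ∀ j x,
      T (dvec j x) = ∑ i ∈ Finset.Icc (j - R') (j + R'), K' i j x • (dvec i x : Ell2 X) := by
  classical
  refine ⟨fun i j => if i ∈ Finset.Icc (j - (R:ℤ)) (j + R) then K i j else 0, fun j x => ?_⟩
  rw [hT]
  have hsub : Finset.Icc (j - (R:ℤ)) (j + R) ⊆ Finset.Icc (j - (R':ℤ)) (j + R') := by
    apply Finset.Icc_subset_Icc <;> omega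
  rw [← Finset.sum_subset hsub]
  · refine Finset.sum_congr rfl fun i hi => ?_
    simp [hi]
  · intro i _ hi
    simp [hi]

theorem finProp_mul {T S : Ell2 X →L[ℂ] Ell2 X} (hT : FinProp T) (hS : FinProp S) :
    FinProp (T * S) := by
  classical
  obtain ⟨R, K, hK⟩ := hT
  obtain ⟨R', K', hK'⟩ := hS
  refine ⟨R + R', fun i j => ∑ l ∈ Finset.Icc (j - (R':ℤ)) (j + R'),
    if i ∈ Finset.Icc (l - (R:ℤ)) (l + R) then K i l * K' l j else 0, fun j x => ?_⟩
  have h1 : (T * S) (dvec j x) = ∑ l ∈ Finset.Icc (j - (R':ℤ)) (j + R'), K' l j x •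
      ∑ i ∈ Finset.Icc (l - (R:ℤ)) (l + R), K i l x • (dvec i x : Ell2 X) := by
    change T (S (dvec j x)) = _
    rw [hK', map_sum]
    refine Finset.sum_congr rfl fun l _ => ?_
    rw [map_smul, hK]
  rw [h1]
  simp only [ContinuousMap.coe_sum, Finset.sum_apply, Finset.sum_smul]
  rw [Finset.sum_comm' (s := Finset.Icc (j - ((R + R' : ℕ):ℤ)) (j + (R + R' : ℕ))) (t := fun _ => Finset.Icc (j - (R':ℤ)) (j + R'))
     (t' := Finset.Icc (j - (R':ℤ)) (j + R')) (s' := fun _ => Finset.Icc (j - ((R + R' : ℕ):ℤ)) (j + (R + R' : ℕ))) (by tauto)]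
  refine Finset.sum_congr rfl fun l hl => ?_
  rw [Finset.mem_Icc] at hl
  rw [Finset.smul_sum]
  have hsub : Finset.Icc (l - (R:ℤ)) (l + R) ⊆ Finset.Icc (j - ((R + R' : ℕ):ℤ)) (j + (R + R' : ℕ)) := by
    apply Finset.Icc_subset_Icc <;> push_cast <;> omega
  rw [← Finset.sum_subset hsub]
  · refine Finset.sum_congr rfl fun i hi => ?_
    rw [if_pos hi, smul_smul, ContinuousMap.mul_apply, mul_comm]
  · intro i _ hi
    rw [if_neg hi]
    simp

theorem finProp_add {T S : Ell2 X →L[ℂ] Ell2 X} (hT : FinProp T) (hS : FinProp S) :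
    FinProp (T + S) := by
  classical
  obtain ⟨R, K, hK⟩ := hT
  obtain ⟨R', K', hK'⟩ := hS
  obtain ⟨K₁, hK₁⟩ := FinProp.mono (le_max_left R R') hK
  obtain ⟨K₂, hK₂⟩ := FinProp.mono (le_max_right R R') hK'
  refine ⟨max R R', fun i j => K₁ i j + K₂ i j, fun j x => ?_⟩
  change T (dvec j x) + S (dvec j x) = _
  rw [hK₁, hK₂, ← Finset.sum_add_distrib]
  refine Finset.sum_congr rfl fun i _ => ?_
  rw [ContinuousMap.add_apply, add_smul]

theorem finProp_smul {T : Ell2 X →L[ℂ] Ell2 X} (c : ℂ) (hT : FinProp T) :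
    FinProp (c • T) := by
  obtain ⟨R, K, hK⟩ := hT
  refine ⟨R, fun i j => c • K i j, fun j x => ?_⟩
  change c • T (dvec j x) = _
  rw [hK, Finset.smul_sum]
  refine Finset.sum_congr rfl fun i _ => ?_
  rw [ContinuousMap.smul_apply, smul_assoc]

theorem finProp_multOp (h : X ≃ₜ X) (f : C(X, ℂ)) : FinProp (multOp h f) := by
  classical
  refine ⟨0, fun i j => f.comp ⟨(h ^ j : X ≃ₜ X), (h ^ j).continuous⟩, fun j x => ?_⟩
  rw [multOp_dvec]
  simp

theorem finProp_one : FinProp (1 : Ell2 X →L[ℂ] Ell2 X) := by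
  refine ⟨0, fun i j => 1, fun j x => ?_⟩
  simp

theorem finProp_shiftOp : FinProp (shiftOp X) := by
  classical
  refine ⟨1, fun i j => if i = j + 1 then 1 else 0, fun j x => ?_⟩
  rw [shiftOp_dvec]
  rw [Finset.sum_eq_single (j+1)]
  · simp
  · intro b _ hb
    simp [hb]
  · intro hh
    exfalso
    apply hh
    rw [Finset.mem_Icc]
    push_cast
    omega

/-- star -/
theorem finProp_star {T : Ell2 X →L[ℂ] Ell2 X} (hT : FinProp T) : FinProp (star T) := by
  classical
  obtain ⟨R, K, hK⟩ := hT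
  refine ⟨R, fun i j => star (K j i), fun j x => ?_⟩
  ext q
  obtain ⟨i, y⟩ := q
  rw [← inner_dvec_left, ← inner_dvec_left, ContinuousLinearMap.star_eq_adjoint,
    ContinuousLinearMap.adjoint_inner_right, hK, sum_inner, inner_sum]
  simp only [inner_smul_left, inner_smul_right, inner_dvec_left, dvec_apply]
  by_cases hxy : y = x
  · subst hxy
    simp only [and_true, mul_ite, mul_one, mul_zero, Finset.sum_ite_eq, Finset.mem_Icc]
    by_cases hm : i - (R:ℤ) ≤ j ∧ j ≤ i + R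
    · have hm' : j - (R:ℤ) ≤ i ∧ i ≤ j + R := by omega
      simp [hm, hm', Finset.sum_ite_eq']
    · have hm' : ¬ (j - (R:ℤ) ≤ i ∧ i ≤ j + R) := by omega
      rw [if_neg hm', Finset.sum_ite_eq', if_neg (by rw [Finset.mem_Icc]; exact hm)]
  · have hxy' : ¬ x = y := fun h => hxy h.symm
    simp [hxy, hxy']


theorem finProp_of_mem_adjoin (h : X ≃ₜ X) {T : Ell2 X →L[ℂ] Ell2 X}
    (hT : T ∈ StarAlgebra.adjoin ℂ (Set.range (multOp h) ∪ {shiftOp X})) : FinProp T := by
  induction hT using StarAlgebra.adjoin_induction with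
  | mem x hx =>
    rcases hx with ⟨f, rfl⟩ | hx
    · exact finProp_multOp h f
    · rw [Set.mem_singleton_iff] at hx
      subst hx
      exact finProp_shiftOp
  | algebraMap r =>
    rw [Algebra.algebraMap_eq_smul_one]
    exact finProp_smul r finProp_one
  | add x y _ _ hx hy => exact finProp_add hx hy
  | mul x y _ _ hx hy => exact finProp_mul hx hy
  | star x _ hx => exact finProp_star hx

end Vale.Agent.P093
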