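import Mathlib.MeasureTheory.Integral.DivergenceTheorem
import Mathlib.Analysis.Calculus.FDeriv.Symmetric
import Mathlib.Analysis.Calculus.ContDiff.Operations
import Mathlib.Analysis.Calculus.FDeriv.Mul

/-!
Calculus of functions with values in a normed algebra generated by anticommuting elements:
a substitute for differential forms on the torus.
-/

open MeasureTheory Set
open scoped ContDiff

namespace Vale.Agent.P093

noncomputable section

section Basic

variable {ι : Type*} [Fintype ι] [DecidableEq ι]
variable {F : Type*} [NormedAddCommGroup F] [NormedSpace ℝ F]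

/-- partial derivative -/
def pd (i : ι) (f : (ι → ℝ) → F) (x : ι → ℝ) : F := fderiv ℝ f x (Pi.single i 1)

/-- periodic with respect to all unit vectors -/
def Per (f : (ι → ℝ) → F) : Prop := ∀ i x, f (x + Pi.single i 1) = f x

theorem pd_contDiff {f : (ι → ℝ) → F} {n : ℕ∞} (hf : ContDiff ℝ (n + 1) f) (i : ι) :
    ContDiff ℝ n (pd i f) := by
  have h : ContDiff ℝ n (fderiv ℝ f) := hf.fderiv_right le_rfl
  exact h.clm_apply contDiff_const

theorem pd_per {f : (ι → ℝ) → F} (hf : Per f) (i : ι) : Per (pd i f) := by
  intro j x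
  unfold pd
  have h : (fun y => f (y + Pi.single j 1)) = f := funext fun y => hf j y
  have h2 : fderiv ℝ (fun y => f (y + Pi.single j 1)) x = fderiv ℝ f (x + Pi.single j 1) :=
    fderiv_comp_add_right _
  rw [← h2, h]

end Basic

section Stokes

variable {n : ℕ} {F : Type*} [NormedAddCommGroup F] [NormedSpace ℝ F]

theorem integral_pd_eq_zero {f : (Fin (n + 1) → ℝ) → F} (hf : ContDiff ℝ 1 f) (hp : Per f)
    (i : Fin (n + 1)) : ∫ x in Icc (0 : Fin (n + 1) → ℝ) 1, pd i f x = 0 := by
  classical
  have hle : (0 : Fin (n + 1) → ℝ) ≤ 1 := fun _ => zero_le_one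
  have key := integral_divergence_of_hasFDerivAt_off_countable' (E := F) (0 : Fin (n + 1) → ℝ) 1 hle
    (fun j => if j = i then f else 0)
    (fun j x => if j = i then fderiv ℝ f x else 0) ∅ countable_empty
    (by
      intro j
      by_cases h : j = i
      · simp only [h, if_true]; exact hf.continuous.continuousOn
      · simp only [h, if_false]; exact continuousOn_const)
    (by
      intro x _ j
      by_cases h : j = i
      · simp only [h, if_true]
        exact (hf.differentiable one_ne_zero x).hasFDerivAt
      · simp only [h, if_false]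
        exact hasFDerivAt_const _ _)
    (by
      have hc : Continuous fun x => fderiv ℝ f x (Pi.single i 1) :=
        (hf.continuous_fderiv one_ne_zero).clm_apply continuous_const
      have : (fun x : Fin (n + 1) → ℝ => ∑ j : Fin (n + 1),
          (if j = i then fderiv ℝ f x else 0) (Pi.single j 1)) =
          fun x => fderiv ℝ f x (Pi.single i 1) := by
        funext x
        rw [Finset.sum_eq_single i]
        · simp
        · intro j _ hj; simp [hj]
        · simp
      rw [this]
      exact hc.continuousOn.integrableOn_compact isCompact_Icc)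
  have lhs : (∫ x in Icc (0 : Fin (n + 1) → ℝ) 1, ∑ j : Fin (n + 1),
      (if j = i then fderiv ℝ f x else 0) (Pi.single j 1)) =
      ∫ x in Icc (0 : Fin (n + 1) → ℝ) 1, pd i f x := by
    congr 1
    funext x
    rw [Finset.sum_eq_single i]
    · simp [pd]
    · intro j _ hj; simp [hj]
    · simp
  rw [← lhs, key]
  apply Finset.sum_eq_zero
  intro j _
  by_cases h : j = i
  · subst h
    simp only [if_true]
    rw [sub_eq_zero]
    congr 1
    funext x
    have := hp j (j.insertNth 0 x)
    have e1 : (j.insertNth (0 : ℝ) x : Fin (n + 1) → ℝ) + Pi.single j 1 =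
        j.insertNth ((1 : Fin (n + 1) → ℝ) j) x := by
      ext k
      refine Fin.succAboveCases j ?_ ?_ k
      · simp
      · intro l; simp
    rw [e1] at this
    simpa using this
  · simp [h]

end Stokes

section Alg

variable {ι : Type*} [Fintype ι] [DecidableEq ι]
variable {Λ : Type*} [NormedRing Λ] [NormedAlgebra ℝ Λ]

/-- exterior derivative -/
def dd (e : ι → Λ) (f : (ι → ℝ) → Λ) (x : ι → ℝ) : Λ := ∑ i, e i * pd i f x

/-- smooth, periodic, even, closed -/
structure Good (e : ι → Λ) (f : (ι → ℝ) → Λ) : Prop where
  smooth : ContDiff ℝ 1 f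
  per : Per f
  even : ∀ i x, f x * e i = e i * f x
  closed : ∀ x, dd e f x = 0

/-- smooth, periodic, odd -/
structure Odd1 (e : ι → Λ) (f : (ι → ℝ) → Λ) : Prop where
  smooth : ContDiff ℝ 2 f
  per : Per f
  odd : ∀ i x, f x * e i = - (e i * f x)

theorem pd_mul {f g : (ι → ℝ) → Λ} {x : ι → ℝ} (i : ι) (hf : DifferentiableAt ℝ f x)
    (hg : DifferentiableAt ℝ g x) :
    pd i (fun y => f y * g y) x = pd i f x * g x + f x * pd i g x := by
  unfold pd
  rw [fderiv_fun_mul' hf hg]
  simp [add_comm]

theorem pd_const (i : ι) (c : Λ) (x : ι → ℝ) : pd i (fun _ => c) x = 0 := by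
  simp [pd]

theorem pd_add {f g : (ι → ℝ) → Λ} {x : ι → ℝ} (i : ι) (hf : DifferentiableAt ℝ f x)
    (hg : DifferentiableAt ℝ g x) : pd i (fun y => f y + g y) x = pd i f x + pd i g x := by
  unfold pd
  rw [fderiv_fun_add hf hg]; rfl

theorem pd_sub {f g : (ι → ℝ) → Λ} {x : ι → ℝ} (i : ι) (hf : DifferentiableAt ℝ f x)
    (hg : DifferentiableAt ℝ g x) : pd i (fun y => f y - g y) x = pd i f x - pd i g x := by
  unfold pd
  rw [fderiv_fun_sub hf hg]; rfl

theorem dd_mul_good {e : ι → Λ} {f g : (ι → ℝ) → Λ} (hf : Good e f) (hg : Good e g) :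
    Good e (fun x => f x * g x) where
  smooth := hf.smooth.mul hg.smooth
  per := fun i x => by simp only [hf.per i x, hg.per i x]
  even := fun i x => by rw [mul_assoc, hg.even, ← mul_assoc, hf.even, mul_assoc]
  closed := fun x => by
    have h1 := hf.closed x
    have h2 := hg.closed x
    unfold dd at *
    have : ∀ i, e i * pd i (fun x => f x * g x) x =
        (e i * pd i f x) * g x + f x * (e i * pd i g x) := by
      intro i
      rw [pd_mul i (hf.smooth.differentiable one_ne_zero x)
        (hg.smooth.differentiable one_ne_zero x), mul_add]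
      rw [← mul_assoc, ← mul_assoc (e i) (f x), ← hf.even i x, mul_assoc (f x)]
    simp only [this]
    rw [Finset.sum_add_distrib, ← Finset.sum_mul, ← Finset.mul_sum, h1, h2]
    simp

theorem good_const {e : ι → Λ} (c : Λ) (hc : ∀ i, c * e i = e i * c) : Good e (fun _ => c) where
  smooth := contDiff_const
  per := fun _ _ => rfl
  even := fun i _ => hc i
  closed := fun x => by simp [dd, pd_const]

theorem good_sub {e : ι → Λ} {f g : (ι → ℝ) → Λ} (hf : Good e f) (hg : Good e g) :
    Good e (fun x => f x - g x) where
  smooth := hf.smooth.sub hg.smooth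
  per := fun i x => by simp only [hf.per i x, hg.per i x]
  even := fun i x => by rw [sub_mul, mul_sub, hf.even, hg.even]
  closed := fun x => by
    have h1 := hf.closed x
    have h2 := hg.closed x
    unfold dd at *
    have : ∀ i, e i * pd i (fun x => f x - g x) x = (e i * pd i f x) - (e i * pd i g x) := by
      intro i
      rw [pd_sub i (hf.smooth.differentiable one_ne_zero x)
        (hg.smooth.differentiable one_ne_zero x), mul_sub]
    simp only [this]
    rw [Finset.sum_sub_distrib, h1, h2, sub_zero]

/-- the derivative of an odd function is odd -/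
theorem pd_odd {e : ι → Λ} {f : (ι → ℝ) → Λ} (hf : Differentiable ℝ f)
    (ho : ∀ i x, f x * e i = - (e i * f x)) (j i : ι) (x : ι → ℝ) :
    pd j f x * e i = - (e i * pd j f x) := by
  have h0 : (fun y => f y * e i + e i * f y) = fun _ => (0 : Λ) := by
    funext y; rw [ho i y]; simp
  have h1 : pd j (fun y => f y * e i + e i * f y) x = 0 := by
    rw [h0]; exact pd_const _ _ _
  rw [pd_add j ((hf x).mul_const _) ((hf x).const_mul _),
    pd_mul j (hf x) (differentiableAt_const _),
    pd_mul j (differentiableAt_const _) (hf x), pd_const] at h1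
  simp only [mul_zero, add_zero, zero_mul, zero_add] at h1
  exact eq_neg_of_add_eq_zero_left h1

theorem pd_comm {f : (ι → ℝ) → Λ} (hf : ContDiff ℝ 2 f) (i j : ι) (x : ι → ℝ) :
    pd i (pd j f) x = pd j (pd i f) x := by
  have hs : IsSymmSndFDerivAt ℝ f x := by
    apply hf.contDiffAt.isSymmSndFDerivAt
    simp
  have hd : DifferentiableAt ℝ (fderiv ℝ f) x := by
    have : ContDiff ℝ 1 (fderiv ℝ f) := hf.fderiv_right (by norm_num)
    exact this.differentiable one_ne_zero x
  have key : ∀ a b : ι, pd a (pd b f) x =
      fderiv ℝ (fderiv ℝ f) x (Pi.single a 1) (Pi.single b 1) := by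
    intro a b
    unfold pd
    rw [fderiv_clm_apply hd (differentiableAt_const _)]
    simp
  rw [key, key]
  exact hs.eq _ _

theorem good_dd {e : ι → Λ} (he : ∀ i j, e i * e j = - (e j * e i)) {f : (ι → ℝ) → Λ}
    (hf : Odd1 e f) : Good e (dd e f) where
  smooth := by
    unfold dd
    apply ContDiff.sum
    intro i _
    exact contDiff_const.mul (pd_contDiff (n := 1) (by simpa using! hf.smooth) i)
  per := fun i x => by
    unfold dd
    apply Finset.sum_congr rfl
    intro j _
    rw [pd_per hf.per j i x]
  even := fun i x => by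
    unfold dd
    rw [Finset.sum_mul, Finset.mul_sum]
    apply Finset.sum_congr rfl
    intro j _
    rw [mul_assoc, pd_odd (hf.smooth.differentiable (by norm_num)) hf.odd, mul_neg, ← mul_assoc,
      he j i, ← mul_assoc]
    simp
  closed := fun x => by
    have hsm : ∀ i, ContDiff ℝ 1 (pd i f) := fun i =>
      pd_contDiff (n := 1) (by simpa using! hf.smooth) i
    have h1 : ∀ i, pd i (dd e f) x = ∑ j, e j * pd i (pd j f) x := by
      intro i
      unfold dd
      have : pd i (fun x => ∑ j, e j * pd j f x) x = ∑ j, pd i (fun x => e j * pd j f x) x := by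
        unfold pd
        rw [fderiv_fun_sum]
        · simp
        · intro j _
          exact ((hsm j).differentiable one_ne_zero x).const_mul _
      rw [this]
      apply Finset.sum_congr rfl
      intro j _
      rw [pd_mul i (differentiableAt_const _) ((hsm j).differentiable one_ne_zero x), pd_const]
      simp
    unfold dd at h1 ⊢
    simp only [h1]
    set S := ∑ i, e i * ∑ j, e j * pd i (pd j f) x with hS
    have h2 : S = ∑ i, ∑ j, e i * e j * pd i (pd j f) x := by
      simp only [hS, Finset.mul_sum, mul_assoc]
    have h3 : S = - S := by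
      conv_lhs => rw [h2, Finset.sum_comm]
      rw [h2, ← Finset.sum_neg_distrib]
      apply Finset.sum_congr rfl
      intro i _
      rw [← Finset.sum_neg_distrib]
      apply Finset.sum_congr rfl
      intro j _
      rw [he j i, pd_comm hf.smooth j i x]
      simp
    have h4 : (2 : ℝ) • S = 0 := by
      rw [two_smul]
      nth_rewrite 1 [h3]
      simp
    rcases smul_eq_zero.mp h4 with h | h
    · norm_num at h
    · exact h

end Alg

section Main

variable {n : ℕ} {Λ : Type*} [NormedRing Λ] [NormedAlgebra ℝ Λ] [CompleteSpace Λ]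

theorem integral_dd_mul {e : Fin (n + 1) → Λ}
    {f g : (Fin (n + 1) → ℝ) → Λ} (hf : Odd1 e f) (hg : Good e g) :
    ∫ x in Icc (0 : Fin (n + 1) → ℝ) 1, dd e f x * g x = 0 := by
  have h1 : ∀ x, dd e f x * g x = ∑ i, e i * pd i (fun y => f y * g y) x := by
    intro x
    have hc := hg.closed x
    unfold dd at *
    have : ∀ i, e i * pd i (fun y => f y * g y) x =
        (e i * pd i f x) * g x - f x * (e i * pd i g x) := by
      intro i
      rw [pd_mul i (hf.smooth.differentiable (by norm_num) x)
        (hg.smooth.differentiable one_ne_zero x), mul_add, ← mul_assoc, ← mul_assoc,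
        ← mul_assoc, hf.odd i x]
      simp
    simp only [this]
    rw [Finset.sum_sub_distrib, ← Finset.mul_sum, hc, ← Finset.sum_mul]
    simp
  simp only [h1]
  have hsm : ContDiff ℝ 1 (fun y => f y * g y) := (hf.smooth.of_le (by norm_num)).mul hg.smooth
  have hper : Per (fun y => f y * g y) := fun i x => by simp only [hf.per i x, hg.per i x]
  have hcont : ∀ i, Continuous (pd i (fun y => f y * g y)) := fun i =>
    (pd_contDiff (n := 0) (by simpa using! hsm) i).continuous
  rw [integral_finsetSum]
  · apply Finset.sum_eq_zero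
    intro i _
    have : ∫ x in Icc (0 : Fin (n + 1) → ℝ) 1, e i * pd i (fun y => f y * g y) x =
        e i * ∫ x in Icc (0 : Fin (n + 1) → ℝ) 1, pd i (fun y => f y * g y) x := by
      have hint : IntegrableOn (pd i (fun y => f y * g y)) (Icc (0 : Fin (n + 1) → ℝ) 1) :=
        (hcont i).continuousOn.integrableOn_compact isCompact_Icc
      exact (ContinuousLinearMap.integral_comp_comm (ContinuousLinearMap.mul ℝ Λ (e i)) hint)
    rw [this, integral_pd_eq_zero hsm hper i, mul_zero]
  · intro i _
    exact ((continuous_const.mul (hcont i)).continuousOn.integrableOn_compact isCompact_Icc)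

/-- Stokes: the integral of a product of closed even forms depends only on the constant parts. -/
theorem integral_prod_eq {e : Fin (n + 1) → Λ} (he : ∀ i j, e i * e j = - (e j * e i)) :
    ∀ (L : List (Λ × ((Fin (n + 1) → ℝ) → Λ))), (∀ p ∈ L, (∀ i, p.1 * e i = e i * p.1) ∧
      Odd1 e p.2) →
    Good e (fun x => (L.map fun p => p.1 - dd e p.2 x).prod) ∧
    ∫ x in Icc (0 : Fin (n + 1) → ℝ) 1, (L.map fun p => p.1 - dd e p.2 x).prod =
      (L.map Prod.fst).prod
  | [] => fun _ => by
    refine ⟨?_, ?_⟩
    · simpa using! good_const (e := e) 1 (by simp)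
    · simp [Measure.real, Real.volume_Icc_pi]
  | (p :: L) => fun h => by
    have hp := h p (by simp)
    have ih := integral_prod_eq he L (fun q hq => h q (by simp [hq]))
    have g1 : Good e (fun x => p.1 - dd e p.2 x) :=
      good_sub (good_const p.1 hp.1) (good_dd he hp.2)
    refine ⟨?_, ?_⟩
    · simpa using! dd_mul_good g1 ih.1
    · simp only [List.map_cons, List.prod_cons]
      have hc1 : Continuous (fun x => (L.map fun p => p.1 - dd e p.2 x).prod) :=
        ih.1.smooth.continuous
      have hc2 : Continuous (dd e p.2) := (good_dd he hp.2).smooth.continuous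
      simp only [sub_mul]
      rw [integral_sub]
      · rw [integral_dd_mul hp.2 ih.1, sub_zero]
        have : ∫ x in Icc (0 : Fin (n + 1) → ℝ) 1,
            p.1 * (L.map fun p => p.1 - dd e p.2 x).prod =
          p.1 * ∫ x in Icc (0 : Fin (n + 1) → ℝ) 1, (L.map fun p => p.1 - dd e p.2 x).prod := by
          exact (ContinuousLinearMap.integral_comp_comm (ContinuousLinearMap.mul ℝ Λ p.1)
            (hc1.continuousOn.integrableOn_compact isCompact_Icc))
        rw [this, ih.2]
      · exact (continuous_const.mul hc1).continuousOn.integrableOn_compact isCompact_Icc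
      · exact (hc2.mul hc1).continuousOn.integrableOn_compact isCompact_Icc

/-- If at every point of the unit cube one of the forms vanishes, the product of constants is 0. -/
theorem prod_const_eq_zero {e : Fin (n + 1) → Λ} (he : ∀ i j, e i * e j = - (e j * e i))
    (L : List (Λ × ((Fin (n + 1) → ℝ) → Λ))) (h : ∀ p ∈ L, (∀ i, p.1 * e i = e i * p.1) ∧
      Odd1 e p.2) (hz : ∀ x ∈ Icc (0 : Fin (n + 1) → ℝ) 1, ∃ p ∈ L, p.1 - dd e p.2 x = 0) :
    (L.map Prod.fst).prod = 0 := by
  rw [← (integral_prod_eq he L h).2]
  have : ∀ x ∈ Icc (0 : Fin (n + 1) → ℝ) 1, (L.map fun p => p.1 - dd e p.2 x).prod = 0 := by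
    intro x hx
    obtain ⟨p, hp, h0⟩ := hz x hx
    obtain ⟨L1, L2, rfl⟩ := List.append_of_mem hp
    simp [h0]
  rw [setIntegral_congr_fun measurableSet_Icc this]
  simp

end Main

end

end Vale.Agent.P093
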