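import Vale.Agent.P093.Forms
import Mathlib.Analysis.Calculus.ContDiff.Basic
import Mathlib.Analysis.SpecialFunctions.ExpDeriv
import Mathlib.Analysis.SpecialFunctions.SmoothTransition

/-!
The connection form attached to a section of a line bundle on the torus.
-/

open MeasureTheory Set
open scoped ContDiff

namespace Vale.Agent.P093

noncomputable section

section Alg

variable {ι : Type*} [Fintype ι] [DecidableEq ι]
variable {Λ : Type*} [NormedRing Λ] [NormedAlgebra ℝ Λ]

theorem dd_dd {e : ι → Λ} (he : ∀ i j, e i * e j = - (e j * e i)) {f : (ι → ℝ) → Λ}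
    (hf : ContDiff ℝ 2 f) (x : ι → ℝ) : dd e (dd e f) x = 0 := by
  have hsm : ∀ i, ContDiff ℝ 1 (pd i f) := fun i =>
    pd_contDiff (n := 1) (by simpa using! hf) i
  have h1 : ∀ i, pd i (dd e f) x = ∑ j, e j * pd i (pd j f) x := by
    intro i
    unfold dd
    have : pd i (fun x => ∑ j, e j * pd j f x) x = ∑ j, pd i (fun x => e j * pd j f x) x := by
      unfold pd
      rw [fderiv_fun_sum]
      · simp
      · intro j _
        exact ((hsm j).differentiable one_ne_zero x).const_mul _
    rw [this]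
    apply Finset.sum_congr rfl
    intro j _
    rw [pd_mul i (differentiableAt_const _) ((hsm j).differentiable one_ne_zero x), pd_const]
    simp
  unfold dd at h1 ⊢
  simp only [h1]
  set S := ∑ i, e i * ∑ j, e j * pd i (pd j f) x with hS
  have h2 : S = ∑ i, ∑ j, e i * e j * pd i (pd j f) x := by
    simp only [hS, Finset.mul_sum, mul_assoc]
  have h3 : S = - S := by
    conv_lhs => rw [h2, Finset.sum_comm]
    rw [h2, ← Finset.sum_neg_distrib]
    apply Finset.sum_congr rfl
    intro i _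
    rw [← Finset.sum_neg_distrib]
    apply Finset.sum_congr rfl
    intro j _
    rw [he j i, pd_comm hf j i x]
    simp
  have h4 : (2 : ℝ) • S = 0 := by
    rw [two_smul]
    nth_rewrite 1 [h3]
    simp
  rcases smul_eq_zero.mp h4 with h | h
  · norm_num at h
  · exact h

/-- Leibniz rule for an even function on the left -/
theorem dd_even_mul {e : ι → Λ} {f g : (ι → ℝ) → Λ} {x : ι → ℝ}
    (hev : ∀ i, f x * e i = e i * f x) (hf : DifferentiableAt ℝ f x)
    (hg : DifferentiableAt ℝ g x) :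
    dd e (fun y => f y * g y) x = dd e f x * g x + f x * dd e g x := by
  unfold dd
  have : ∀ i, e i * pd i (fun x => f x * g x) x =
      (e i * pd i f x) * g x + f x * (e i * pd i g x) := by
    intro i
    rw [pd_mul i hf hg, mul_add, ← mul_assoc, ← mul_assoc (e i) (f x), ← hev i, mul_assoc (f x)]
  simp only [this]
  rw [Finset.sum_add_distrib, ← Finset.sum_mul, ← Finset.mul_sum]

theorem dd_sub {e : ι → Λ} {f g : (ι → ℝ) → Λ} {x : ι → ℝ}
    (hf : DifferentiableAt ℝ f x) (hg : DifferentiableAt ℝ g x) :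
    dd e (fun y => f y - g y) x = dd e f x - dd e g x := by
  unfold dd
  rw [← Finset.sum_sub_distrib]
  apply Finset.sum_congr rfl
  intro i _
  rw [pd_sub i hf hg, mul_sub]

theorem dd_const (e : ι → Λ) (c : Λ) (x : ι → ℝ) : dd e (fun _ => c) x = 0 := by
  simp [dd, pd_const]

theorem dd_congr {e : ι → Λ} {f g : (ι → ℝ) → Λ} {x : ι → ℝ} (h : f =ᶠ[nhds x] g) :
    dd e f x = dd e g x := by
  unfold dd pd
  rw [h.fderiv_eq]

/-- square of an odd combination with central coefficients vanishes -/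
theorem sq_zero {e : ι → Λ} (he : ∀ i j, e i * e j = - (e j * e i)) (c : ι → Λ)
    (hc : ∀ i (a : Λ), c i * a = a * c i) : (∑ i, e i * c i) * (∑ i, e i * c i) = 0 := by
  set S := (∑ i, e i * c i) * (∑ i, e i * c i) with hS
  have h2 : S = ∑ i, ∑ j, e i * e j * (c i * c j) := by
    rw [hS, Finset.sum_mul]
    apply Finset.sum_congr rfl
    intro i _
    rw [Finset.mul_sum]
    apply Finset.sum_congr rfl
    intro j _
    rw [mul_assoc, ← mul_assoc (c i), hc i (e j)]
    simp only [mul_assoc]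
  have h3 : S = - S := by
    conv_lhs => rw [h2, Finset.sum_comm]
    rw [h2, ← Finset.sum_neg_distrib]
    apply Finset.sum_congr rfl
    intro i _
    rw [← Finset.sum_neg_distrib]
    apply Finset.sum_congr rfl
    intro j _
    rw [he j i, hc j]
    simp
  have h4 : (2 : ℝ) • S = 0 := by
    rw [two_smul]
    nth_rewrite 1 [h3]
    simp
  rcases smul_eq_zero.mp h4 with h | h
  · norm_num at h
  · exact h

end Alg

section Scal

variable {ι : Type*} [Fintype ι] [DecidableEq ι]
variable {Λ : Type*} [NormedRing Λ] [NormedAlgebra ℂ Λ]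

/-- scalar function viewed in the algebra -/
def sc (Λ : Type*) [NormedRing Λ] [NormedAlgebra ℂ Λ] (f : (ι → ℝ) → ℂ) (x : ι → ℝ) : Λ :=
  algebraMap ℂ Λ (f x)

omit [Fintype ι] [DecidableEq ι] in
theorem sc_comm (f : (ι → ℝ) → ℂ) (x : ι → ℝ) (a : Λ) : sc Λ f x * a = a * sc Λ f x :=
  Algebra.commutes _ _

/-- the inclusion of scalars as a continuous real linear map -/
def scL (Λ : Type*) [NormedRing Λ] [NormedAlgebra ℂ Λ] : ℂ →L[ℝ] Λ :=
  (ContinuousLinearMap.restrictScalars ℝ (algebraMapCLM ℂ Λ))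

omit [DecidableEq ι] in
theorem sc_contDiff {f : (ι → ℝ) → ℂ} {n : WithTop ℕ∞} (hf : ContDiff ℝ n f) :
    ContDiff ℝ n (sc Λ f) :=
  (scL Λ).contDiff.comp hf

theorem pd_sc_comm {f : (ι → ℝ) → ℂ} (hf : Differentiable ℝ f) (i : ι) (x : ι → ℝ) (a : Λ) :
    pd i (sc Λ f) x * a = a * pd i (sc Λ f) x := by
  have h : pd i (sc Λ f) x = algebraMap ℂ Λ (fderiv ℝ f x (Pi.single i 1)) := by
    unfold pd
    have := ((scL Λ).hasFDerivAt (x := f x)).comp x (hf x).hasFDerivAt
    have h2 : fderiv ℝ (sc Λ f) x = (scL Λ).comp (fderiv ℝ f x) := this.fderiv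
    rw [h2]
    rfl
  rw [h]
  exact Algebra.commutes _ _

/-- data of a smooth section of a line bundle of degree `d` on the torus -/
structure Quasi {m : ℕ} (X Y : Fin m → ι) (d : Fin m → ℤ) (f : (ι → ℝ) → ℂ) : Prop where
  smooth : ContDiff ℝ 3 f
  qx : ∀ j x, f (x + Pi.single (X j) 1) = f x
  qy : ∀ j x, f (x + Pi.single (Y j) 1) =
    Complex.exp (2 * Real.pi * Complex.I * (d j) * (x (X j))) * f x

/-- coordinate function -/
def coordL (i : ι) : (ι → ℝ) →L[ℝ] ℂ :=
  Complex.ofRealCLM.comp (ContinuousLinearMap.proj i)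

omit [Fintype ι] [DecidableEq ι] in
theorem coordL_apply (i : ι) (x : ι → ℝ) : coordL i x = (x i : ℂ) := rfl

/-- connection form -/
def conn {m : ℕ} (X Y : Fin m → ι) (d : Fin m → ℤ) (e : ι → Λ) (x : ι → ℝ) : Λ :=
  ∑ j, e (X j) * algebraMap ℂ Λ (2 * Real.pi * Complex.I * (d j) * (x (Y j)))

/-- curvature -/
def curv {m : ℕ} (X Y : Fin m → ι) (d : Fin m → ℤ) (e : ι → Λ) : Λ :=
  ∑ j, (e (X j) * e (Y j)) * algebraMap ℂ Λ (2 * Real.pi * Complex.I * (d j))

theorem conn_contDiff {m : ℕ} (X Y : Fin m → ι) (d : Fin m → ℤ) (e : ι → Λ) {n : WithTop ℕ∞} :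
    ContDiff ℝ n (conn X Y d e) := by
  unfold conn
  apply ContDiff.sum
  intro j _
  apply contDiff_const.mul
  have h : ContDiff ℝ n (fun x : ι → ℝ => (2 * Real.pi * Complex.I * (d j) * (x (Y j)) : ℂ)) :=
    contDiff_const.mul (coordL (Y j)).contDiff
  exact (scL Λ).contDiff.comp h

theorem dd_conn {m : ℕ} (X Y : Fin m → ι) (d : Fin m → ℤ) (e : ι → Λ)
    (he : ∀ i j, e i * e j = - (e j * e i)) (x : ι → ℝ) :
    dd e (conn X Y d e) x = - curv X Y d e := by
  have key : ∀ i, pd i (conn X Y d e) x = ∑ j, e (X j) *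
      algebraMap ℂ Λ (2 * Real.pi * Complex.I * (d j) * (if Y j = i then 1 else 0)) := by
    intro i
    unfold pd conn
    rw [fderiv_fun_sum]
    · rw [ContinuousLinearMap.sum_apply]
      apply Finset.sum_congr rfl
      intro j _
      have h1 : HasFDerivAt (fun x : ι → ℝ => (2 * Real.pi * Complex.I * (d j) * (x (Y j)) : ℂ))
          (((2 * Real.pi * Complex.I * (d j) : ℂ)) • coordL (Y j)) x := by
        exact ((coordL (Y j)).hasFDerivAt (x := x)).const_mul _
      have h2 := (((scL Λ).hasFDerivAt (x := _)).comp x h1).const_mul (e (X j))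
      have h3 : (fun x : ι → ℝ => e (X j) *
          algebraMap ℂ Λ (2 * Real.pi * Complex.I * (d j) * (x (Y j)))) =
          fun x => e (X j) * ((scL Λ) ∘ (fun x : ι → ℝ =>
            (2 * Real.pi * Complex.I * (d j) * (x (Y j)) : ℂ))) x := rfl
      rw [h3, h2.fderiv]
      simp only [ContinuousLinearMap.smul_apply, ContinuousLinearMap.comp_apply, smul_eq_mul]
      congr 1
      change algebraMap ℂ Λ _ = _
      congr 1
      simp only [ContinuousLinearMap.smul_apply, smul_eq_mul, coordL_apply]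
      by_cases h : Y j = i
      · subst h; simp
      · simp [h, Pi.single_apply]
    · intro j _
      have h : ContDiff ℝ 1 (fun x : ι → ℝ => (2 * Real.pi * Complex.I * (d j) * (x (Y j)) : ℂ)) :=
        contDiff_const.mul (coordL (Y j)).contDiff
      exact ((((scL Λ).contDiff.comp h).differentiable one_ne_zero) x).const_mul _
  unfold dd curv
  simp only [key, Finset.mul_sum]
  rw [Finset.sum_comm, ← Finset.sum_neg_distrib]
  apply Finset.sum_congr rfl
  intro j _
  rw [Finset.sum_eq_single (Y j)]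
  · rw [← mul_assoc, he (Y j) (X j)]
    simp
  · intro b _ hb
    simp [hb.symm]
  · simp

/-- the global one-form -/
def eta {m : ℕ} (X Y : Fin m → ι) (d : Fin m → ℤ) (e : ι → Λ) (f g : (ι → ℝ) → ℂ)
    (x : ι → ℝ) : Λ :=
  sc Λ g x * (dd e (sc Λ f) x - sc Λ f x * conn X Y d e x)

theorem dd_eta {m : ℕ} (X Y : Fin m → ι) (d : Fin m → ℤ) (e : ι → Λ)
    (he : ∀ i j, e i * e j = - (e j * e i)) {f g : (ι → ℝ) → ℂ} (hf : ContDiff ℝ 3 f)
    (hg : ContDiff ℝ 2 g) {x : ι → ℝ} (h : ∀ᶠ y in nhds x, g y * f y = 1) :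
    dd e (eta X Y d e f g) x = curv X Y d e := by
  have hF : ContDiff ℝ 3 (sc Λ f) := sc_contDiff hf
  have hG : ContDiff ℝ 2 (sc Λ g) := sc_contDiff hg
  have hdF : ContDiff ℝ 2 (dd e (sc Λ f)) := by
    unfold dd
    apply ContDiff.sum
    intro i _
    exact contDiff_const.mul (pd_contDiff (n := 2) (by exact hF) i)
  have h1 : eta X Y d e f g =ᶠ[nhds x] fun y =>
      sc Λ g y * dd e (sc Λ f) y - conn X Y d e y := by
    filter_upwards [h] with y hy
    unfold eta
    rw [mul_sub, ← mul_assoc]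
    congr 1
    have : sc Λ g y * sc Λ f y = 1 := by
      unfold sc; rw [← map_mul, hy, map_one]
    rw [this, one_mul]
  rw [dd_congr h1, dd_sub, dd_even_mul (fun i => sc_comm _ _ _), dd_dd he (hF.of_le (by norm_num)),
    dd_conn X Y d e he, mul_zero, add_zero, sub_neg_eq_add]
  · -- show dd g * dd f = 0
    have hgf : sc Λ g x * sc Λ f x = 1 := by
      have := h.self_of_nhds
      unfold sc; rw [← map_mul, this, map_one]
    have h2 : (fun y => sc Λ g y * sc Λ f y) =ᶠ[nhds x] fun _ => (1 : Λ) := by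
      filter_upwards [h] with y hy
      unfold sc; rw [← map_mul, hy, map_one]
    have h3 : dd e (sc Λ g) x * sc Λ f x + sc Λ g x * dd e (sc Λ f) x = 0 := by
      rw [← dd_even_mul (fun i => sc_comm _ _ _) (hG.differentiable (by norm_num) x)
        (hF.differentiable (by norm_num) x), dd_congr h2, dd_const]
    have h4 : dd e (sc Λ f) x * dd e (sc Λ f) x = 0 := by
      have := sq_zero he (fun i => pd i (sc Λ f) x)
        (fun i a => pd_sc_comm (hf.differentiable (by norm_num)) i x a)
      simpa [dd] using this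
    have h5 : dd e (sc Λ g) x = - (sc Λ g x * (sc Λ g x * dd e (sc Λ f) x)) := by
      calc dd e (sc Λ g) x = dd e (sc Λ g) x * (sc Λ f x * sc Λ g x) := by
            rw [sc_comm f x, hgf, mul_one]
        _ = (dd e (sc Λ g) x * sc Λ f x) * sc Λ g x := by rw [mul_assoc]
        _ = (- (sc Λ g x * dd e (sc Λ f) x)) * sc Λ g x := by
            rw [eq_neg_of_add_eq_zero_left h3]
        _ = _ := by rw [neg_mul, ← sc_comm g x (sc Λ g x * dd e (sc Λ f) x)]
    rw [h5, neg_mul, mul_assoc, mul_assoc, h4]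
    simp
  · exact hG.differentiable (by norm_num) x
  · exact hdF.differentiable (by norm_num) x
  · exact (hG.differentiable (by norm_num) x).mul (hdF.differentiable (by norm_num) x)
  · exact (conn_contDiff (n := 1) X Y d e).differentiable one_ne_zero x

end Scal

end

end Vale.Agent.P093
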