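import Mathlib.Analysis.SpecialFunctions.SmoothTransition
import Mathlib.Analysis.SpecialFunctions.ExpDeriv
import Mathlib.Analysis.Complex.Basic
import Mathlib.Topology.Instances.AddCircle.Real
import Mathlib.Analysis.Calculus.ContDiff.RCLike
import Mathlib.Analysis.SpecialFunctions.Complex.Circle
import Mathlib.Topology.Maps.OpenQuotient
import Mathlib.Data.Matrix.Basic
import Mathlib.Algebra.BigOperators.Field
import Mathlib.Topology.Instances.Matrix

/-!
Quasi-periodic frame of a line bundle of degree one over the two-torus, and the corresponding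
projection-valued function.
-/

open scoped ContDiff

namespace Vale.Agent.P093

noncomputable section

/-- bump function -/
def gb (t : ℝ) : ℝ := Real.smoothTransition (1 - 9 * t ^ 2)

theorem gb_zero {t : ℝ} (h : 1 / 3 ≤ |t|) : gb t = 0 := by
  apply Real.smoothTransition.zero_of_nonpos
  have : (1 / 3) ^ 2 ≤ |t| ^ 2 := pow_le_pow_left₀ (by norm_num) h 2
  rw [sq_abs] at this
  linarith

theorem gb_pos {t : ℝ} (h : |t| < 1 / 3) : 0 < gb t := by
  apply Real.smoothTransition.pos_of_pos
  have : |t| ^ 2 < (1 / 3) ^ 2 := pow_lt_pow_left₀ h (abs_nonneg t) (by norm_num)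
  rw [sq_abs] at this
  linarith

theorem gb_nonneg (t : ℝ) : 0 ≤ gb t := Real.smoothTransition.nonneg _

theorem gb_contDiff {n : ℕ∞} : ContDiff ℝ n gb := by
  unfold gb
  exact Real.smoothTransition.contDiff.comp
    (contDiff_const.sub (contDiff_const.mul (contDiff_id.pow 2)))

/-- basic quasi-periodic function -/
def fr (x y : ℝ) : ℂ := (gb (y - round y) : ℂ) * Complex.exp (2 * Real.pi * Complex.I * (round y) * x)

theorem fr_loc (x y : ℝ) (j : ℤ) (h : |y - j| < 3 / 5) :
    fr x y = (gb (y - j) : ℂ) * Complex.exp (2 * Real.pi * Complex.I * j * x) := by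
  unfold fr
  by_cases hj : round y = j
  · rw [hj]
  · have h1 : (1 : ℝ) ≤ |(round y : ℝ) - j| := by
      have : (1 : ℤ) ≤ |round y - j| := Int.one_le_abs (sub_ne_zero.mpr hj)
      exact_mod_cast this
    have h2 : |(round y : ℝ) - j| ≤ |y - round y| + |y - j| := by
      have : (round y : ℝ) - j = -(y - round y) + (y - j) := by ring
      rw [this]
      exact (abs_add_le _ _).trans (by rw [abs_neg])
    have h3 : |y - round y| ≤ 1 / 2 := abs_sub_round y
    rw [gb_zero (t := y - round y) (by linarith), gb_zero (t := y - j) (by linarith)]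
    simp

theorem fr_add_x (x y : ℝ) : fr (x + 1) y = fr x y := by
  unfold fr
  congr 1
  have : (2 * Real.pi * Complex.I * (round y) * ((x + 1 : ℝ) : ℂ)) =
      2 * Real.pi * Complex.I * (round y) * x + (round y) * (2 * Real.pi * Complex.I) := by
    push_cast; ring
  rw [this, Complex.exp_add, Complex.exp_int_mul_two_pi_mul_I, mul_one]

theorem fr_add_y (x y : ℝ) :
    fr x (y + 1) = Complex.exp (2 * Real.pi * Complex.I * x) * fr x y := by
  unfold fr
  rw [round_add_one]
  push_cast
  rw [add_sub_add_right_eq_sub]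
  have : (2 * Real.pi * Complex.I * ((round y : ℂ) + 1) * x) =
      2 * Real.pi * Complex.I * x + 2 * Real.pi * Complex.I * (round y) * x := by ring
  rw [this, Complex.exp_add]
  ring

theorem fr_contDiff {n : ℕ∞} : ContDiff ℝ n (fun q : ℝ × ℝ => fr q.1 q.2) := by
  rw [contDiff_iff_contDiffAt]
  rintro ⟨x, y⟩
  set j := round y with hj
  have hev : (fun q : ℝ × ℝ => fr q.1 q.2) =ᶠ[nhds (x, y)] fun q =>
      (gb (q.2 - j) : ℂ) * Complex.exp (2 * Real.pi * Complex.I * j * q.1) := by
    have h1 : |y - j| ≤ 1 / 2 := abs_sub_round y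
    have h2 : ∀ᶠ q : ℝ × ℝ in nhds (x, y), |q.2 - j| < 3 / 5 := by
      have hc : Continuous (fun q : ℝ × ℝ => |q.2 - j|) := by fun_prop
      exact hc.continuousAt.eventually_lt continuousAt_const (by simp only; linarith)
    filter_upwards [h2] with q hq
    exact fr_loc _ _ _ hq
  refine ContDiffAt.congr_of_eventuallyEq ?_ hev
  apply ContDiff.contDiffAt
  apply ContDiff.mul
  · apply Complex.ofRealCLM.contDiff.comp
    exact gb_contDiff.comp (contDiff_snd.sub contDiff_const)
  · apply ContDiff.cexp
    exact contDiff_const.mul (Complex.ofRealCLM.contDiff.comp contDiff_fst)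

/-- first component of the frame -/
def frA (x y : ℝ) : ℂ := fr x y

/-- second component of the frame -/
def frB (x y : ℝ) : ℂ := fr x (y - 1 / 2)

/-- frame vector -/
def frU (x y : ℝ) : Fin 2 → ℂ := ![frA x y, frB x y]

theorem frA_contDiff {n : ℕ∞} : ContDiff ℝ n (fun q : ℝ × ℝ => frA q.1 q.2) := fr_contDiff

theorem frB_contDiff {n : ℕ∞} : ContDiff ℝ n (fun q : ℝ × ℝ => frB q.1 q.2) := by
  have h : ContDiff ℝ n (fun q : ℝ × ℝ => ((q.1, q.2 - 1 / 2) : ℝ × ℝ)) :=
    contDiff_fst.prodMk (contDiff_snd.sub contDiff_const)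
  have h2 := (fr_contDiff (n := n)).comp h
  exact h2

theorem frU_contDiff {n : ℕ∞} (a : Fin 2) : ContDiff ℝ n (fun q : ℝ × ℝ => frU q.1 q.2 a) := by
  fin_cases a
  · exact frA_contDiff
  · exact frB_contDiff

theorem frU_add_x (x y : ℝ) : frU (x + 1) y = frU x y := by
  unfold frU frA frB
  rw [fr_add_x, fr_add_x]

theorem frU_add_y (x y : ℝ) (a : Fin 2) :
    frU x (y + 1) a = Complex.exp (2 * Real.pi * Complex.I * x) * frU x y a := by
  unfold frU frA frB
  have : y + 1 - 1 / 2 = (y - 1 / 2) + 1 := by ring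
  rw [this, fr_add_y, fr_add_y]
  fin_cases a <;> simp

theorem frU_ne_zero (x y : ℝ) : frU x y ≠ 0 := by
  intro h
  have h0 : fr x y = 0 := by simpa [frU, frA] using! congrFun h 0
  have h1 : fr x (y - 1 / 2) = 0 := by simpa [frU, frB] using! congrFun h 1
  have g0 : gb (y - round y) = 0 := by
    unfold fr at h0
    rcases mul_eq_zero.mp h0 with h | h
    · exact_mod_cast h
    · exact absurd h (Complex.exp_ne_zero _)
  have g1 : gb (y - 1 / 2 - round (y - 1 / 2)) = 0 := by
    unfold fr at h1
    rcases mul_eq_zero.mp h1 with h | h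
    · exact_mod_cast h
    · exact absurd h (Complex.exp_ne_zero _)
  have k0 : 1 / 3 ≤ |y - round y| := by
    by_contra hlt
    exact absurd g0 (gb_pos (not_le.mp hlt)).ne'
  have k1 : 1 / 3 ≤ |y - 1 / 2 - round (y - 1 / 2)| := by
    by_contra hlt
    exact absurd g1 (gb_pos (not_le.mp hlt)).ne'
  have m0 : |y - round y| ≤ 1 / 2 := abs_sub_round y
  -- the nearest integer to y - 1/2 is at distance at most 1/6
  rcases le_abs.mp k0 with h | h
  · have h5 : |y - 1 / 2 - round y| ≤ 1 / 6 := by
      rw [abs_le]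
      rw [abs_le] at m0
      constructor <;> linarith
    have := round_le (y - 1 / 2) (round y)
    linarith
  · have h5 : |y - 1 / 2 - ((round y - 1 : ℤ) : ℝ)| ≤ 1 / 6 := by
      rw [abs_le]
      rw [abs_le] at m0
      push_cast
      constructor <;> linarith
    have := round_le (y - 1 / 2) (round y - 1)
    linarith

/-- squared norm of the frame -/
def frN (x y : ℝ) : ℝ := ∑ a, Complex.normSq (frU x y a)

theorem frN_pos (x y : ℝ) : 0 < frN x y := by
  have h := frU_ne_zero x y
  obtain ⟨a, ha⟩ := Function.ne_iff.mp h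
  exact lt_of_lt_of_le (Complex.normSq_pos.mpr ha)
    (Finset.single_le_sum (f := fun a => Complex.normSq (frU x y a))
      (fun i _ => Complex.normSq_nonneg _) (Finset.mem_univ a))

/-- the two-torus -/
abbrev Tor := UnitAddCircle × UnitAddCircle

/-- projection in coordinates -/
def prR (x y : ℝ) : Matrix (Fin 2) (Fin 2) ℂ :=
  fun a b => frU x y a * (starRingEnd ℂ) (frU x y b) / (frN x y : ℂ)

theorem phase_mul (x : ℝ) : Complex.exp (2 * Real.pi * Complex.I * x) *
    (starRingEnd ℂ) (Complex.exp (2 * Real.pi * Complex.I * x)) = 1 := by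
  rw [Complex.mul_conj, Complex.normSq_eq_norm_sq]
  have : (2 * Real.pi * Complex.I * x : ℂ) = ((2 * Real.pi * x : ℝ) : ℂ) * Complex.I := by
    push_cast; ring
  rw [this, Complex.norm_exp_ofReal_mul_I]
  norm_num

theorem prR_add_x (x y : ℝ) : prR (x + 1) y = prR x y := by
  funext a b
  unfold prR frN
  rw [frU_add_x]

theorem frN_add_y (x y : ℝ) : frN x (y + 1) = frN x y := by
  unfold frN
  apply Finset.sum_congr rfl
  intro a _
  rw [frU_add_y, map_mul]
  have h := phase_mul x
  rw [Complex.mul_conj] at h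
  have h' : Complex.normSq (Complex.exp (2 * Real.pi * Complex.I * x)) = 1 := by exact_mod_cast h
  rw [h', one_mul]

theorem prR_add_y (x y : ℝ) : prR x (y + 1) = prR x y := by
  funext a b
  unfold prR
  rw [frN_add_y, frU_add_y, frU_add_y, map_mul]
  congr 1
  calc Complex.exp (2 * Real.pi * Complex.I * x) * frU x y a *
        ((starRingEnd ℂ) (Complex.exp (2 * Real.pi * Complex.I * x)) * (starRingEnd ℂ) (frU x y b))
      = (Complex.exp (2 * Real.pi * Complex.I * x) *
        (starRingEnd ℂ) (Complex.exp (2 * Real.pi * Complex.I * x))) *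
        (frU x y a * (starRingEnd ℂ) (frU x y b)) := by ring
    _ = _ := by rw [phase_mul, one_mul]

theorem prR_continuous : Continuous (fun q : ℝ × ℝ => prR q.1 q.2) := by
  have hU : ∀ a, Continuous (fun q : ℝ × ℝ => frU q.1 q.2 a) := fun a =>
    (frU_contDiff (n := 0) a).continuous
  apply continuous_pi
  intro a
  apply continuous_pi
  intro b
  unfold prR
  apply Continuous.div
  · exact (hU a).mul (Complex.continuous_conj.comp (hU b))
  · apply Complex.continuous_ofReal.comp
    unfold frN
    apply continuous_finset_sum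
    intro c _
    exact Complex.continuous_normSq.comp (hU c)
  · rintro ⟨x, y⟩
    exact_mod_cast (frN_pos x y).ne'

/-- representative of a point of the circle -/
def rp (a : UnitAddCircle) : ℝ := (AddCircle.equivIco 1 0 a : ℝ)

theorem rp_coe (a : UnitAddCircle) : ((rp a : ℝ) : UnitAddCircle) = a :=
  (AddCircle.equivIco 1 0).symm_apply_apply a

/-- a function periodic in both variables descends to the torus -/
theorem descend {β : Type*} {F : ℝ → ℝ → β} (hx : ∀ x y, F (x + 1) y = F x y)
    (hy : ∀ x y, F x (y + 1) = F x y) (x y : ℝ) :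
    F (rp (x : UnitAddCircle)) (rp (y : UnitAddCircle)) = F x y := by
  have e1 : ∀ (x y : ℝ), F (rp (x : UnitAddCircle)) y = F x y := by
    intro x y
    have hp : Function.Periodic (fun x => F x y) 1 := fun x => hx x y
    have h1 : hp.lift (x : UnitAddCircle) = F x y := hp.lift_coe x
    have h2 : hp.lift ((rp (x : UnitAddCircle) : ℝ) : UnitAddCircle) =
      F (rp (x : UnitAddCircle)) y := hp.lift_coe _
    rw [rp_coe] at h2
    rw [← h2, h1]
  have e2 : ∀ (x y : ℝ), F x (rp (y : UnitAddCircle)) = F x y := by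
    intro x y
    have hp : Function.Periodic (fun y => F x y) 1 := fun y => hy x y
    have h1 : hp.lift (y : UnitAddCircle) = F x y := hp.lift_coe y
    have h2 : hp.lift ((rp (y : UnitAddCircle) : ℝ) : UnitAddCircle) =
      F x (rp (y : UnitAddCircle)) := hp.lift_coe _
    rw [rp_coe] at h2
    rw [← h2, h1]
  rw [e1, e2]

theorem isOpenQuotientMap_coe2 :
    IsOpenQuotientMap (Prod.map (fun x : ℝ => (x : UnitAddCircle))
      (fun x : ℝ => (x : UnitAddCircle))) :=
  IsOpenQuotientMap.prodMap QuotientAddGroup.isOpenQuotientMap_mk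
    QuotientAddGroup.isOpenQuotientMap_mk

/-- the rank one projection over the torus -/
def pb (z : Tor) : Matrix (Fin 2) (Fin 2) ℂ := prR (rp z.1) (rp z.2)

theorem pb_coe (x y : ℝ) : pb ((x : UnitAddCircle), (y : UnitAddCircle)) = prR x y :=
  descend prR_add_x prR_add_y x y

theorem pb_continuous : Continuous pb := by
  rw [isOpenQuotientMap_coe2.isQuotientMap.continuous_iff]
  have : pb ∘ (Prod.map (fun x : ℝ => (x : UnitAddCircle)) (fun x : ℝ => (x : UnitAddCircle))) =
      fun q : ℝ × ℝ => prR q.1 q.2 := by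
    funext q
    exact pb_coe q.1 q.2
  rw [this]
  exact prR_continuous

theorem frN_eq (x y : ℝ) : (∑ a, (starRingEnd ℂ) (frU x y a) * frU x y a) = (frN x y : ℂ) := by
  unfold frN
  push_cast
  apply Finset.sum_congr rfl
  intro a _
  rw [mul_comm, Complex.mul_conj]

theorem pb_mul_self (z : Tor) : pb z * pb z = pb z := by
  funext a b
  rw [Matrix.mul_apply]
  unfold pb prR
  set x := rp z.1
  set y := rp z.2
  have h := frN_eq x y
  have hN : (frN x y : ℂ) ≠ 0 := by exact_mod_cast (frN_pos x y).ne'
  have : ∀ c, frU x y a * (starRingEnd ℂ) (frU x y c) / (frN x y : ℂ) *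
      (frU x y c * (starRingEnd ℂ) (frU x y b) / (frN x y : ℂ)) =
      ((starRingEnd ℂ) (frU x y c) * frU x y c) *
      (frU x y a * (starRingEnd ℂ) (frU x y b) / ((frN x y : ℂ) * (frN x y : ℂ))) := by
    intro c
    field_simp
  simp only [this]
  rw [← Finset.sum_mul, h]
  field_simp

theorem pb_conjTranspose (z : Tor) : (pb z).conjTranspose = pb z := by
  funext a b
  rw [Matrix.conjTranspose_apply]
  unfold pb prR
  simp only [star_div₀, star_mul', Complex.star_def, Complex.conj_ofReal, Complex.conj_conj]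
  rw [mul_comm]

theorem pb_trace (z : Tor) : (pb z).trace = 1 := by
  set x := rp z.1 with hx
  set y := rp z.2 with hy
  have hN : (frN x y : ℂ) ≠ 0 := by exact_mod_cast (frN_pos x y).ne'
  change ∑ a, frU x y a * (starRingEnd ℂ) (frU x y a) / (frN x y : ℂ) = 1
  rw [← Finset.sum_div]
  have h := frN_eq x y
  simp only [mul_comm (frU x y _)]
  rw [h, div_self hN]

/-- kernel of the projection in terms of the frame -/
theorem pb_mulVec_eq_zero (x y : ℝ) (v : Fin 2 → ℂ)
    (h : ∑ a, (starRingEnd ℂ) (frU x y a) * v a = 0) :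
    (pb ((x : UnitAddCircle), (y : UnitAddCircle))).mulVec v = 0 := by
  rw [pb_coe]
  funext a
  unfold Matrix.mulVec dotProduct prR
  have : ∀ b, frU x y a * (starRingEnd ℂ) (frU x y b) / (frN x y : ℂ) * v b =
      (frU x y a / (frN x y : ℂ)) * ((starRingEnd ℂ) (frU x y b) * v b) := by
    intro b; ring
  simp only [this]
  rw [← Finset.mul_sum, h]
  simp

end

end Vale.Agent.P093
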