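import Mathlib.Topology.Homeomorph.Lemmas
import Mathlib.Topology.Instances.ENNReal.Lemmas

/-!
Frozen skew shifts: the fibre over `ω` consists of the sequences `x : ℤ → K` whose coordinate
`x i` is prescribed (equal to `c (g^i ω)`) whenever `g^i ω` lies in the open set `O`, and is
arbitrary otherwise.
-/

open Set Filter

namespace Vale.Agent.P093

noncomputable section

variable {K Ω : Type*} [TopologicalSpace K] [TopologicalSpace Ω]

/-- the underlying set of the frozen skew shift -/
def frozenSet (g : Ω ≃ₜ Ω) (O : Set Ω) (c : Ω → K) : Set ((ℤ → K) × Ω) :=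
  {p | ∀ i : ℤ, (g ^ i) p.2 ∈ O → p.1 i = c ((g ^ i) p.2)}

/-- the shift on the ambient product -/
def ambientShift (K : Type*) [TopologicalSpace K] (g : Ω ≃ₜ Ω) :
    (ℤ → K) × Ω ≃ₜ (ℤ → K) × Ω where
  toFun p := (fun i => p.1 (i + 1), g p.2)
  invFun p := (fun i => p.1 (i - 1), g.symm p.2)
  left_inv p := by simp
  right_inv p := by simp
  continuous_toFun := by
    apply Continuous.prodMk
    · apply continuous_pi
      intro i
      exact (continuous_apply (i + 1)).comp continuous_fst
    · exact g.continuous.comp continuous_snd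
  continuous_invFun := by
    apply Continuous.prodMk
    · apply continuous_pi
      intro i
      exact (continuous_apply (i - 1)).comp continuous_fst
    · exact g.symm.continuous.comp continuous_snd

theorem ambientShift_mem (g : Ω ≃ₜ Ω) (O : Set Ω) (c : Ω → K) (p : (ℤ → K) × Ω) :
    p ∈ frozenSet g O c ↔ ambientShift K g p ∈ frozenSet g O c := by
  have key : ∀ (i : ℤ) (w : Ω), (g ^ i) (g w) = (g ^ (i + 1)) w := by
    intro i w
    rw [zpow_add_one]
    rfl
  constructor
  · intro h i hi
    change (g ^ i) (g p.2) ∈ O at hi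
    change p.1 (i + 1) = c ((g ^ i) (g p.2))
    rw [key] at hi ⊢
    exact h (i + 1) hi
  · intro h i hi
    have h1 := h (i - 1)
    change (g ^ (i - 1)) (g p.2) ∈ O → p.1 (i - 1 + 1) = c ((g ^ (i - 1)) (g p.2)) at h1
    rw [key, sub_add_cancel] at h1
    exact h1 hi

/-- the frozen skew shift: the shift restricted to `frozenSet` -/
def frozenShift (g : Ω ≃ₜ Ω) (O : Set Ω) (c : Ω → K) : frozenSet g O c ≃ₜ frozenSet g O c :=
  (ambientShift K g).subtype (ambientShift_mem g O c)

end

end Vale.Agent.P093
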