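import Vale.Agent.P093.GSpan
import Vale.Agent.P093.TR

/-!
For a free homeomorphism, a C*-algebra generated by a faithful covariant pair maps onto the
concrete crossed product.
-/

open Filter Topology Set
open scoped ComplexOrder

set_option linter.unusedSectionVars false

namespace Vale.Agent.P093

section GCov

variable {X : Type*} [TopologicalSpace X] [CompactSpace X]

/-- operators on the regular representation space -/
abbrev OpX (X : Type*) := Ell2 X →L[ℂ] Ell2 X

/-- multiplication operators as a star homomorphism -/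
noncomputable def multHom (h : X ≃ₜ X) : C(X, ℂ) →⋆ₐ[ℂ] OpX X where
  toFun := multOp h
  map_one' := congrArg toOp (map_one (piHom h))
  map_mul' f g := congrArg toOp (map_mul (piHom h) f g)
  map_zero' := congrArg toOp (map_zero (piHom h))
  map_add' f g := congrArg toOp (map_add (piHom h) f g)
  commutes' r := by
    have := congrArg toOp ((piHom h).commutes' r)
    exact this
  map_star' f := congrArg toOp (map_star (piHom h) f)

theorem multHom_apply (h : X ≃ₜ X) (f : C(X, ℂ)) : multHom h f = multOp h f := rfl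

theorem shift_star_mul : star (shiftOp X) * shiftOp X = 1 :=
  congrArg toOp (star_u_mul_u (Homeomorph.refl X))

theorem shift_mul_star : shiftOp X * star (shiftOp X) = 1 :=
  congrArg toOp (u_mul_star_u (Homeomorph.refl X))

theorem star_shift_dvec (j : ℤ) (x : X) : star (shiftOp X) (dvec j x) = (dvec (j - 1) x : Ell2 X) := by
  have h1 : shiftOp X (dvec (j - 1) x) = (dvec j x : Ell2 X) := by
    rw [shiftOp_dvec, sub_add_cancel]
  rw [← h1]
  change (star (shiftOp X) * shiftOp X) (dvec (j - 1) x) = _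
  rw [shift_star_mul]
  rfl

variable {A : Type*} [CStarAlgebra A]

/-- the unit of the product algebra given by a unitary and the shift -/
noncomputable def pairUnit (X : Type*) [TopologicalSpace X] [CompactSpace X] {u : A}
    (hu1 : star u * u = 1) (hu2 : u * star u = 1) : (A × OpX X)ˣ where
  val := (u, shiftOp X)
  inv := (star u, star (shiftOp X))
  val_inv := Prod.ext hu2 shift_mul_star
  inv_val := Prod.ext hu1 shift_star_mul

theorem pairUnit_zpow_dvec {u : A} (hu1 : star u * u = 1) (hu2 : u * star u = 1) (k j : ℤ) (x : X) :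
    ((pairUnit X hu1 hu2 ^ k : (A × OpX X)ˣ) : A × OpX X).2 (dvec j x) =
      (dvec (j + k) x : Ell2 X) := by
  induction k using Int.induction_on generalizing j with
  | zero => simp
  | succ k ih =>
    rw [zpow_add_one, Units.val_mul]
    change ((pairUnit X hu1 hu2 ^ (k : ℤ) : (A × OpX X)ˣ) : A × OpX X).2
      (shiftOp X (dvec j x)) = _
    rw [shiftOp_dvec, ih]
    congr 1
    ring
  | pred k ih =>
    rw [zpow_sub_one, Units.val_mul]
    change ((pairUnit X hu1 hu2 ^ (-(k : ℤ)) : (A × OpX X)ˣ) : A × OpX X).2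
      (star (shiftOp X) (dvec j x)) = _
    rw [star_shift_dvec, ih]
    congr 1
    ring

/-- expectation property -/
def EProp (h : X ≃ₜ X) (π : C(X, ℂ) →⋆ₐ[ℂ] A) (b : A × OpX X) : Prop :=
  ∃ (R : ℕ) (F : C(X, ℂ)), (∀ x, (b.2 (dvec 0 x)) (0, x) = F x) ∧
    ∀ g : C(X, ℂ), (∀ k : ℤ, k ≠ 0 → k.natAbs ≤ R → g * powComp h k g = 0) →
      π g * b.1 * π g = π (g * F * g)

variable {h : X ≃ₜ X} {π : C(X, ℂ) →⋆ₐ[ℂ] A} {u : A}

theorem eProp_zero : EProp h π 0 := by
  refine ⟨0, 0, fun x => rfl, fun g _ => ?_⟩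
  simp

theorem eProp_add {b c : A × OpX X} (hb : EProp h π b) (hc : EProp h π c) :
    EProp h π (b + c) := by
  obtain ⟨R, F, hF, hR⟩ := hb
  obtain ⟨R', F', hF', hR'⟩ := hc
  refine ⟨max R R', F + F', fun x => ?_, fun g hg => ?_⟩
  · change (b.2 (dvec 0 x) + c.2 (dvec 0 x)) (0, x) = F x + F' x
    rw [lp.coeFn_add, Pi.add_apply, hF, hF']
  · rw [Prod.fst_add, mul_add, add_mul, hR g (fun k hk hkR => hg k hk (hkR.trans (le_max_left _ _))),
      hR' g (fun k hk hkR => hg k hk (hkR.trans (le_max_right _ _))), ← map_add]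
    congr 1
    ring

theorem eProp_smul (c : ℂ) {b : A × OpX X} (hb : EProp h π b) : EProp h π (c • b) := by
  obtain ⟨R, F, hF, hR⟩ := hb
  refine ⟨R, c • F, fun x => ?_, fun g hg => ?_⟩
  · change (c • b.2 (dvec 0 x)) (0, x) = c • F x
    rw [lp.coeFn_smul, Pi.smul_apply, hF]
  · rw [Prod.smul_fst, mul_smul_comm, smul_mul_assoc, hR g hg, ← map_smul]
    congr 1
    rw [mul_smul_comm, smul_mul_assoc]

/-- covariance of the pair -/
theorem pair_cov (hu1 : star u * u = 1) (hu2 : u * star u = 1)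
    (hcov : ∀ f : C(X, ℂ), u * π f * star u = π (f.comp (h.symm : C(X, X)))) (f : C(X, ℂ)) :
    ((pairUnit X hu1 hu2 : (A × OpX X)ˣ) : A × OpX X) * (π.prod (multHom h)) f =
      (π.prod (multHom h)) (powComp h (-1) f) * ((pairUnit X hu1 hu2 : (A × OpX X)ˣ) : A × OpX X) := by
  have h0 : powComp h (-1) f = f.comp (h.symm : C(X, X)) := by
    ext x
    rw [powComp_apply]
    rfl
  refine Prod.ext ?_ ?_
  · change u * π f = π (powComp h (-1) f) * u
    rw [h0, ← hcov, mul_assoc _ (star u), hu1, mul_one]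
  · change shiftOp X * multOp h f = multOp h (powComp h (-1) f) * shiftOp X
    have h1 := congrArg toOp (u_pi h (powComp h (-1) f))
    have h2 : (powComp h (-1) f).comp (h : C(X, X)) = f := by
      rw [h0]
      ext x
      simp
    rw [h2] at h1
    exact h1

theorem eProp_mon (hu1 : star u * u = 1) (hu2 : u * star u = 1)
    (hcov : ∀ f : C(X, ℂ), u * π f * star u = π (f.comp (h.symm : C(X, X)))) (f : C(X, ℂ)) (k : ℤ) :
    EProp h π ((π.prod (multHom h)) f * ((pairUnit X hu1 hu2 ^ k : (A × OpX X)ˣ) : A × OpX X)) := by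
  have hval : ∀ x, (((π.prod (multHom h)) f *
      ((pairUnit X hu1 hu2 ^ k : (A × OpX X)ˣ) : A × OpX X)).2 (dvec 0 x)) (0, x) =
      f ((h ^ k) x) * (if 0 = k then 1 else 0) := by
    intro x
    change (multOp h f (((pairUnit X hu1 hu2 ^ k : (A × OpX X)ˣ) : A × OpX X).2 (dvec 0 x))) (0, x) = _
    rw [pairUnit_zpow_dvec, zero_add, multOp_dvec, lp.coeFn_smul, Pi.smul_apply, dvec_apply,
      smul_eq_mul]
    simp
  by_cases hk : k = 0
  · subst hk
    refine ⟨0, f, fun x => ?_, fun g hg => ?_⟩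
    · rw [hval]
      simp
    · rw [zpow_zero, Units.val_one, mul_one]
      change π g * π f * π g = _
      rw [← map_mul, ← map_mul]
  · refine ⟨k.natAbs, 0, fun x => ?_, fun g hg => ?_⟩
    · rw [hval, if_neg (fun h0 => hk h0.symm), mul_zero]
      rfl
    · have h1 := congrArg Prod.fst (cov_zpow (pair_cov hu1 hu2 hcov) k g)
      have h2 : ((pairUnit X hu1 hu2 ^ k : (A × OpX X)ˣ) : A × OpX X).1 * π g =
        π (powComp h (-k) g) * ((pairUnit X hu1 hu2 ^ k : (A × OpX X)ˣ) : A × OpX X).1 := h1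
      change π g * (π f * ((pairUnit X hu1 hu2 ^ k : (A × OpX X)ˣ) : A × OpX X).1) * π g = _
      rw [mul_assoc, mul_assoc, h2, ← mul_assoc, ← mul_assoc, ← map_mul, ← map_mul,
        mul_comm g f, mul_assoc f g, hg (-k) (by omega) (by omega)]
      simp

theorem eProp_monSpan (hu1 : star u * u = 1) (hu2 : u * star u = 1)
    (hcov : ∀ f : C(X, ℂ), u * π f * star u = π (f.comp (h.symm : C(X, X)))) {b : A × OpX X}
    (hb : b ∈ monSpan (π.prod (multHom h)) (pairUnit X hu1 hu2)) : EProp h π b := by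
  unfold monSpan at hb
  induction hb using Submodule.span_induction with
  | mem x hx =>
    obtain ⟨f, k, rfl⟩ := hx
    exact eProp_mon hu1 hu2 hcov f k
  | zero => exact eProp_zero
  | add x y _ _ hx hy => exact eProp_add hx hy
  | smul c x _ hx => exact eProp_smul c hx

/-- the dense algebra of pairs -/
noncomputable def pairAlg (h : X ≃ₜ X) (π : C(X, ℂ) →⋆ₐ[ℂ] A) (u : A) :
    StarSubalgebra ℂ (A × OpX X) :=
  StarAlgebra.adjoin ℂ (Set.range (π.prod (multHom h)) ∪ {(u, shiftOp X)})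

theorem eProp_of_mem (hu1 : star u * u = 1) (hu2 : u * star u = 1)
    (hcov : ∀ f : C(X, ℂ), u * π f * star u = π (f.comp (h.symm : C(X, X)))) {b : A × OpX X}
    (hb : b ∈ pairAlg h π u) : EProp h π b :=
  eProp_monSpan hu1 hu2 hcov (mem_monSpan (U := pairUnit X hu1 hu2) (pair_cov hu1 hu2 hcov) rfl hb)

variable [T2Space X]

/-- bump functions -/
theorem exists_bump_free (hfree : ∀ (k : ℤ) (x : X), k ≠ 0 → (h ^ k) x ≠ x) (R : ℕ) (x : X) :
    ∃ g : C(X, ℂ), g x = 1 ∧ (∀ y, ‖g y‖ ≤ 1) ∧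
      ∀ k : ℤ, k ≠ 0 → k.natAbs ≤ R → g * powComp h k g = 0 := by
  have hV : ∀ k : ℤ, ∃ V : Set X, IsOpen V ∧ x ∈ V ∧ (k ≠ 0 → ∀ y ∈ V, (h ^ k) y ∉ V) := by
    intro k
    by_cases hk : k = 0
    · exact ⟨univ, isOpen_univ, mem_univ _, fun h0 => absurd hk h0⟩
    · obtain ⟨U₁, U₂, hU₁, hU₂, hx1, hx2, hd⟩ := t2_separation (hfree k x hk)
      refine ⟨U₂ ∩ (h ^ k) ⁻¹' U₁, hU₂.inter (hU₁.preimage (h ^ k).continuous), ⟨hx2, hx1⟩,
        fun _ y hy hy' => ?_⟩
      exact Set.disjoint_left.1 hd hy.2 hy'.1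
  choose V hVo hxV hVd using hV
  set W : Set X := ⋂ k ∈ Finset.Icc (-(R : ℤ)) R, V k with hW
  have hWo : IsOpen W := isOpen_biInter_finset fun k _ => hVo k
  have hxW : x ∈ W := mem_iInter₂.2 fun k _ => hxV k
  obtain ⟨f, hf0, hf1, hf01⟩ := exists_continuous_zero_one_of_isClosed (X := X)
    (s := Wᶜ) (t := {x}) hWo.isClosed_compl isClosed_singleton (by
      rw [Set.disjoint_singleton_right]
      exact fun hx => hx hxW)
  refine ⟨⟨fun y => (f y : ℂ), by fun_prop⟩, ?_, fun y => ?_, fun k hk hkR => ?_⟩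
  · change (f x : ℂ) = 1
    rw [hf1 rfl]
    simp
  · change ‖(f y : ℂ)‖ ≤ 1
    rw [Complex.norm_real, Real.norm_eq_abs, abs_of_nonneg (hf01 y).1]
    exact (hf01 y).2
  · ext y
    change (f y : ℂ) * (f ((h ^ k) y) : ℂ) = 0
    by_cases hy : y ∈ W
    · have hy' : (h ^ k) y ∉ W := by
        intro hy'
        have hkm : k ∈ Finset.Icc (-(R : ℤ)) R := by
          rw [Finset.mem_Icc]
          omega
        exact hVd k hk y (mem_iInter₂.1 hy k hkm) (mem_iInter₂.1 hy' k hkm)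
      rw [hf0 hy']
      simp
    · rw [hf0 hy]
      simp

/-- diagonal entries are bounded by the norm of the first component -/
theorem diag_le_of_mem (hfree : ∀ (k : ℤ) (x : X), k ≠ 0 → (h ^ k) x ≠ x)
    (hπ : Function.Injective π) (hu1 : star u * u = 1) (hu2 : u * star u = 1)
    (hcov : ∀ f : C(X, ℂ), u * π f * star u = π (f.comp (h.symm : C(X, X)))) {b : A × OpX X}
    (hb : b ∈ pairAlg h π u) (x : X) : ‖(b.2 (dvec 0 x)) (0, x)‖ ≤ ‖b.1‖ := by
  obtain ⟨R, F, hF, hR⟩ := eProp_of_mem hu1 hu2 hcov hb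
  obtain ⟨g, hgx, hg1, hg⟩ := exists_bump_free hfree R x
  have h1 := hR g hg
  have hiso : ∀ f : C(X, ℂ), ‖π f‖ = ‖f‖ := fun f => NonUnitalStarAlgHom.norm_map π hπ f
  have hgn : ‖g‖ ≤ 1 := (ContinuousMap.norm_le _ zero_le_one).2 hg1
  rw [hF]
  calc ‖F x‖ = ‖(g * F * g) x‖ := by
        rw [ContinuousMap.mul_apply, ContinuousMap.mul_apply, hgx, one_mul, mul_one]
    _ ≤ ‖g * F * g‖ := ContinuousMap.norm_coe_le_norm _ x
    _ = ‖π (g * F * g)‖ := (hiso _).symm
    _ = ‖π g * b.1 * π g‖ := by rw [h1]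
    _ ≤ ‖π g * b.1‖ * ‖π g‖ := norm_mul_le _ _
    _ ≤ (‖π g‖ * ‖b.1‖) * ‖π g‖ := by gcongr; exact norm_mul_le _ _
    _ ≤ (1 * ‖b.1‖) * 1 := by
        rw [hiso]
        gcongr
    _ = ‖b.1‖ := by ring

/-- the closed algebra of pairs -/
noncomputable def pairAlgC (h : X ≃ₜ X) (π : C(X, ℂ) →⋆ₐ[ℂ] A) (u : A) :
    StarSubalgebra ℂ (A × OpX X) := (pairAlg h π u).topologicalClosure

theorem diag_le_of_mem_closure (hfree : ∀ (k : ℤ) (x : X), k ≠ 0 → (h ^ k) x ≠ x)
    (hπ : Function.Injective π) (hu1 : star u * u = 1) (hu2 : u * star u = 1)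
    (hcov : ∀ f : C(X, ℂ), u * π f * star u = π (f.comp (h.symm : C(X, X)))) {b : A × OpX X}
    (hb : b ∈ pairAlgC h π u) (x : X) : ‖(b.2 (dvec 0 x)) (0, x)‖ ≤ ‖b.1‖ := by
  have hcl : IsClosed {b : A × OpX X | ‖(b.2 (dvec 0 x)) (0, x)‖ ≤ ‖b.1‖} := by
    refine isClosed_le ?_ (by fun_prop)
    have h1 : ∀ b : A × OpX X, (b.2 (dvec 0 x)) (0, x) =
        inner ℂ (dvec 0 x : Ell2 X) (b.2 (dvec 0 x)) := fun b => (inner_dvec_left _ _ _).symm
    simp_rw [h1]
    fun_prop
  have hsub : ((pairAlg h π u : StarSubalgebra ℂ (A × OpX X)) : Set (A × OpX X)) ⊆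
      {b : A × OpX X | ‖(b.2 (dvec 0 x)) (0, x)‖ ≤ ‖b.1‖} :=
    fun b hb => diag_le_of_mem hfree hπ hu1 hu2 hcov hb x
  have hb' : b ∈ closure ((pairAlg h π u : StarSubalgebra ℂ (A × OpX X)) : Set (A × OpX X)) := by
    have h2 : b ∈ (pairAlgC h π u : Set (A × OpX X)) := hb
    unfold pairAlgC at h2
    rwa [StarSubalgebra.topologicalClosure_coe] at h2
  exact closure_minimal hsub hcl hb'

theorem pair_mem_closure (f : C(X, ℂ)) : (π f, multOp h f) ∈ pairAlgC h π u :=
  StarSubalgebra.le_topologicalClosure _ (StarAlgebra.subset_adjoin ℂ _ (Or.inl ⟨f, rfl⟩))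

theorem pair_u_mem_closure : (u, shiftOp X) ∈ pairAlgC h π u :=
  StarSubalgebra.le_topologicalClosure _ (StarAlgebra.subset_adjoin ℂ _ (Or.inr rfl))

/-- powers of the shift, together with their partner -/
theorem exists_shift_partner (j : ℤ) : ∃ b ∈ pairAlgC h π u, ∀ x : X,
    b.2 (dvec 0 x) = (dvec j x : Ell2 X) := by
  induction j using Int.induction_on with
  | zero => exact ⟨1, one_mem _, fun x => rfl⟩
  | succ k ih =>
    obtain ⟨b, hb, hbx⟩ := ih
    refine ⟨(u, shiftOp X) * b, mul_mem pair_u_mem_closure hb, fun x => ?_⟩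
    change shiftOp X (b.2 (dvec 0 x)) = _
    rw [hbx, shiftOp_dvec]
  | pred k ih =>
    obtain ⟨b, hb, hbx⟩ := ih
    refine ⟨star (u, shiftOp X) * b, mul_mem (star_mem pair_u_mem_closure) hb, fun x => ?_⟩
    change star (shiftOp X) (b.2 (dvec 0 x)) = _
    rw [hbx, star_shift_dvec]

/-- the second component vanishes when the first one does -/
theorem snd_eq_zero (hfree : ∀ (k : ℤ) (x : X), k ≠ 0 → (h ^ k) x ≠ x)
    (hπ : Function.Injective π) (hu1 : star u * u = 1) (hu2 : u * star u = 1)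
    (hcov : ∀ f : C(X, ℂ), u * π f * star u = π (f.comp (h.symm : C(X, X)))) {b : A × OpX X}
    (hb : b ∈ pairAlgC h π u) (hb0 : b.1 = 0) : b.2 = 0 := by
  have h1 : ∀ (j : ℤ) (x : X), b.2 (dvec j x) = 0 := by
    intro j x
    obtain ⟨c, hc, hcx⟩ := exists_shift_partner (h := h) (π := π) (u := u) j
    have h2 := diag_le_of_mem_closure hfree hπ hu1 hu2 hcov
      (mul_mem (star_mem (mul_mem hb hc)) (mul_mem hb hc)) x
    have h3 : (star (b * c) * (b * c)).1 = 0 := by
      change star (b.1 * c.1) * (b.1 * c.1) = 0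
      rw [hb0, zero_mul, mul_zero]
    rw [h3, norm_zero] at h2
    have h4 : ((star (b * c) * (b * c)).2 (dvec 0 x)) (0, x) =
        inner ℂ (b.2 (dvec j x)) (b.2 (dvec j x)) := by
      rw [← inner_dvec_left]
      change inner ℂ (dvec 0 x : Ell2 X) ((star (b.2 * c.2)) ((b.2 * c.2) (dvec 0 x))) = _
      rw [ContinuousLinearMap.star_eq_adjoint, ContinuousLinearMap.adjoint_inner_right]
      change inner ℂ (b.2 (c.2 (dvec 0 x))) (b.2 (c.2 (dvec 0 x))) = _
      rw [hcx]
    rw [h4] at h2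
    exact inner_self_eq_zero.1 (norm_le_zero_iff.1 h2)
  have h5 : star b.2 = 0 := by
    apply ell2_ext
    rintro v ⟨j, x⟩
    rw [← inner_dvec_left, ContinuousLinearMap.star_eq_adjoint,
      ContinuousLinearMap.adjoint_inner_right, h1, inner_zero_left]
    rfl
  rw [← star_star b.2, h5, star_zero]

end GCov

end Vale.Agent.P093
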