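import Mathlib
import Vale.Agent.P093.CrossedDef

/-!
The star algebra generated by a covariant pair is spanned by the monomials `π(f) u^k`.
-/

open Topology

namespace Vale.Agent.P093

section Cov

variable {X : Type*} [TopologicalSpace X] [CompactSpace X] {B : Type*} [Ring B] [StarRing B]
  [Algebra ℂ B] [StarModule ℂ B]

/-- composition of a function with a power of `h` -/
noncomputable def powComp (h : X ≃ₜ X) (k : ℤ) (f : C(X, ℂ)) : C(X, ℂ) :=
  f.comp ((h ^ k : X ≃ₜ X) : C(X, X))

omit [CompactSpace X] in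
theorem powComp_apply (h : X ≃ₜ X) (k : ℤ) (f : C(X, ℂ)) (x : X) :
    powComp h k f x = f ((h ^ k) x) := rfl

variable {h : X ≃ₜ X} {π : C(X, ℂ) →⋆ₐ[ℂ] B} {U : Bˣ}

theorem cov_zpow (hcov : ∀ f, (U : B) * π f = π (powComp h (-1) f) * U) (k : ℤ) (f : C(X, ℂ)) :
    ((U ^ k : Bˣ) : B) * π f = π (powComp h (-k) f) * ((U ^ k : Bˣ) : B) := by
  have hcov' : ∀ f, ((U⁻¹ : Bˣ) : B) * π f = π (powComp h 1 f) * ((U⁻¹ : Bˣ) : B) := by
    intro f
    have h1 := hcov (powComp h 1 f)
    have h2 : powComp h (-1) (powComp h 1 f) = f := by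
      ext x
      rw [powComp_apply, powComp_apply]
      congr 1
      change ((h ^ (1 : ℤ)) * (h ^ (-1 : ℤ))) x = x
      rw [← zpow_add]
      simp
    rw [h2] at h1
    calc ((U⁻¹ : Bˣ) : B) * π f = ((U⁻¹ : Bˣ) : B) * (π f * U) * ((U⁻¹ : Bˣ) : B) := by
          rw [mul_assoc, mul_assoc, Units.mul_inv, mul_one]
      _ = ((U⁻¹ : Bˣ) : B) * (U * π (powComp h 1 f)) * ((U⁻¹ : Bˣ) : B) := by rw [h1]
      _ = _ := by rw [← mul_assoc, Units.inv_mul, one_mul]
  induction k using Int.induction_on generalizing f with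
  | zero =>
    simp only [zpow_zero, Units.val_one, one_mul, mul_one, neg_zero]
    congr 1
  | succ k ih =>
    rw [zpow_add_one, Units.val_mul, mul_assoc, hcov, ← mul_assoc, ih, mul_assoc]
    congr 2
    ext x
    rw [powComp_apply, powComp_apply, powComp_apply]
    congr 1
    change ((h ^ (-1 : ℤ)) * (h ^ (-(k : ℤ)))) x = _
    rw [← zpow_add]
    congr 2
    ring
  | pred k ih =>
    rw [zpow_sub_one, Units.val_mul, mul_assoc, hcov', ← mul_assoc, ih, mul_assoc]
    congr 2
    ext x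
    rw [powComp_apply, powComp_apply, powComp_apply]
    congr 1
    change ((h ^ (1 : ℤ)) * (h ^ (-(-(k : ℤ))))) x = _
    rw [← zpow_add]
    congr 2
    ring

/-- the span of the monomials -/
def monSpan (π : C(X, ℂ) →⋆ₐ[ℂ] B) (U : Bˣ) : Submodule ℂ B :=
  Submodule.span ℂ {b | ∃ (f : C(X, ℂ)) (k : ℤ), b = π f * ((U ^ k : Bˣ) : B)}

omit [StarModule ℂ B] in
theorem mon_mem (f : C(X, ℂ)) (k : ℤ) : π f * ((U ^ k : Bˣ) : B) ∈ monSpan π U :=
  Submodule.subset_span ⟨f, k, rfl⟩

theorem mon_mul (hcov : ∀ f, (U : B) * π f = π (powComp h (-1) f) * U) (f g : C(X, ℂ)) (k l : ℤ) :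
    (π f * ((U ^ k : Bˣ) : B)) * (π g * ((U ^ l : Bˣ) : B)) =
      π (f * powComp h (-k) g) * ((U ^ (k + l) : Bˣ) : B) := by
  calc (π f * ((U ^ k : Bˣ) : B)) * (π g * ((U ^ l : Bˣ) : B))
      = π f * (((U ^ k : Bˣ) : B) * π g) * ((U ^ l : Bˣ) : B) := by simp only [mul_assoc]
    _ = π f * (π (powComp h (-k) g) * ((U ^ k : Bˣ) : B)) * ((U ^ l : Bˣ) : B) := by
        rw [cov_zpow hcov]
    _ = _ := by
        rw [map_mul, zpow_add, Units.val_mul]
        simp only [mul_assoc]

theorem star_units_zpow (hU : star (U : B) = ((U⁻¹ : Bˣ) : B)) (k : ℤ) :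
    star ((U ^ k : Bˣ) : B) = ((U ^ (-k) : Bˣ) : B) := by
  have h1 : star U = U⁻¹ := Units.ext hU
  have h2 : star ((U ^ k : Bˣ) : B) = ((star (U ^ k) : Bˣ) : B) := rfl
  rw [h2, star_zpow, h1, inv_zpow, zpow_neg]

theorem mon_star (hcov : ∀ f, (U : B) * π f = π (powComp h (-1) f) * U)
    (hU : star (U : B) = ((U⁻¹ : Bˣ) : B)) (f : C(X, ℂ)) (k : ℤ) :
    star (π f * ((U ^ k : Bˣ) : B)) = π (powComp h k (star f)) * ((U ^ (-k) : Bˣ) : B) := by
  rw [star_mul, star_units_zpow hU, ← map_star, cov_zpow hcov, neg_neg]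

theorem monSpan_mul (hcov : ∀ f, (U : B) * π f = π (powComp h (-1) f) * U) {x y : B}
    (hx : x ∈ monSpan π U) (hy : y ∈ monSpan π U) : x * y ∈ monSpan π U := by
  unfold monSpan at hx
  induction hx using Submodule.span_induction with
  | mem x hx =>
    obtain ⟨f, k, rfl⟩ := hx
    unfold monSpan at hy
    induction hy using Submodule.span_induction with
    | mem y hy =>
      obtain ⟨g, l, rfl⟩ := hy
      rw [mon_mul hcov]
      exact mon_mem _ _
    | zero => rw [mul_zero]; exact Submodule.zero_mem _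
    | add y z _ _ hy hz => rw [mul_add]; exact Submodule.add_mem _ hy hz
    | smul a y _ hy => rw [mul_smul_comm]; exact Submodule.smul_mem _ _ hy
  | zero => rw [zero_mul]; exact Submodule.zero_mem _
  | add x z _ _ hx hz => rw [add_mul]; exact Submodule.add_mem _ hx hz
  | smul a x _ hx => rw [smul_mul_assoc]; exact Submodule.smul_mem _ _ hx

theorem monSpan_star (hcov : ∀ f, (U : B) * π f = π (powComp h (-1) f) * U)
    (hU : star (U : B) = ((U⁻¹ : Bˣ) : B)) {x : B} (hx : x ∈ monSpan π U) :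
    star x ∈ monSpan π U := by
  unfold monSpan at hx
  induction hx using Submodule.span_induction with
  | mem x hx =>
    obtain ⟨f, k, rfl⟩ := hx
    rw [mon_star hcov hU]
    exact mon_mem _ _
  | zero => rw [star_zero]; exact Submodule.zero_mem _
  | add x z _ _ hx hz => rw [star_add]; exact Submodule.add_mem _ hx hz
  | smul a x _ hx => rw [star_smul]; exact Submodule.smul_mem _ _ hx

/-- **The generated star algebra is spanned by monomials.** -/
theorem mem_monSpan (hcov : ∀ f, (U : B) * π f = π (powComp h (-1) f) * U)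
    (hU : star (U : B) = ((U⁻¹ : Bˣ) : B)) {b : B}
    (hb : b ∈ StarAlgebra.adjoin ℂ (Set.range π ∪ {(U : B)})) : b ∈ monSpan π U := by
  induction hb using StarAlgebra.adjoin_induction with
  | mem x hx =>
    rcases hx with ⟨f, rfl⟩ | hx
    · have := mon_mem (π := π) (U := U) f 0
      simpa using this
    · rw [Set.mem_singleton_iff] at hx
      subst hx
      have := mon_mem (π := π) (U := U) 1 1
      simpa using this
  | algebraMap r =>
    have := (monSpan π U).smul_mem r (mon_mem (π := π) (U := U) 1 0)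
    rw [Algebra.algebraMap_eq_smul_one]
    simpa using this
  | add x y _ _ hx hy => exact (monSpan π U).add_mem hx hy
  | mul x y _ _ hx hy => exact monSpan_mul hcov hx hy
  | star x _ hx => exact monSpan_star hcov hU hx

end Cov

end Vale.Agent.P093
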