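import Vale.Agent.P093.Defs
open Filter Topology Set
open scoped ENNReal
set_option linter.unusedSectionVars false
namespace Vale.Agent.P093

variable {X : Type*} [TopologicalSpace X] [CompactSpace X] [T2Space X]

theorem zpow_add_apply' (h : X ≃ₜ X) (i j : ℤ) (x : X) : (h ^ (i + j)) x = (h ^ i) ((h ^ j) x) := by
  rw [zpow_add]
  rfl

/-- in an infinite minimal system no point is periodic -/
theorem not_periodic (h : X ≃ₜ X) (hmin : IsMinimalHomeo h) [Infinite X] (x : X) {n : ℤ}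
    (hn : 0 < n) : (h ^ n) x ≠ x := by
  intro hx
  have h1 : ∀ k : ℤ, (h ^ (n * k)) x = x := by
    intro k
    induction k using Int.induction_on with
    | zero => simp
    | succ k ih =>
      rw [mul_add, mul_one, zpow_add_apply', hx, ih]
    | pred k ih =>
      have h2 : (h ^ (-n)) x = x := by
        have h3 : (h ^ (-n)) ((h ^ n) x) = x := by
          rw [← zpow_add_apply']; simp
        rwa [hx] at h3
      rw [mul_sub, mul_one, sub_eq_add_neg, zpow_add_apply', h2, ih]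
  have h2 : Set.range (fun k : ℤ => (h ^ k) x) ⊆ (fun k : ℤ => (h ^ k) x) '' Set.Ico 0 n := by
    rintro _ ⟨k, rfl⟩
    refine ⟨k % n, ⟨Int.emod_nonneg _ hn.ne', Int.emod_lt_of_pos _ hn⟩, ?_⟩
    change (h ^ (k % n)) x = (h ^ k) x
    conv_rhs => rw [← Int.emod_add_mul_ediv k n, zpow_add_apply', h1]
  have h3 : (Set.range (fun k : ℤ => (h ^ k) x)).Finite :=
    ((Set.finite_Ico 0 n).image _).subset h2
  have h4 : (Set.univ : Set X).Finite := by
    rw [← (hmin x).closure_eq, h3.isClosed.closure_eq]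
    exact h3
  exact Set.infinite_univ h4

/-- separated cutoff function with bounded backward return times -/
theorem exists_cutoff (h : X ≃ₜ X) (hmin : IsMinimalHomeo h) [Infinite X] (L : ℕ) :
    ∃ (w : C(X, ℝ)) (T : ℕ), (∀ x, 0 ≤ w x) ∧ (∀ x, w x ≤ 1) ∧
      (∀ x (i j : ℤ), i < j → w ((h ^ i) x) ≠ 0 → w ((h ^ j) x) ≠ 0 → (L : ℤ) ≤ j - i) ∧
      ∀ x, ∃ i : ℕ, i < T ∧ w ((h ^ (-(i : ℤ))) x) = 1 := by
  classical
  obtain ⟨x₀⟩ : Nonempty X := inferInstance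
  -- separated neighbourhood
  have hsep : ∃ V : Set X, IsOpen V ∧ x₀ ∈ V ∧ ∀ n : ℤ, 0 < n → n < L → ∀ x ∈ V, (h ^ n) x ∉ V := by
    have h1 : ∀ n : ℤ, 0 < n → ∃ V : Set X, IsOpen V ∧ x₀ ∈ V ∧ ∀ x ∈ V, (h ^ n) x ∉ V := by
      intro n hn
      obtain ⟨U, V, hU, hV, hxU, hxV, hUV⟩ := t2_separation (not_periodic h hmin x₀ hn)
      refine ⟨V ∩ (h ^ n) ⁻¹' U, hV.inter (hU.preimage (h ^ n).continuous), ⟨hxV, hxU⟩, ?_⟩
      rintro x ⟨-, hx⟩ ⟨hx', -⟩
      exact Set.disjoint_left.1 hUV hx hx'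
    choose V hV using h1
    refine ⟨⋂ n ∈ (Finset.Ioo (0 : ℤ) L).attach, V n.1 (Finset.mem_Ioo.1 n.2).1, ?_, ?_, ?_⟩
    · exact isOpen_biInter_finset fun n _ => (hV n.1 _).1
    · simp only [Set.mem_iInter]
      exact fun n _ => (hV n.1 _).2.1
    · intro n hn hnL x hx hx'
      simp only [Set.mem_iInter] at hx hx'
      have hmem : n ∈ Finset.Ioo (0 : ℤ) L := Finset.mem_Ioo.2 ⟨hn, hnL⟩
      exact (hV n hn).2.2 x (hx ⟨n, hmem⟩ (Finset.mem_attach _ _))
        (hx' ⟨n, hmem⟩ (Finset.mem_attach _ _))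
  obtain ⟨V, hVo, hx₀, hV⟩ := hsep
  obtain ⟨W, hW, hWcl, hWV⟩ : ∃ W ∈ 𝓝 x₀, IsClosed W ∧ W ⊆ V :=
    exists_mem_nhds_isClosed_subset (hVo.mem_nhds hx₀)
  obtain ⟨w, hw0, hw1, hw⟩ := exists_continuous_zero_one_of_isClosed (isClosed_compl_iff.2 hVo)
    hWcl (Set.disjoint_left.2 fun x hx hx' => hx (hWV hx'))
  -- bounded return
  have hcov : ∃ T : ℕ, ∀ x, ∃ i : ℤ, |i| ≤ T ∧ (h ^ i) x ∈ W := by
    have h1 : (Set.univ : Set X) ⊆ ⋃ i : ℤ, (h ^ i) ⁻¹' interior W := by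
      intro x _
      obtain ⟨y, hy, hyW⟩ := (hmin x).exists_mem_open isOpen_interior ⟨x₀, mem_interior_iff_mem_nhds.2 hW⟩
      obtain ⟨i, rfl⟩ := hy
      exact Set.mem_iUnion.2 ⟨i, hyW⟩
    obtain ⟨t, ht⟩ := isCompact_univ.elim_finite_subcover _
      (fun i => isOpen_interior.preimage (h ^ i).continuous) h1
    refine ⟨∑ i ∈ t, i.natAbs, fun x => ?_⟩
    have := ht (Set.mem_univ x)
    simp only [Set.mem_iUnion] at this
    obtain ⟨i, hi, hx⟩ := this
    refine ⟨i, ?_, interior_subset hx⟩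
    have := Finset.single_le_sum (f := fun i : ℤ => i.natAbs) (fun _ _ => Nat.zero_le _) hi
    have h5 : (i.natAbs : ℤ) = |i| := Int.natCast_natAbs i
    rw [← h5]
    exact_mod_cast this
  obtain ⟨T, hT⟩ := hcov
  refine ⟨w, 2 * T + 1, fun x => (hw x).1, fun x => (hw x).2, ?_, ?_⟩
  · intro x i j hij hi hj
    by_contra hlt
    have h1 : ∀ y, w y ≠ 0 → y ∈ V := by
      intro y hy
      by_contra hyV
      exact hy (hw0 hyV)
    refine hV (j - i) (by omega) (by omega) _ (h1 _ hi) ?_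
    rw [← zpow_add_apply', sub_add_cancel]
    exact h1 _ hj
  · intro x
    obtain ⟨i, hi, hiW⟩ := hT ((h ^ (-(T : ℤ))) x)
    rw [abs_le] at hi
    refine ⟨((T : ℤ) - i).toNat, by omega, ?_⟩
    have h2 : (-((((T : ℤ) - i).toNat : ℕ) : ℤ)) = i + -(T : ℤ) := by omega
    rw [h2, zpow_add_apply']
    exact hw1 hiW

/-- Lindenstrauss function: a continuous function which increases by one along orbits except
near rare visits to a small set. -/
theorem exists_lind (h : X ≃ₜ X) (hmin : IsMinimalHomeo h) [Infinite X] (L : ℕ) :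
    ∃ (w nn : C(X, ℝ)),
      (∀ x (i j : ℤ), i < j → w ((h ^ i) x) ≠ 0 → w ((h ^ j) x) ≠ 0 → (L : ℤ) ≤ j - i) ∧
      ∀ x, |w (h x)| ≤ 1 / 2 → nn (h x) = nn x + 1 := by
  obtain ⟨w, T, hw0, hw1, hsep, hret⟩ := exists_cutoff h hmin L
  -- sharper cutoff
  let w' : C(X, ℝ) := ⟨fun x => max 0 (2 * w x - 1), by fun_prop⟩
  have hw' : ∀ x, w' x = max 0 (2 * w x - 1) := fun x => rfl
  have hpart : ∀ k : ℕ, Continuous fun x => ∏ i ∈ Finset.range k, (1 - w' ((h ^ (-(i : ℤ))) x)) := by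
    intro k
    refine continuous_finsetProd _ fun i _ => ?_
    have := (h ^ (-(i : ℤ))).continuous
    fun_prop
  let nn : C(X, ℝ) := ⟨fun x => ∑ k ∈ Finset.range (T + 1),
    ∏ i ∈ Finset.range (k + 1), (1 - w' ((h ^ (-(i : ℤ))) x)),
    continuous_finsetSum _ fun k _ => hpart (k + 1)⟩
  refine ⟨w, nn, hsep, fun x hx => ?_⟩
  have hx0 : w' (h x) = 0 := by
    rw [hw', max_eq_left]
    have := (abs_le.1 hx).2
    linarith
  change ∑ k ∈ Finset.range (T + 1),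
    ∏ i ∈ Finset.range (k + 1), (1 - w' ((h ^ (-(i : ℤ))) (h x))) = ∑ k ∈ Finset.range (T + 1),
    ∏ i ∈ Finset.range (k + 1), (1 - w' ((h ^ (-(i : ℤ))) x)) + 1
  have h1 : ∀ k : ℕ, ∏ i ∈ Finset.range (k + 1), (1 - w' ((h ^ (-(i : ℤ))) (h x))) =
      ∏ i ∈ Finset.range k, (1 - w' ((h ^ (-(i : ℤ))) x)) := by
    intro k
    rw [Finset.prod_range_succ']
    have h2 : (1 - w' ((h ^ (-((0 : ℕ) : ℤ))) (h x))) = 1 := by
      have : (h ^ (-((0 : ℕ) : ℤ))) (h x) = h x := by simp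
      rw [this, hx0, sub_zero]
    rw [h2, mul_one]
    refine Finset.prod_congr rfl fun i _ => ?_
    have h3 : (h ^ (-((i + 1 : ℕ) : ℤ))) (h x) = (h ^ (-(i : ℤ))) x := by
      have h4 : h x = (h ^ (1 : ℤ)) x := by rw [zpow_one]
      rw [h4, ← zpow_add_apply']
      congr 2
      push_cast
      ring
    rw [h3]
  simp_rw [h1]
  rw [Finset.sum_range_succ']
  rw [Finset.prod_range_zero]
  congr 1
  rw [Finset.sum_range_succ]
  -- the last term vanishes
  obtain ⟨i, hiT, hi⟩ := hret x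
  have h5 : ∏ i ∈ Finset.range (T + 1), (1 - w' ((h ^ (-(i : ℤ))) x)) = 0 := by
    refine Finset.prod_eq_zero (Finset.mem_range.2 (by omega : i < T + 1)) ?_
    rw [hw', hi]
    norm_num
  rw [h5, add_zero]

end Vale.Agent.P093
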