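import Mathlib
open Filter Topology Set
set_option linter.unusedSectionVars false
namespace Vale.Agent.P093

noncomputable section

/-- distance of `s` to the lattice `n ℤ` -/
def latDist (n : ℕ) (s : ℝ) : ℝ := Metric.infDist s (Set.range fun k : ℤ => (n : ℝ) * k)

theorem latDist_continuous (n : ℕ) : Continuous (latDist n) := Metric.continuous_infDist_pt _

theorem lattice_nonempty (n : ℕ) : (Set.range fun k : ℤ => (n : ℝ) * k).Nonempty := ⟨_, ⟨0, rfl⟩⟩

theorem latDist_lt_iff {n : ℕ} {s r : ℝ} : latDist n s < r ↔ ∃ k : ℤ, |s - n * k| < r := by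
  unfold latDist
  rw [Metric.infDist_lt_iff (lattice_nonempty n)]
  constructor
  · rintro ⟨_, ⟨k, rfl⟩, hk⟩
    exact ⟨k, by rwa [Real.dist_eq] at hk⟩
  · rintro ⟨k, hk⟩
    exact ⟨_, ⟨k, rfl⟩, by rwa [Real.dist_eq]⟩

theorem latDist_le {n : ℕ} {s r : ℝ} (k : ℤ) (hk : |s - n * k| ≤ r) : latDist n s ≤ r := by
  unfold latDist
  refine (Metric.infDist_le_dist_of_mem (Set.mem_range_self k)).trans ?_
  rwa [Real.dist_eq]

theorem latDist_nonneg (n : ℕ) (s : ℝ) : 0 ≤ latDist n s := Metric.infDist_nonneg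

/-- bump function of the arc `[o, o + c]` modulo `n`: equal to one on the arc and supported in the
`δ`-neighbourhood of the arc -/
def arc (n : ℕ) (o c δ s : ℝ) : ℝ := max 0 (min 1 ((c / 2 + δ - latDist n (s - o - c / 2)) / δ))

theorem arc_continuous (n : ℕ) (o c δ : ℝ) : Continuous (arc n o c δ) := by
  unfold arc
  have h1 : Continuous fun s : ℝ => latDist n (s - o - c / 2) :=
    (latDist_continuous n).comp (by fun_prop)
  exact continuous_const.max (continuous_const.min ((continuous_const.sub h1).div_const _))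

theorem arc_nonneg (n : ℕ) (o c δ s : ℝ) : 0 ≤ arc n o c δ s := le_max_left _ _

theorem arc_le_one (n : ℕ) (o c δ s : ℝ) : arc n o c δ s ≤ 1 :=
  max_le zero_le_one (min_le_left _ _)

theorem arc_eq_one {n : ℕ} {o c δ s : ℝ} (hδ : 0 < δ) (k : ℤ) (h1 : o ≤ s - n * k)
    (h2 : s - n * k ≤ o + c) : arc n o c δ s = 1 := by
  have h3 : latDist n (s - o - c / 2) ≤ c / 2 := by
    refine latDist_le k ?_
    rw [abs_le]
    constructor <;> linarith
  have h4 : 1 ≤ (c / 2 + δ - latDist n (s - o - c / 2)) / δ := by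
    rw [le_div_iff₀ hδ]
    linarith
  unfold arc
  rw [min_eq_left h4, max_eq_right zero_le_one]

theorem arc_ne_zero {n : ℕ} {o c δ s : ℝ} (hδ : 0 < δ) (h : arc n o c δ s ≠ 0) :
    ∃ k : ℤ, o - δ < s - n * k ∧ s - n * k < o + c + δ := by
  have h1 : latDist n (s - o - c / 2) < c / 2 + δ := by
    by_contra hle
    rw [not_lt] at hle
    apply h
    have h2 : (c / 2 + δ - latDist n (s - o - c / 2)) / δ ≤ 0 :=
      div_nonpos_of_nonpos_of_nonneg (by linarith) hδ.le
    unfold arc
    exact max_eq_left ((min_le_right _ _).trans h2)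
  obtain ⟨k, hk⟩ := latDist_lt_iff.1 h1
  rw [abs_lt] at hk
  exact ⟨k, by linarith [hk.1], by linarith [hk.2]⟩

/-- the support of a bump is contained in the set where a larger bump is one -/
theorem arc_dominated {n : ℕ} {o c δ s : ℝ} (hδ : 0 < δ) (h : arc n o c δ s ≠ 0) :
    arc n (o - δ) (c + 2 * δ) δ s = 1 := by
  obtain ⟨k, h1, h2⟩ := arc_ne_zero hδ h
  exact arc_eq_one hδ k h1.le (by linarith)

open scoped Classical in
/-- among `n` consecutive phases at least `c` are in an arc of length `c` -/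
theorem arc_count_lower {n c : ℕ} (hc : c ≤ n) (hn : 0 < n) (o s : ℝ) :
    c ≤ (Finset.univ.filter fun i : Fin n => ∃ k : ℤ, o ≤ s + (i : ℕ) - n * k ∧
      s + (i : ℕ) - n * k ≤ o + c).card := by
  have hn' : (0 : ℤ) < n := by exact_mod_cast hn
  let m : ℤ := ⌈o - s⌉
  have hm1 : o ≤ s + m := by linarith [Int.le_ceil (o - s)]
  have hm2 : s + m < o + 1 := by linarith [Int.ceil_lt_add_one (o - s)]
  let f : Fin c → Fin n := fun t => ⟨((m + (t : ℕ)) % n).toNat, by
    have h1 := Int.emod_lt_of_pos (m + (t : ℕ)) hn'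
    have h2 := Int.emod_nonneg (m + (t : ℕ)) hn'.ne'
    omega⟩
  have hf : ∀ t : Fin c, (((f t : Fin n) : ℕ) : ℤ) = (m + (t : ℕ)) % n := fun t => by
    have h2 := Int.emod_nonneg (m + (t : ℕ)) hn'.ne'
    exact Int.toNat_of_nonneg h2
  have hinj : Function.Injective f := by
    intro t t' htt
    have h1 : (m + (t : ℕ)) % n = (m + (t' : ℕ)) % n := by
      rw [← hf, ← hf, htt]
    have h2 : ((t : ℕ) : ℤ) % n = ((t' : ℕ) : ℤ) % n := Int.ModEq.add_left_cancel' m h1
    rw [Int.emod_eq_of_lt (by positivity) (by have := t.2; omega),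
      Int.emod_eq_of_lt (by positivity) (by have := t'.2; omega)] at h2
    exact Fin.ext (by exact_mod_cast h2)
  have h3 : (Finset.univ.image f).card = c := by
    rw [Finset.card_image_of_injective _ hinj, Finset.card_univ, Fintype.card_fin]
  refine h3.symm.le.trans (Finset.card_le_card ?_)
  intro i hi
  rw [Finset.mem_image] at hi
  obtain ⟨t, -, rfl⟩ := hi
  rw [Finset.mem_filter]
  refine ⟨Finset.mem_univ _, -((m + (t : ℕ)) / n), ?_⟩
  have h4 : (((f t : Fin n) : ℕ) : ℝ) = (m : ℝ) + (t : ℕ) - n * ((m + (t : ℕ)) / n : ℤ) := by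
    have h5 : (((f t : Fin n) : ℕ) : ℤ) = m + (t : ℕ) - n * ((m + (t : ℕ)) / n) := by
      rw [hf, Int.emod_def]
    have h6 : ((((f t : Fin n) : ℕ) : ℤ) : ℝ) =
        ((m + (t : ℕ) - n * ((m + (t : ℕ)) / n) : ℤ) : ℝ) := by rw [h5]
    rw [Int.cast_natCast] at h6
    rw [h6]
    push_cast
    ring
  have ht : ((t : ℕ) : ℝ) + 1 ≤ c := by exact_mod_cast t.2
  have ht0 : (0 : ℝ) ≤ ((t : ℕ) : ℝ) := by positivity
  rw [h4]
  push_cast
  constructor <;> nlinarith

open scoped Classical in
/-- among `n` consecutive phases at most `c + 1` are in an open arc of length at most `c + 1` -/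
theorem arc_count_upper {n c : ℕ} (o ℓ s : ℝ) (hℓ : ℓ ≤ c + 1) :
    (Finset.univ.filter fun i : Fin n => ∃ k : ℤ, o < s + (i : ℕ) - n * k ∧
      s + (i : ℕ) - n * k < o + ℓ).card ≤ c + 1 := by
  let u : ℝ := o - s
  have key : ∀ i ∈ (Finset.univ.filter fun i : Fin n => ∃ k : ℤ, o < s + (i : ℕ) - n * k ∧
      s + (i : ℕ) - n * k < o + ℓ), ∃ k : ℤ, o < s + (i : ℕ) - n * k ∧
      s + (i : ℕ) - n * k < o + ℓ := fun i hi => (Finset.mem_filter.1 hi).2
  choose! k hk using key
  have hcard : (Finset.Icc (⌊u⌋ + 1) (⌊u⌋ + (c + 1))).card = c + 1 := by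
    rw [Int.card_Icc]
    omega
  rw [← hcard]
  refine Finset.card_le_card_of_injOn (fun i : Fin n => ((i : ℕ) : ℤ) - n * k i) ?_ ?_
  · intro i hi
    obtain ⟨h1, h2⟩ := hk i hi
    have h3 : u < ((((i : ℕ) : ℤ) - n * k i : ℤ) : ℝ) := by
      push_cast
      simp only [u]
      linarith
    have h4 : ((((i : ℕ) : ℤ) - n * k i : ℤ) : ℝ) < u + (c + 1) := by
      push_cast
      simp only [u]
      linarith
    simp only [Finset.coe_Icc, Set.mem_Icc]
    constructor
    · exact Int.floor_lt.2 h3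
    · have h5 : (((((i : ℕ) : ℤ) - n * k i : ℤ) : ℝ)) < ((⌊u⌋ + 1 + (c + 1) : ℤ) : ℝ) := by
        push_cast
        have := Int.lt_floor_add_one u
        push_cast at h4
        linarith
      have h6 := Int.cast_lt.1 h5
      omega
  · intro i hi i' hi' hii
    simp only at hii
    have h1 : ((i : ℕ) : ℤ) % n = ((i' : ℕ) : ℤ) % n := by
      have h2 : ((i : ℕ) : ℤ) = ((i' : ℕ) : ℤ) + n * (k i - k i') := by linarith
      rw [h2, Int.add_mul_emod_self_left]
    rw [Int.emod_eq_of_lt (by positivity) (by have := i.2; omega),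
      Int.emod_eq_of_lt (by positivity) (by have := i'.2; omega)] at h1
    exact Fin.ext (by exact_mod_cast h1)

/-- a set of separated times is sparse -/
theorem sparse_count {L : ℕ} (hL : 0 < L) (a b : ℕ) (A : ℕ → Prop) [DecidablePred A]
    (hsep : ∀ i j, i < j → A i → A j → L ≤ j - i) :
    L * ((Finset.Ico a b).filter A).card ≤ (b - a) + L := by
  classical
  have h1 : ((Finset.Ico a b).filter A).card ≤ (Finset.range ((b - a) / L + 1)).card := by
    refine Finset.card_le_card_of_injOn (fun j => (j - a) / L) ?_ ?_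
    · intro j hj
      rw [Finset.mem_coe, Finset.mem_filter, Finset.mem_Ico] at hj
      simp only [Finset.coe_range, Set.mem_Iio]
      have : (j - a) / L ≤ (b - a) / L := Nat.div_le_div_right (by omega)
      omega
    · intro i hi j hj hij
      rw [Finset.mem_coe, Finset.mem_filter, Finset.mem_Ico] at hi hj
      simp only at hij
      by_contra hne
      rcases Nat.lt_or_gt_of_ne hne with hlt | hlt
      · have h2 := hsep i j hlt hi.2 hj.2
        have h3 : (j - a) = (i - a) + (j - i) := by omega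
        have h4 : (i - a) / L + 1 ≤ (j - a) / L := by
          rw [h3]
          calc (i - a) / L + 1 = ((i - a) + L) / L := by rw [Nat.add_div_right _ hL]
            _ ≤ _ := Nat.div_le_div_right (by omega)
        omega
      · have h2 := hsep j i hlt hj.2 hi.2
        have h3 : (i - a) = (j - a) + (i - j) := by omega
        have h4 : (j - a) / L + 1 ≤ (i - a) / L := by
          rw [h3]
          calc (j - a) / L + 1 = ((j - a) + L) / L := by rw [Nat.add_div_right _ hL]
            _ ≤ _ := Nat.div_le_div_right (by omega)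
        omega
  rw [Finset.card_range] at h1
  calc L * ((Finset.Ico a b).filter A).card ≤ L * ((b - a) / L + 1) := Nat.mul_le_mul_left _ h1
    _ = L * ((b - a) / L) + L := by ring
    _ ≤ (b - a) + L := by
      have := Nat.mul_div_le (b - a) L
      omega

section Blocks

variable {s : ℕ → ℝ} {A : ℕ → Prop} [DecidablePred A]

theorem regular_stretch (hs : ∀ j, ¬ A (j + 1) → s (j + 1) = s j + 1) (a i : ℕ)
    (hA : ∀ j, a < j → j ≤ a + i → ¬ A j) : s (a + i) = s a + i := by
  induction i with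
  | zero => simp
  | succ i ih =>
    rw [← add_assoc, hs (a + i) (hA _ (by omega) (by omega)), ih fun j h1 h2 => hA j h1 (by omega)]
    push_cast
    ring

theorem count_Ico_eq {n : ℕ} (a : ℕ) (P : ℕ → Prop) [DecidablePred P] :
    ((Finset.Ico a (a + n)).filter P).card =
      (Finset.univ.filter fun i : Fin n => P (a + (i : ℕ))).card := by
  classical
  symm
  refine Finset.card_bij (fun i _ => a + (i : ℕ)) ?_ ?_ ?_
  · intro i hi
    rw [Finset.mem_filter] at hi
    rw [Finset.mem_filter, Finset.mem_Ico]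
    exact ⟨⟨by omega, by have := i.2; omega⟩, hi.2⟩
  · intro i _ j _ hij
    exact Fin.ext (by omega)
  · intro j hj
    rw [Finset.mem_filter, Finset.mem_Ico] at hj
    refine ⟨⟨j - a, by omega⟩, ?_, ?_⟩
    · rw [Finset.mem_filter]
      refine ⟨Finset.mem_univ _, ?_⟩
      have : a + (j - a) = j := by omega
      simp only [this]
      exact hj.2
    · simp only
      omega

theorem block_lower_one (hs : ∀ j, ¬ A (j + 1) → s (j + 1) = s j + 1) {n c : ℕ} (hc : c ≤ n)
    (hn : 0 < n) (o : ℝ) (P : ℕ → Prop) [DecidablePred P]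
    (hP : ∀ j, (∃ k : ℤ, o ≤ s j - n * k ∧ s j - n * k ≤ o + c) → P j) (a : ℕ) :
    c ≤ ((Finset.Ico a (a + n)).filter P).card + c * ((Finset.Ico a (a + n)).filter A).card := by
  classical
  by_cases hA : ∀ j, a < j → j < a + n → ¬ A j
  · refine le_trans ?_ (Nat.le_add_right _ _)
    rw [count_Ico_eq]
    refine (arc_count_lower hc hn o (s a)).trans (Finset.card_le_card ?_)
    intro i hi
    rw [Finset.mem_filter] at hi ⊢
    refine ⟨Finset.mem_univ _, hP _ ?_⟩
    rw [regular_stretch hs a i fun j h1 h2 => hA j h1 (by have := i.2; omega)]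
    exact hi.2
  · push Not at hA
    obtain ⟨j, h1, h2, h3⟩ := hA
    have h4 : 0 < ((Finset.Ico a (a + n)).filter A).card :=
      Finset.card_pos.2 ⟨j, Finset.mem_filter.2 ⟨Finset.mem_Ico.2 ⟨h1.le, h2⟩, h3⟩⟩
    calc c = c * 1 := (mul_one c).symm
      _ ≤ c * _ := Nat.mul_le_mul_left _ h4
      _ ≤ _ := Nat.le_add_left _ _

theorem block_upper_one (hs : ∀ j, ¬ A (j + 1) → s (j + 1) = s j + 1) {n c : ℕ} (o ℓ : ℝ)
    (hℓ : ℓ ≤ c + 1) (Q : ℕ → Prop) [DecidablePred Q]
    (hQ : ∀ j, Q j → ∃ k : ℤ, o < s j - n * k ∧ s j - n * k < o + ℓ) (a : ℕ) :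
    ((Finset.Ico a (a + n)).filter Q).card ≤
      (c + 1) + n * ((Finset.Ico a (a + n)).filter A).card := by
  classical
  by_cases hA : ∀ j, a < j → j < a + n → ¬ A j
  · refine le_trans ?_ (Nat.le_add_right _ _)
    rw [count_Ico_eq]
    refine (Finset.card_le_card ?_).trans (arc_count_upper (n := n) o ℓ (s a) hℓ)
    intro i hi
    rw [Finset.mem_filter] at hi ⊢
    refine ⟨Finset.mem_univ _, ?_⟩
    have := hQ _ hi.2
    rwa [regular_stretch hs a i fun j h1 h2 => hA j h1 (by have := i.2; omega)] at this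
  · push Not at hA
    obtain ⟨j, h1, h2, h3⟩ := hA
    have h4 : 0 < ((Finset.Ico a (a + n)).filter A).card :=
      Finset.card_pos.2 ⟨j, Finset.mem_filter.2 ⟨Finset.mem_Ico.2 ⟨h1.le, h2⟩, h3⟩⟩
    calc ((Finset.Ico a (a + n)).filter Q).card ≤ (Finset.Ico a (a + n)).card :=
          Finset.card_filter_le _ _
      _ = n * 1 := by rw [Nat.card_Ico]; omega
      _ ≤ n * _ := Nat.mul_le_mul_left _ h4
      _ ≤ _ := Nat.le_add_left _ _

theorem filter_Ico_split (P : ℕ → Prop) [DecidablePred P] {a b c : ℕ} (hab : a ≤ b) (hbc : b ≤ c) :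
    ((Finset.Ico a c).filter P).card =
      ((Finset.Ico a b).filter P).card + ((Finset.Ico b c).filter P).card := by
  classical
  rw [← Finset.Ico_union_Ico_eq_Ico hab hbc, Finset.filter_union, Finset.card_union_of_disjoint]
  exact Finset.disjoint_filter_filter (Finset.Ico_disjoint_Ico_consecutive a b c)

theorem block_lower (hs : ∀ j, ¬ A (j + 1) → s (j + 1) = s j + 1) {n c : ℕ} (hc : c ≤ n)
    (hn : 0 < n) (o : ℝ) (P : ℕ → Prop) [DecidablePred P]
    (hP : ∀ j, (∃ k : ℤ, o ≤ s j - n * k ∧ s j - n * k ≤ o + c) → P j) (a B : ℕ) :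
    c * B ≤ ((Finset.Ico a (a + n * B)).filter P).card +
      c * ((Finset.Ico a (a + n * B)).filter A).card := by
  induction B with
  | zero => simp
  | succ B ih =>
    have h1 := block_lower_one hs hc hn o P hP (a + n * B)
    have h2 : a + n * (B + 1) = a + n * B + n := by ring
    rw [h2, filter_Ico_split P (Nat.le_add_right a (n * B)) (Nat.le_add_right _ n),
      filter_Ico_split A (Nat.le_add_right a (n * B)) (Nat.le_add_right _ n)]
    nlinarith

theorem block_upper (hs : ∀ j, ¬ A (j + 1) → s (j + 1) = s j + 1) {n c : ℕ} (o ℓ : ℝ)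
    (hℓ : ℓ ≤ c + 1) (Q : ℕ → Prop) [DecidablePred Q]
    (hQ : ∀ j, Q j → ∃ k : ℤ, o < s j - n * k ∧ s j - n * k < o + ℓ) (a B : ℕ) :
    ((Finset.Ico a (a + n * B)).filter Q).card ≤
      (c + 1) * B + n * ((Finset.Ico a (a + n * B)).filter A).card := by
  induction B with
  | zero => simp
  | succ B ih =>
    have h1 := block_upper_one hs o ℓ hℓ Q hQ (a + n * B)
    have h2 : a + n * (B + 1) = a + n * B + n := by ring
    rw [h2, filter_Ico_split Q (Nat.le_add_right a (n * B)) (Nat.le_add_right _ n),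
      filter_Ico_split A (Nat.le_add_right a (n * B)) (Nat.le_add_right _ n)]
    nlinarith

end Blocks

end

end Vale.Agent.P093
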