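import Vale.Agent.P093.MdimBound
import Mathlib.Topology.Algebra.Order.LiminfLimsup

/-!
The mean dimension of a frozen skew shift is at most the covering dimension of the alphabet times
the upper density of the free positions.
-/

open Set Filter Uniformity
open scoped ENNReal

namespace Vale.Agent.P093

noncomputable section

theorem limsup_visits {a : ℕ → ℕ} {A v N₁ L : ℕ} (hN₁ : 0 < N₁)
    (ha : ∀ N, a N ≤ A * (((N + L) / N₁ + 1) * v)) :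
    limsup (fun N : ℕ => (a N : ℝ≥0∞) / (N : ℝ≥0∞)) atTop ≤ (A : ℝ≥0∞) * ((v : ℝ≥0∞) / N₁) := by
  have hN₁' : (N₁ : ℝ≥0∞) ≠ 0 := by exact_mod_cast hN₁.ne'
  have hN₁t : (N₁ : ℝ≥0∞) ≠ ∞ := ENNReal.natCast_ne_top _
  have hb : ∀ N : ℕ, 0 < N → (a N : ℝ≥0∞) / N ≤
      ((A : ℝ≥0∞) * v) * ((N₁ : ℝ≥0∞)⁻¹ + ((L : ℝ≥0∞) / N₁ + 1) * (N : ℝ≥0∞)⁻¹) := by
    intro N hN
    have hN0 : (N : ℝ≥0∞) ≠ 0 := by exact_mod_cast hN.ne'
    have hNt : (N : ℝ≥0∞) ≠ ∞ := ENNReal.natCast_ne_top _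
    have h1 : (a N : ℝ≥0∞) ≤ (A : ℝ≥0∞) * (((((N + L) / N₁ : ℕ) : ℝ≥0∞) + 1) * v) := by
      exact_mod_cast ha N
    have h2 : (((N + L) / N₁ : ℕ) : ℝ≥0∞) ≤ ((N : ℝ≥0∞) + L) / N₁ := by
      rw [ENNReal.le_div_iff_mul_le (Or.inl hN₁') (Or.inl hN₁t)]
      exact_mod_cast Nat.div_mul_le_self (N + L) N₁
    calc (a N : ℝ≥0∞) / N ≤ ((A : ℝ≥0∞) * ((((N : ℝ≥0∞) + L) / N₁ + 1) * v)) / N := by
          apply ENNReal.div_le_div_right
          refine h1.trans ?_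
          gcongr
      _ = _ := by
          rw [ENNReal.div_eq_inv_mul, ENNReal.add_div, ENNReal.div_eq_inv_mul (a := (N : ℝ≥0∞))]
          have h3 : (N : ℝ≥0∞)⁻¹ * (N : ℝ≥0∞) = 1 := ENNReal.inv_mul_cancel hN0 hNt
          calc (N : ℝ≥0∞)⁻¹ * ((A : ℝ≥0∞) * (((N₁ : ℝ≥0∞)⁻¹ * N + (L : ℝ≥0∞) / N₁ + 1) * v))
              = ((A : ℝ≥0∞) * v) * ((N₁ : ℝ≥0∞)⁻¹ * ((N : ℝ≥0∞)⁻¹ * (N : ℝ≥0∞)) +
                ((L : ℝ≥0∞) / N₁ + 1) * (N : ℝ≥0∞)⁻¹) := by ring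
            _ = _ := by rw [h3, mul_one]
  have hlim : Tendsto (fun N : ℕ => ((A : ℝ≥0∞) * v) * ((N₁ : ℝ≥0∞)⁻¹ +
      ((L : ℝ≥0∞) / N₁ + 1) * (N : ℝ≥0∞)⁻¹)) atTop
      (nhds (((A : ℝ≥0∞) * v) * ((N₁ : ℝ≥0∞)⁻¹ + ((L : ℝ≥0∞) / N₁ + 1) * 0))) := by
    apply ENNReal.Tendsto.const_mul
    · apply Tendsto.const_add
      apply ENNReal.Tendsto.const_mul ENNReal.tendsto_inv_nat_nhds_zero
      right
      exact ENNReal.add_ne_top.mpr ⟨ENNReal.div_ne_top (ENNReal.natCast_ne_top _) hN₁',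
        ENNReal.one_ne_top⟩
    · right
      exact ENNReal.mul_ne_top (ENNReal.natCast_ne_top _) (ENNReal.natCast_ne_top _)
  calc limsup (fun N : ℕ => (a N : ℝ≥0∞) / (N : ℝ≥0∞)) atTop
      ≤ limsup (fun N : ℕ => ((A : ℝ≥0∞) * v) * ((N₁ : ℝ≥0∞)⁻¹ +
        ((L : ℝ≥0∞) / N₁ + 1) * (N : ℝ≥0∞)⁻¹)) atTop := by
        refine limsup_le_limsup ?_ (by isBoundedDefault) (by isBoundedDefault)
        filter_upwards [eventually_gt_atTop 0] with N hN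
        exact hb N hN
    _ = ((A : ℝ≥0∞) * v) * ((N₁ : ℝ≥0∞)⁻¹ + ((L : ℝ≥0∞) / N₁ + 1) * 0) := hlim.limsup_eq
    _ = _ := by
        rw [mul_zero, add_zero, mul_assoc, ENNReal.div_eq_inv_mul, mul_comm (v : ℝ≥0∞)]

section

variable {K Ω : Type*}

theorem mdim_frozen_le_aux [UniformSpace K] [UniformSpace Ω] [CompactSpace K] [T2Space K]
    [CompactSpace Ω] [T2Space Ω] [TotallyDisconnectedSpace Ω] (g : Ω ≃ₜ Ω) {O : Set Ω}
    (hO : IsOpen O) {c : Ω → K} (hc : ContinuousOn c O) :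
    mdim (frozenShift g O c) ≤ covDim K * dens g Oᶜ := by
  unfold mdim
  apply iSup₂_le
  intro U hU
  obtain ⟨W, L, hW, hWL⟩ := coverD_join_le g hO hc hU
  have h1 : ∀ N₁ : ℕ, 0 < N₁ → limsup (fun N : ℕ =>
      (coverD (coverJoin (frozenShift g O c) U N) : ℝ≥0∞) / (N : ℝ≥0∞)) atTop ≤
      (coverD W : ℝ≥0∞) * ((maxVisits g Oᶜ N₁ : ℝ≥0∞) / N₁) := by
    intro N₁ hN₁
    obtain ⟨Uf, hUf, hOU, hvis⟩ := exists_clopen_approx g hO.isClosed_compl N₁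
    refine (limsup_visits (A := coverD W) (v := maxVisits g Uf N₁) (L := L) hN₁ ?_).trans ?_
    · intro N
      refine (hWL Uf hUf hOU N).trans ?_
      exact Nat.mul_le_mul_left _ (maxVisits_le_div hN₁ _)
    · gcongr
  have h2 : limsup (fun N : ℕ =>
      (coverD (coverJoin (frozenShift g O c) U N) : ℝ≥0∞) / (N : ℝ≥0∞)) atTop ≤
      (coverD W : ℝ≥0∞) * dens g Oᶜ := by
    unfold dens
    by_cases hA : coverD W = 0
    · rw [hA, Nat.cast_zero, zero_mul]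
      refine (h1 1 one_pos).trans ?_
      rw [hA, Nat.cast_zero, zero_mul]
    · have hA0 : (coverD W : ℝ≥0∞) ≠ 0 := by exact_mod_cast hA
      simp only [ENNReal.mul_iInf_of_ne hA0 (ENNReal.natCast_ne_top _)]
      exact le_iInf₂ h1
  refine h2.trans ?_
  gcongr
  exact le_iSup₂ (f := fun (U : Set (Set K)) (_ : IsFinCover U) => (coverD U : ℝ≥0∞)) W hW

/-- **Upper bound for the mean dimension.** -/
theorem mdim_frozen_le [TopologicalSpace K] [TopologicalSpace Ω] [CompactSpace K] [T2Space K]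
    [CompactSpace Ω] [T2Space Ω] [TotallyDisconnectedSpace Ω] (g : Ω ≃ₜ Ω) {O : Set Ω}
    (hO : IsOpen O) {c : Ω → K} (hc : ContinuousOn c O) :
    mdim (frozenShift g O c) ≤ covDim K * dens g Oᶜ := by
  let _ : UniformSpace K := uniformSpaceOfCompactR1
  let _ : UniformSpace Ω := uniformSpaceOfCompactR1
  exact mdim_frozen_le_aux g hO hc

end

end

end Vale.Agent.P093
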