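import Mathlib
import Vale.Agent.P093.CoverDimDef
import Vale.Agent.P093.MdimMain

/-!
The upper bound for the mean dimension in terms of the official definitions.
-/

open Set Filter Topology
open scoped ENNReal

namespace Vale.Agent.P093

noncomputable section

section Bridge

variable {X : Type*} [TopologicalSpace X]

theorem card_le_of_coverOrder {V : Set (Set X)} (hV : V.Finite) {S : Finset (Set X)}
    (hS : ↑S ⊆ V) (hne : (⋂₀ (S : Set (Set X))).Nonempty) : S.card ≤ coverOrder V + 1 := by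
  have hb : BddAbove {k | ∃ S : Finset (Set X), ↑S ⊆ V ∧ (⋂₀ (S : Set (Set X))).Nonempty ∧
      S.card = k} := by
    refine ⟨hV.toFinset.card, ?_⟩
    rintro _ ⟨S, hS, _, rfl⟩
    apply Finset.card_le_card
    intro s hs
    rw [Set.Finite.mem_toFinset]
    exact hS hs
  have h1 : S.card ≤ sSup {k | ∃ S : Finset (Set X), ↑S ⊆ V ∧ (⋂₀ (S : Set (Set X))).Nonempty ∧
      S.card = k} := le_csSup hb ⟨S, hS, hne, rfl⟩
  unfold coverOrder
  omega

theorem coverDim_le_coverD {U : Set (Set X)} (hU : IsFinCover U) : coverDim U ≤ coverD U := by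
  have hne : {k | ∃ V : Set (Set X), IsFinCover V ∧ Refines V U ∧ coverOrder V = k}.Nonempty :=
    ⟨coverOrder U, U, hU, fun u hu => ⟨u, hu, le_rfl⟩, rfl⟩
  obtain ⟨V, hV, hVU, hk⟩ := Nat.sInf_mem hne
  change coverOrder V = coverD U at hk
  apply Nat.sInf_le
  refine ⟨V, hV, hVU, ?_⟩
  intro S hS hSne
  have hfin : S.Finite := hV.1.subset hS
  have h1 := card_le_of_coverOrder (S := hfin.toFinset) hV.1 (by simpa using hS)
    (by simpa using hSne)
  rw [hfin.encard_eq_coe_toFinset_card]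
  rw [hk] at h1
  exact_mod_cast h1

theorem coverD_le_coverDim {U : Set (Set X)} (hU : IsFinCover U) : coverD U ≤ coverDim U := by
  have hne : {d : ℕ | ∃ 𝒱 : Set (Set X), IsFinOpenCover 𝒱 ∧ (∀ V ∈ 𝒱, ∃ W ∈ U, V ⊆ W) ∧
      ∀ S ⊆ 𝒱, (⋂₀ S).Nonempty → S.encard ≤ d + 1}.Nonempty := by
    refine ⟨hU.1.toFinset.card, U, hU, fun u hu => ⟨u, hu, le_rfl⟩, fun S hS _ => ?_⟩
    have h1 : S.encard ≤ U.encard := Set.encard_le_encard hS
    rw [hU.1.encard_eq_coe_toFinset_card] at h1
    exact h1.trans (by exact_mod_cast Nat.le_succ _)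
  obtain ⟨V, hV, hVU, hk⟩ := Nat.sInf_mem hne
  change ∀ S ⊆ V, (⋂₀ S).Nonempty → S.encard ≤ (coverDim U : ℕ∞) + 1 at hk
  have h1 : coverOrder V ≤ coverDim U := by
    unfold coverOrder
    have h2 : sSup {k | ∃ S : Finset (Set X), ↑S ⊆ V ∧ (⋂₀ (S : Set (Set X))).Nonempty ∧
        S.card = k} ≤ coverDim U + 1 := by
      by_cases hemp : {k | ∃ S : Finset (Set X), ↑S ⊆ V ∧ (⋂₀ (S : Set (Set X))).Nonempty ∧
        S.card = k}.Nonempty
      · apply csSup_le hemp
        rintro _ ⟨S, hS, hSne, rfl⟩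
        have := hk S hS hSne
        rw [Set.encard_coe_eq_coe_finsetCard] at this
        exact_mod_cast this
      · rw [Set.not_nonempty_iff_eq_empty] at hemp
        rw [hemp]
        simp
    omega
  have h3 : coverD U ≤ coverOrder V := by
    apply Nat.sInf_le
    exact ⟨V, hV, hVU, rfl⟩
  exact h3.trans h1

theorem isFinCover_coverJoin (h : X ≃ₜ X) {U : Set (Set X)} (hU : IsFinCover U) (N : ℕ) :
    IsFinCover (coverJoin h U N) := by
  refine ⟨?_, ?_, ?_⟩
  · have : coverJoin h U N = Set.range (fun f : Fin N → U =>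
        ⋂ j : Fin N, (⇑h)^[(j : ℕ)] ⁻¹' (f j : Set X)) := by
      ext s
      constructor
      · rintro ⟨f, hf, rfl⟩
        exact ⟨fun j => ⟨f j, hf j⟩, rfl⟩
      · rintro ⟨f, rfl⟩
        exact ⟨fun j => f j, fun j => (f j).2, rfl⟩
    rw [this]
    have : Finite U := hU.1
    exact Set.finite_range _
  · rintro _ ⟨f, hf, rfl⟩
    exact isOpen_iInter_of_finite fun j => (hU.2.1 _ (hf j)).preimage (h.continuous.iterate _)
  · rw [Set.eq_univ_iff_forall]
    intro x
    have hx : ∀ j : Fin N, ∃ u ∈ U, (⇑h)^[(j : ℕ)] x ∈ u := by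
      intro j
      have : (⇑h)^[(j : ℕ)] x ∈ ⋃₀ U := by rw [hU.2.2]; exact Set.mem_univ _
      exact this
    choose f hf hxf using hx
    exact ⟨_, ⟨f, hf, rfl⟩, Set.mem_iInter.mpr fun j => hxf j⟩

theorem pow_eq_iterate (h : X ≃ₜ X) (j : ℕ) : ⇑(h ^ j) = (⇑h)^[j] := by
  induction j with
  | zero => rfl
  | succ j ih =>
    rw [pow_succ', Function.iterate_succ']
    funext x
    change h ((h ^ j) x) = h ((⇑h)^[j] x)
    rw [ih]

theorem iterCover_eq_coverJoin (h : X ≃ₜ X) {U : Set (Set X)} (hU : U.Nonempty) (N : ℕ) :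
    iterCover h U N = coverJoin h U N := by
  obtain ⟨u₀, hu₀⟩ := hU
  ext s
  constructor
  · rintro ⟨f, hf, rfl⟩
    refine ⟨fun j => f j, fun j => hf j, ?_⟩
    ext x
    simp only [Set.mem_iInter, Finset.mem_range, pow_eq_iterate]
    exact ⟨fun hx j => hx j j.2, fun hx j hj => hx ⟨j, hj⟩⟩
  · rintro ⟨f, hf, rfl⟩
    refine ⟨fun j => if hj : j < N then f ⟨j, hj⟩ else u₀, ?_, ?_⟩
    · intro j
      by_cases hj : j < N
      · simp only [hj, dif_pos]; exact hf _
      · simp only [hj, dif_neg, not_false_eq_true]; exact hu₀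
    · ext x
      simp only [Set.mem_iInter, Finset.mem_range, pow_eq_iterate]
      constructor
      · intro hx j hj
        have := hx ⟨j, hj⟩
        simpa [hj] using this
      · intro hx j
        have := hx j j.2
        simpa using this

theorem coverDim_iterCover_le (h : X ≃ₜ X) {U : Set (Set X)} (hU : IsFinOpenCover U) (N : ℕ) :
    coverDim (iterCover h U N) ≤ coverD (coverJoin h U N) := by
  by_cases hne : U.Nonempty
  · rw [iterCover_eq_coverJoin h hne]
    exact coverDim_le_coverD (isFinCover_coverJoin h hU N)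
  · rw [Set.not_nonempty_iff_eq_empty] at hne
    have hX : (Set.univ : Set X) = ∅ := by
      rw [← hU.2.2, hne, Set.sUnion_empty]
    have : coverDim (iterCover h U N) ≤ 0 := by
      apply Nat.sInf_le
      refine ⟨∅, ⟨Set.finite_empty, by simp, by rw [Set.sUnion_empty, hX]⟩, by simp, ?_⟩
      intro S _ hS
      obtain ⟨x, _⟩ := hS
      exact absurd (Set.mem_univ x) (by rw [hX]; exact Set.notMem_empty x)
    exact this.trans (Nat.zero_le _)

theorem meanDim_le_mdim (h : X ≃ₜ X) : meanDim h ≤ mdim h := by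
  unfold meanDim mdim
  apply iSup_le
  rintro ⟨U, hU⟩
  refine le_trans ?_ (le_iSup₂ (f := fun (U : Set (Set X)) (_ : IsFinCover U) =>
    limsup (fun N : ℕ => (coverD (coverJoin h U N) : ℝ≥0∞) / (N : ℝ≥0∞)) atTop) U hU)
  refine limsup_le_limsup ?_ (by isBoundedDefault) (by isBoundedDefault)
  filter_upwards with N
  apply ENNReal.div_le_div_right
  exact_mod_cast coverDim_iterCover_le h hU N

theorem covDim_le_coveringDim : covDim X ≤ coveringDim X := by
  unfold covDim coveringDim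
  apply iSup₂_le
  intro U hU
  refine le_trans ?_ (le_iSup (f := fun 𝒰 : {𝒰 : Set (Set X) // IsFinOpenCover 𝒰} =>
    (coverDim 𝒰.1 : ℝ≥0∞)) ⟨U, hU⟩)
  exact_mod_cast coverD_le_coverDim hU

end Bridge

/-- **Upper bound for the mean dimension of frozen skew shifts.** -/
theorem meanDim_frozen_le {K Ω : Type*} [TopologicalSpace K] [TopologicalSpace Ω] [CompactSpace K]
    [T2Space K] [CompactSpace Ω] [T2Space Ω] [TotallyDisconnectedSpace Ω] (g : Ω ≃ₜ Ω) {O : Set Ω}
    (hO : IsOpen O) {c : Ω → K} (hc : ContinuousOn c O) :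
    meanDim (frozenShift g O c) ≤ coveringDim K * dens g Oᶜ :=
  (meanDim_le_mdim _).trans ((mdim_frozen_le g hO hc).trans
    (mul_le_mul_left covDim_le_coveringDim _))

end

end Vale.Agent.P093
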