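import Vale.Agent.P093.Obstruction
import Mathlib.Analysis.InnerProductSpace.PiL2

/-!
Lemma T in the form used later: over a product of `M` two-spheres, the sum of the `M` Hopf line
bundles and a trivial bundle of rank `t` has no `t + 1` independent sections.
-/

namespace Vale.Agent.P093

noncomputable section

/-- the unit sphere in three-space -/
abbrev S2 := Metric.sphere (0 : EuclideanSpace ℝ (Fin 3)) 1

/-- the matrix `(1 + v.σ) / 2` -/
def hopf (v : EuclideanSpace ℝ (Fin 3)) : Matrix (Fin 2) (Fin 2) ℂ :=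
  !![((1 + v 2 : ℝ) : ℂ) / 2, ((v 0 : ℝ) - (v 1 : ℝ) * Complex.I) / 2;
    ((v 0 : ℝ) + (v 1 : ℝ) * Complex.I) / 2, ((1 - v 2 : ℝ) : ℂ) / 2]

theorem pb_apply (z : Tor) (a b : Fin 2) : pb z a b =
    frU (rp z.1) (rp z.2) a * (starRingEnd ℂ) (frU (rp z.1) (rp z.2) b) /
      (frN (rp z.1) (rp z.2) : ℂ) := rfl

theorem pb_diag (z : Tor) (a : Fin 2) : pb z a a =
    ((Complex.normSq (frU (rp z.1) (rp z.2) a) / frN (rp z.1) (rp z.2) : ℝ) : ℂ) := by
  rw [pb_apply, Complex.mul_conj]
  push_cast
  rfl

/-- the Bloch vector of the projection over the torus -/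
def bloch (z : Tor) : EuclideanSpace ℝ (Fin 3) :=
  !₂[2 * (pb z 0 1).re, - 2 * (pb z 0 1).im, 2 * (pb z 0 0).re - 1]

theorem bloch_norm (z : Tor) : ‖bloch z‖ = 1 := by
  have htr : (pb z 0 0).re + (pb z 1 1).re = 1 := by
    have h := pb_trace z
    have h2 : pb z 0 0 + pb z 1 1 = 1 := by
      rw [← h]; simp [Matrix.trace, Fin.sum_univ_two]
    have := congrArg Complex.re h2
    simpa using this
  have hdet : (pb z 0 1).re ^ 2 + (pb z 0 1).im ^ 2 = (pb z 0 0).re * (pb z 1 1).re := by
    set N := frN (rp z.1) (rp z.2) with hN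
    have hNpos : 0 < N := frN_pos _ _
    have h1 : (pb z 0 1).re ^ 2 + (pb z 0 1).im ^ 2 = Complex.normSq (pb z 0 1) := by
      rw [Complex.normSq_apply]; ring
    rw [h1, pb_apply, map_div₀, map_mul, Complex.normSq_conj, pb_diag, pb_diag, Complex.ofReal_re,
      Complex.ofReal_re, Complex.normSq_ofReal, ← hN]
    field_simp
  rw [EuclideanSpace.norm_eq]
  rw [Real.sqrt_eq_one]
  simp only [bloch, Fin.sum_univ_three, Real.norm_eq_abs, sq_abs]
  simp only [PiLp.toLp_apply, Matrix.cons_val_zero, Matrix.cons_val_one, Matrix.cons_val]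
  have h3 : (pb z 1 1).re = 1 - (pb z 0 0).re := by linarith
  rw [h3] at hdet
  nlinarith

theorem hopf_bloch (z : Tor) : hopf (bloch z) = pb z := by
  have htr : pb z 0 0 + pb z 1 1 = 1 := by
    rw [← pb_trace z]; simp [Matrix.trace, Fin.sum_univ_two]
  have him : (pb z 0 0).im = 0 := by rw [pb_diag, Complex.ofReal_im]
  have hc : pb z 1 0 = (starRingEnd ℂ) (pb z 0 1) := by
    have := congrFun (congrFun (pb_conjTranspose z) 1) 0
    rw [Matrix.conjTranspose_apply] at this
    exact this.symm
  have h00 : pb z 0 0 = ((pb z 0 0).re : ℂ) := by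
    apply Complex.ext
    · simp
    · simp [him]
  ext a b
  fin_cases a <;> fin_cases b
  · simp only [hopf, bloch, PiLp.toLp_apply, Matrix.cons_val_zero, Matrix.cons_val_one,
      Matrix.cons_val, Matrix.of_apply, Fin.zero_eta, Fin.mk_one]
    rw [h00]
    push_cast
    simp only [Complex.ofReal_re]
    ring
  · simp only [hopf, bloch, PiLp.toLp_apply, Matrix.cons_val_zero, Matrix.cons_val_one,
      Matrix.cons_val, Matrix.of_apply, Fin.zero_eta, Fin.mk_one]
    apply Complex.ext
    · simp
    · simp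
  · simp only [hopf, bloch, PiLp.toLp_apply, Matrix.cons_val_zero, Matrix.cons_val_one,
      Matrix.cons_val, Matrix.of_apply, Fin.zero_eta, Fin.mk_one]
    rw [hc]
    apply Complex.ext
    · simp
    · simp
      ring
  · simp only [hopf, bloch, PiLp.toLp_apply, Matrix.cons_val_zero, Matrix.cons_val_one,
      Matrix.cons_val, Matrix.of_apply, Fin.zero_eta, Fin.mk_one]
    have : pb z 1 1 = 1 - ((pb z 0 0).re : ℂ) := by rw [← h00]; linear_combination htr
    rw [this]
    push_cast
    ring

theorem bloch_continuous : Continuous bloch := by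
  have hc : ∀ a b : Fin 2, Continuous fun z => pb z a b := fun a b =>
    (continuous_apply b).comp ((continuous_apply a).comp pb_continuous)
  unfold bloch
  apply (PiLp.continuous_toLp 2 _).comp
  apply continuous_pi
  intro i
  fin_cases i
  · exact continuous_const.mul (Complex.continuous_re.comp (hc 0 1))
  · exact continuous_const.mul (Complex.continuous_im.comp (hc 0 1))
  · exact (continuous_const.mul (Complex.continuous_re.comp (hc 0 0))).sub continuous_const

/-- **Lemma T.** -/
theorem lemmaT {M t : ℕ} (A : (Fin M → S2) → Matrix (Fin M × Fin 2 ⊕ Fin t) (Fin (t + 1)) ℂ)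
    (hA : Continuous A) :
    ∃ (v : Fin M → S2) (w : Fin (t + 1) → ℂ), w ≠ 0 ∧
      (∀ i, (hopf (v i)).mulVec (fun a => (A v).mulVec w (Sum.inl (i, a))) = 0) ∧
      ∀ j, (A v).mulVec w (Sum.inr j) = 0 := by
  let κ : (Fin M → Tor) → Fin M → S2 := fun z i =>
    ⟨bloch (z i), by rw [mem_sphere_zero_iff_norm]; exact bloch_norm _⟩
  have hκ : Continuous κ := by
    apply continuous_pi
    intro i
    exact (bloch_continuous.comp (continuous_apply i)).subtype_mk _
  obtain ⟨z, w, hw, h⟩ := torus_obstruction (fun z => A (κ z)) (hA.comp hκ)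
  refine ⟨κ z, w, hw, ?_, ?_⟩
  · intro i
    have h1 := congrFun (congrArg Prod.fst h) i
    have h2 : hopf ((κ z i : S2) : EuclideanSpace ℝ (Fin 3)) = pb (z i) := hopf_bloch (z i)
    rw [h2]
    exact h1
  · intro j
    exact congrFun (congrArg Prod.snd h) j

end

end Vale.Agent.P093
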