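import Mathlib.Algebra.GroupWithZero.Action.Pointwise.Finset
import Mathlib.Algebra.Order.Chebyshev
import Mathlib.Algebra.Ring.Action.Pointwise.Finset
import Mathlib.Algebra.Ring.IsFormallyReal
import Mathlib.Analysis.CStarAlgebra.CompletelyPositiveMap
import Mathlib.Analysis.CStarAlgebra.ContinuousLinearMap
import Mathlib.Analysis.CStarAlgebra.Hom
import Mathlib.Analysis.Calculus.FDeriv.Symmetric
import Mathlib.Analysis.Complex.Tietze
import Mathlib.Analysis.Fourier.AddCircle
import Mathlib.Analysis.Normed.Lp.lpHolder
import Mathlib.Analysis.Real.Pi.Bounds
import Mathlib.Analysis.SpecialFunctions.SmoothTransition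
import Mathlib.Combinatorics.Enumerative.DoubleCounting
import Mathlib.Computability.Reduce
import Mathlib.Data.Finset.DenselyOrdered
import Mathlib.Data.Int.Star
import Mathlib.Data.Nat.Nth
import Mathlib.LinearAlgebra.ExteriorAlgebra.Basis
import Mathlib.LinearAlgebra.Matrix.FiniteDimensional
import Mathlib.LinearAlgebra.Matrix.Swap
import Mathlib.NumberTheory.Dioph
import Mathlib.NumberTheory.Padics.ProperSpace
import Mathlib.Order.CompletePartialOrder
import Mathlib.RingTheory.DedekindDomain.SInteger
import Mathlib.RingTheory.Flat.FaithfullyFlat.Basic
import Mathlib.RingTheory.Flat.TorsionFree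
import Mathlib.RingTheory.PicardGroup
import Mathlib.RingTheory.SimpleRing.Principal
import Mathlib.Tactic
import Mathlib.Topology.Algebra.Order.LiminfLimsup
import Mathlib.Topology.Compactification.OnePoint.ProjectiveLine
import Mathlib.Topology.Connected.Separation
import Mathlib.Topology.Homotopy.HomotopyGroup
import Mathlib.Topology.MetricSpace.Ultra.TotallySeparated
import Mathlib.Topology.Metrizable.Urysohn
import Mathlib.Topology.PartitionOfUnity
import Mathlib.Topology.Separation.Connected
import Mathlib.Topology.Separation.Profinite
import Mathlib.Topology.UniformSpace.Uniformizable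

/-! The part of Mathlib that the development of this folder uses. -/
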