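import Mathlib.Topology.Homeomorph.Lemmas
import Mathlib.Topology.Instances.ENNReal.Lemmas
import Mathlib.Topology.Separation.Profinite
import Mathlib.Order.ConditionallyCompleteLattice.Finset

/-!
Visits of orbits to sets and the upper density of visits.
-/

open Set Filter
open scoped ENNReal

namespace Vale.Agent.P093

noncomputable section

variable {Ω : Type*} [TopologicalSpace Ω]

open scoped Classical in
/-- number of visits to `S` during `[0, N)` -/
def visits (g : Ω ≃ₜ Ω) (S : Set Ω) (N : ℕ) (ω : Ω) : ℕ :=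
  ((Finset.range N).filter fun j : ℕ => (g ^ (j : ℤ)) ω ∈ S).card

open scoped Classical in
/-- the set of visits -/
def vset (g : Ω ≃ₜ Ω) (S : Set Ω) (N : ℕ) (ω : Ω) : Finset ℕ :=
  (Finset.range N).filter fun j : ℕ => (g ^ (j : ℤ)) ω ∈ S

theorem mem_vset {g : Ω ≃ₜ Ω} {S : Set Ω} {N : ℕ} {ω : Ω} {j : ℕ} :
    j ∈ vset g S N ω ↔ j < N ∧ (g ^ (j : ℤ)) ω ∈ S := by
  classical
  unfold vset
  rw [Finset.mem_filter, Finset.mem_range]

theorem visits_eq_card (g : Ω ≃ₜ Ω) (S : Set Ω) (N : ℕ) (ω : Ω) :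
    visits g S N ω = (vset g S N ω).card := rfl

/-- maximal number of visits -/
def maxVisits (g : Ω ≃ₜ Ω) (S : Set Ω) (N : ℕ) : ℕ := ⨆ ω, visits g S N ω

/-- upper density of visits -/
def dens (g : Ω ≃ₜ Ω) (S : Set Ω) : ℝ≥0∞ :=
  ⨅ (N : ℕ) (_ : 0 < N), (maxVisits g S N : ℝ≥0∞) / (N : ℝ≥0∞)

variable {g : Ω ≃ₜ Ω} {S T : Set Ω}

theorem visits_le (g : Ω ≃ₜ Ω) (S : Set Ω) (N : ℕ) (ω : Ω) : visits g S N ω ≤ N := by
  classical
  unfold visits
  exact (Finset.card_filter_le _ _).trans (by simp)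

theorem visits_le_max (g : Ω ≃ₜ Ω) (S : Set Ω) (N : ℕ) (ω : Ω) :
    visits g S N ω ≤ maxVisits g S N := by
  apply le_ciSup (f := fun ω => visits g S N ω)
  exact ⟨N, by rintro _ ⟨ω, rfl⟩; exact visits_le g S N ω⟩

theorem maxVisits_le {m N : ℕ} (h : ∀ ω, visits g S N ω ≤ m) : maxVisits g S N ≤ m := by
  unfold maxVisits
  rcases isEmpty_or_nonempty Ω with he | he
  · rw [ciSup_of_empty]; simp
  · exact ciSup_le h

theorem maxVisits_le_self (g : Ω ≃ₜ Ω) (S : Set Ω) (N : ℕ) : maxVisits g S N ≤ N :=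
  maxVisits_le fun ω => visits_le g S N ω

theorem exists_visits_eq [Nonempty Ω] (g : Ω ≃ₜ Ω) (S : Set Ω) (N : ℕ) :
    ∃ ω, visits g S N ω = maxVisits g S N := by
  have hb : BddAbove (Set.range fun ω => visits g S N ω) :=
    ⟨N, by rintro _ ⟨ω, rfl⟩; exact visits_le g S N ω⟩
  have := Nat.sSup_mem (Set.range_nonempty fun ω => visits g S N ω) hb
  obtain ⟨ω, hω⟩ := this
  exact ⟨ω, hω⟩

theorem visits_add (g : Ω ≃ₜ Ω) (S : Set Ω) (N L : ℕ) (ω : Ω) :
    visits g S (N + L) ω = visits g S N ω + visits g S L ((g ^ (N : ℤ)) ω) := by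
  classical
  unfold visits
  rw [Finset.card_filter, Finset.card_filter, Finset.card_filter, Finset.sum_range_add]
  congr 1
  apply Finset.sum_congr rfl
  intro j _
  have : (g ^ (((N + j : ℕ)) : ℤ)) ω = (g ^ (j : ℤ)) ((g ^ (N : ℤ)) ω) := by
    push_cast
    rw [add_comm, zpow_add]
    rfl
  rw [this]

theorem visits_mono_set (h : S ⊆ T) (N : ℕ) (ω : Ω) : visits g S N ω ≤ visits g T N ω := by
  classical
  unfold visits
  apply Finset.card_le_card
  intro j hj
  rw [Finset.mem_filter] at hj ⊢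
  exact ⟨hj.1, h hj.2⟩

theorem maxVisits_add_le (g : Ω ≃ₜ Ω) (S : Set Ω) (N L : ℕ) :
    maxVisits g S (N + L) ≤ maxVisits g S N + maxVisits g S L := by
  apply maxVisits_le
  intro ω
  rw [visits_add]
  exact add_le_add (visits_le_max _ _ _ _) (visits_le_max _ _ _ _)

theorem maxVisits_mono {N L : ℕ} (h : N ≤ L) : maxVisits g S N ≤ maxVisits g S L := by
  apply maxVisits_le
  intro ω
  obtain ⟨k, rfl⟩ := Nat.exists_eq_add_of_le h
  have := visits_add g S N k ω
  have h2 := visits_le_max g S (N + k) ω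
  omega

theorem maxVisits_mul_le (g : Ω ≃ₜ Ω) (S : Set Ω) (N k : ℕ) :
    maxVisits g S (k * N) ≤ k * maxVisits g S N := by
  induction k with
  | zero =>
    have := maxVisits_le_self g S 0
    simpa using this
  | succ k ih =>
    rw [Nat.succ_mul, Nat.succ_mul]
    exact (maxVisits_add_le g S _ _).trans (Nat.add_le_add_right ih _)

theorem maxVisits_le_div {N₁ : ℕ} (h : 0 < N₁) (N : ℕ) :
    maxVisits g S N ≤ (N / N₁ + 1) * maxVisits g S N₁ := by
  refine le_trans (maxVisits_mono ?_) (maxVisits_mul_le g S N₁ (N / N₁ + 1))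
  have := Nat.lt_div_mul_add (a := N) h
  rw [Nat.add_mul, Nat.one_mul]
  omega

/-- clopen approximation from outside of a closed set with the same maximal number of visits -/
theorem exists_clopen_approx [CompactSpace Ω] [T2Space Ω] [TotallyDisconnectedSpace Ω]
    (g : Ω ≃ₜ Ω) {F : Set Ω} (hF : IsClosed F) (N : ℕ) :
    ∃ U : Set Ω, IsClopen U ∧ F ⊆ U ∧ maxVisits g U N ≤ maxVisits g F N := by
  classical
  -- separating a point from `F`
  have hsep : ∀ p, p ∉ F → ∃ V : Set Ω, IsClopen V ∧ p ∈ V ∧ Disjoint V F := by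
    intro p hp
    obtain ⟨V, hV, hpV, hVF⟩ := compact_exists_isClopen_in_isOpen hF.isOpen_compl
      (show p ∈ Fᶜ from hp)
    exact ⟨V, hV, hpV, Set.disjoint_left.mpr fun x hx hxF => hVF hx hxF⟩
  have hloc : ∀ ω : Ω, ∃ R U : Set Ω, IsOpen R ∧ ω ∈ R ∧ IsClopen U ∧ F ⊆ U ∧
      ∀ ω' ∈ R, ∀ j < N, (g ^ (j : ℤ)) ω' ∈ U → (g ^ (j : ℤ)) ω ∈ F := by
    intro ω
    have hj : ∀ j : ℕ, ∃ V : Set Ω, IsClopen V ∧ Disjoint V F ∧
        ((g ^ (j : ℤ)) ω ∉ F → (g ^ (j : ℤ)) ω ∈ V) := by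
      intro j
      by_cases h : (g ^ (j : ℤ)) ω ∈ F
      · exact ⟨∅, isClopen_empty, by simp, fun h' => absurd h h'⟩
      · obtain ⟨V, h1, h2, h3⟩ := hsep _ h
        exact ⟨V, h1, h3, fun _ => h2⟩
    choose V hV1 hV2 hV3 using hj
    refine ⟨⋂ j ∈ (Finset.range N).filter (fun j : ℕ => (g ^ (j : ℤ)) ω ∉ F),
      (g ^ (j : ℤ)) ⁻¹' V j, (⋃ j ∈ Finset.range N, V j)ᶜ, ?_, ?_, ?_, ?_, ?_⟩
    · apply isOpen_biInter_finset
      intro j _
      exact (hV1 j).isOpen.preimage (g ^ (j : ℤ)).continuous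
    · simp only [Set.mem_iInter, Finset.mem_filter, Set.mem_preimage]
      intro j hj
      exact hV3 j hj.2
    · apply IsClopen.compl
      exact (Finset.range N).finite_toSet.isClopen_biUnion (fun j _ => hV1 j)
    · intro x hx
      simp only [Set.mem_compl_iff, Set.mem_iUnion, not_exists]
      intro j _ hxV
      exact Set.disjoint_left.mp (hV2 j) hxV hx
    · intro ω' hω' j hjN hU
      by_contra hnF
      simp only [Set.mem_iInter, Finset.mem_filter, Set.mem_preimage] at hω'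
      have h1 := hω' j ⟨Finset.mem_range.mpr hjN, hnF⟩
      apply hU
      simp only [Set.mem_iUnion]
      exact ⟨j, Finset.mem_range.mpr hjN, h1⟩
  choose R U hR1 hR2 hU1 hU2 hRU using hloc
  obtain ⟨t, ht⟩ := isCompact_univ.elim_finite_subcover R hR1
    (fun ω _ => Set.mem_iUnion.mpr ⟨ω, hR2 ω⟩)
  refine ⟨⋂ ω ∈ t, U ω, t.finite_toSet.isClopen_biInter (fun ω _ => hU1 ω), ?_, ?_⟩
  · exact Set.subset_iInter₂ fun ω _ => hU2 ω
  · apply maxVisits_le
    intro ω'
    obtain ⟨ω, hω, hω'⟩ := Set.mem_iUnion₂.mp (ht (Set.mem_univ ω'))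
    refine le_trans ?_ (visits_le_max g F N ω)
    unfold visits
    apply Finset.card_le_card
    intro j hj
    rw [Finset.mem_filter] at hj ⊢
    refine ⟨hj.1, hRU ω ω' hω' j (Finset.mem_range.mp hj.1) ?_⟩
    exact Set.mem_iInter₂.mp hj.2 ω hω

end

end Vale.Agent.P093
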