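import Vale.Agent.P093.Colors
import Vale.Agent.P093.Visits
import Vale.Agent.P093.FrozenDefs
import Mathlib.Topology.UniformSpace.OfCompactT2
import Mathlib.Topology.UniformSpace.Pi
import Mathlib.Topology.UniformSpace.Compact
import Mathlib.Data.Int.Interval

/-!
Upper bound for the mean dimension of a frozen skew shift.
-/

open Set Filter Uniformity
open scoped ENNReal

namespace Vale.Agent.P093

noncomputable section

section Order

variable {X : Type*} [TopologicalSpace X]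

theorem card_le_of_order {V : Set (Set X)} (hV : V.Finite) (x : X) (S : Finset (Set X))
    (hS : ↑S ⊆ V) (hx : ∀ s ∈ S, x ∈ s) : S.card ≤ coverOrder V + 1 := by
  have hb : BddAbove {k | ∃ S : Finset (Set X), ↑S ⊆ V ∧ (⋂₀ (S : Set (Set X))).Nonempty ∧
      S.card = k} := by
    refine ⟨hV.toFinset.card, ?_⟩
    rintro k ⟨T, hT, _, rfl⟩
    apply Finset.card_le_card
    intro s hs
    rw [Set.Finite.mem_toFinset]
    exact hT hs
  have h1 : S.card ≤ sSup {k | ∃ S : Finset (Set X), ↑S ⊆ V ∧ (⋂₀ (S : Set (Set X))).Nonempty ∧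
      S.card = k} := le_csSup hb ⟨S, hS, ⟨x, fun s hs => hx s hs⟩, rfl⟩
  unfold coverOrder
  omega

theorem order_le {V : Set (Set X)} {m : ℕ}
    (h : ∀ S : Finset (Set X), ↑S ⊆ V → (⋂₀ (S : Set (Set X))).Nonempty → S.card ≤ m + 1) :
    coverOrder V ≤ m := by
  unfold coverOrder
  have : sSup {k | ∃ S : Finset (Set X), ↑S ⊆ V ∧ (⋂₀ (S : Set (Set X))).Nonempty ∧
      S.card = k} ≤ m + 1 := by
    rcases Set.eq_empty_or_nonempty {k | ∃ S : Finset (Set X), ↑S ⊆ V ∧
      (⋂₀ (S : Set (Set X))).Nonempty ∧ S.card = k} with he | hne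
    · rw [he]; simp
    · apply csSup_le hne
      rintro k ⟨S, h1, h2, rfl⟩
      exact h S h1 h2
  omega

theorem coverD_le {U V : Set (Set X)} {m : ℕ} (hV : IsFinCover V) (hr : Refines V U)
    (h : coverOrder V ≤ m) : coverD U ≤ m :=
  (Nat.sInf_le (show coverOrder V ∈ {k | ∃ V : Set (Set X), IsFinCover V ∧ Refines V U ∧
    coverOrder V = k} from ⟨V, hV, hr, rfl⟩)).trans h

theorem exists_refinement {U : Set (Set X)} (hU : IsFinCover U) :
    ∃ V, IsFinCover V ∧ Refines V U ∧ coverOrder V = coverD U := by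
  have hne : {k | ∃ V : Set (Set X), IsFinCover V ∧ Refines V U ∧ coverOrder V = k}.Nonempty :=
    ⟨coverOrder U, U, hU, fun v hv => ⟨v, hv, subset_rfl⟩, rfl⟩
  exact Nat.sInf_mem hne

end Order

section Closed

variable {K Ω : Type*} [TopologicalSpace K] [TopologicalSpace Ω]

theorem isClosed_frozenSet [T2Space K] (g : Ω ≃ₜ Ω) {O : Set Ω} (hO : IsOpen O) {c : Ω → K}
    (hc : ContinuousOn c O) : IsClosed (frozenSet g O c) := by
  have h : frozenSet g O c = ⋂ i : ℤ, {p : (ℤ → K) × Ω | (g ^ i) p.2 ∈ O →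
      p.1 i = c ((g ^ i) p.2)} := by
    ext p; simp [frozenSet]
  rw [h]
  apply isClosed_iInter
  intro i
  rw [← isOpen_compl_iff]
  have h2 : {p : (ℤ → K) × Ω | (g ^ i) p.2 ∈ O → p.1 i = c ((g ^ i) p.2)}ᶜ =
      {p : (ℤ → K) × Ω | (g ^ i) p.2 ∈ O} ∩
        (fun p : (ℤ → K) × Ω => (p.1 i, c ((g ^ i) p.2))) ⁻¹' (Set.diagonal K)ᶜ := by
    ext p
    simp [_root_.not_imp]
  rw [h2]
  apply ContinuousOn.isOpen_inter_preimage
  · apply ContinuousOn.prodMk
    · exact ((continuous_apply i).comp continuous_fst).continuousOn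
    · apply hc.comp (((g ^ i).continuous.comp continuous_snd).continuousOn)
      intro p hp
      exact hp
  · exact hO.preimage ((g ^ i).continuous.comp continuous_snd)
  · exact isClosed_diagonal.isOpen_compl

theorem frozen_compact [T2Space K] [CompactSpace K] [CompactSpace Ω] (g : Ω ≃ₜ Ω) {O : Set Ω}
    (hO : IsOpen O) {c : Ω → K} (hc : ContinuousOn c O) : CompactSpace (frozenSet g O c) :=
  isCompact_iff_compactSpace.mp (isClosed_frozenSet g hO hc).isCompact

end Closed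

section Lebesgue

variable {K Ω : Type*} [UniformSpace K] [UniformSpace Ω]

/-- a Lebesgue number statement for the frozen skew shift -/
theorem exists_window [CompactSpace K] [T2Space K] [CompactSpace Ω] (g : Ω ≃ₜ Ω) {O : Set Ω}
    (hO : IsOpen O) {c : Ω → K} (hc : ContinuousOn c O) {U : Set (Set (frozenSet g O c))}
    (hU : IsFinCover U) :
    ∃ (M : ℕ) (E : Set (K × K)) (E' : Set (Ω × Ω)), E ∈ 𝓤 K ∧ E' ∈ 𝓤 Ω ∧
      ∀ p : frozenSet g O c, ∃ u ∈ U, ∀ q : frozenSet g O c,
        (∀ i : ℤ, -(M : ℤ) ≤ i → i ≤ M → (p.1.1 i, q.1.1 i) ∈ E) → (p.1.2, q.1.2) ∈ E' → q ∈ u := by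
  have := frozen_compact g hO hc
  obtain ⟨V, hV, hVU⟩ := lebesgue_number_lemma_sUnion (S := U) isCompact_univ hU.2.1
    (by rw [hU.2.2])
  rw [uniformity_subtype, mem_comap] at hV
  obtain ⟨V', hV', hVV⟩ := hV
  obtain ⟨E1, hE1, E2, hE2, hsub⟩ := entourageProd_subset hV'
  rw [Pi.uniformity, Filter.mem_iInf'] at hE1
  obtain ⟨I, hI, W, hW, -, hWE, -⟩ := hE1
  have hW' : ∀ i, ∃ t ∈ 𝓤 K, (fun a : (ℤ → K) × (ℤ → K) => (a.1 i, a.2 i)) ⁻¹' t ⊆ W i :=
    fun i => mem_comap.mp (hW i)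
  choose t ht htW using hW'
  obtain ⟨M, hM⟩ : ∃ M : ℕ, ∀ i ∈ I, |i| ≤ M := by
    obtain ⟨M, hM⟩ := (hI.image fun i : ℤ => i.natAbs).bddAbove
    refine ⟨M, fun i hi => ?_⟩
    have := hM (Set.mem_image_of_mem _ hi)
    rw [Int.abs_eq_natAbs]
    exact_mod_cast this
  refine ⟨M, ⋂ i ∈ I, t i, E2, (Filter.biInter_mem hI).mpr fun i _ => ht i, hE2, ?_⟩
  intro p
  obtain ⟨u, hu, hbu⟩ := hVU p (Set.mem_univ p)
  refine ⟨u, hu, fun q hq hq' => ?_⟩
  apply hbu
  apply hVV
  apply hsub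
  refine ⟨?_, hq'⟩
  change (p.1.1, q.1.1) ∈ E1
  rw [hWE]
  simp only [Set.mem_iInter]
  intro i hi
  apply htW i
  have h1 := abs_le.mp (hM i hi)
  have := hq i h1.1 h1.2
  simp only [Set.mem_iInter] at this
  exact this i hi

/-- small covers of a compact uniform space -/
theorem exists_small_cover [CompactSpace K] {E : Set (K × K)} (hE : E ∈ 𝓤 K) :
    ∃ W : Set (Set K), IsFinCover W ∧ ∀ w ∈ W, ∀ x ∈ w, ∀ y ∈ w, (x, y) ∈ E := by
  classical
  obtain ⟨D, hD, hDs, hDE⟩ := comp_symm_mem_uniformity_sets hE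
  obtain ⟨t, ht⟩ := isCompact_univ.elim_nhds_subcover (fun x : K => interior (UniformSpace.ball x D))
    (fun x _ => isOpen_interior.mem_nhds (mem_interior_iff_mem_nhds.mpr
      (UniformSpace.ball_mem_nhds x hD)))
  refine ⟨(fun x => interior (UniformSpace.ball x D)) '' (t : Set K), ⟨?_, ?_, ?_⟩, ?_⟩
  · exact t.finite_toSet.image _
  · rintro _ ⟨x, _, rfl⟩
    exact isOpen_interior
  · rw [Set.eq_univ_iff_forall]
    intro x
    obtain ⟨y, hy, hxy⟩ := Set.mem_iUnion₂.mp (ht.2 (Set.mem_univ x))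
    exact ⟨_, ⟨y, hy, rfl⟩, hxy⟩
  · rintro _ ⟨z, _, rfl⟩ x hx y hy
    apply hDE
    have h1 : x ∈ UniformSpace.ball z D := interior_subset hx
    have h2 : y ∈ UniformSpace.ball z D := interior_subset hy
    exact ⟨z, hDs.symm _ _ h1, h2⟩

end Lebesgue

section Bound

variable {K Ω : Type*} [UniformSpace K] [UniformSpace Ω]

/-- local structure of the base: small clopen pieces -/
theorem exists_signature [CompactSpace Ω] [T2Space Ω] [TotallyDisconnectedSpace Ω] (g : Ω ≃ₜ Ω)
    {O : Set Ω} {c : Ω → K} (hc : ContinuousOn c O) {Uf : Set Ω} (hUf : IsClopen Uf)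
    (hOU : Oᶜ ⊆ Uf) {E : Set (K × K)} (hE : E ∈ 𝓤 K) {E' : Set (Ω × Ω)} (hE' : E' ∈ 𝓤 Ω)
    (J : Finset ℤ) :
    ∃ (ι : Type) (_ : Fintype ι) (sig : Ω → ι), (∀ s, IsOpen (sig ⁻¹' {s})) ∧
      ∀ ω ω' : Ω, sig ω = sig ω' → ∀ i ∈ J, ((g ^ i) ω, (g ^ i) ω') ∈ E' ∧
        ((g ^ i) ω ∈ Uf ↔ (g ^ i) ω' ∈ Uf) ∧
        ((g ^ i) ω ∉ Uf → (c ((g ^ i) ω), c ((g ^ i) ω')) ∈ E) := by
  classical
  obtain ⟨D, hD, hDs, hDE⟩ := comp_symm_mem_uniformity_sets hE
  obtain ⟨D', hD', hDs', hDE'⟩ := comp_symm_mem_uniformity_sets hE'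
  -- good neighbourhoods
  have hloc : ∀ ω : Ω, ∃ R : Set Ω, IsClopen R ∧ ω ∈ R ∧ ∀ ω' ∈ R, ∀ i ∈ J,
      ((g ^ i) ω, (g ^ i) ω') ∈ D' ∧ ((g ^ i) ω ∈ Uf ↔ (g ^ i) ω' ∈ Uf) ∧
        ((g ^ i) ω ∉ Uf → (c ((g ^ i) ω), c ((g ^ i) ω')) ∈ D) := by
    intro ω
    have h1 : ∀ i : ℤ, ∀ᶠ ω' in nhds ω, ((g ^ i) ω, (g ^ i) ω') ∈ D' ∧
        ((g ^ i) ω ∈ Uf ↔ (g ^ i) ω' ∈ Uf) ∧
        ((g ^ i) ω ∉ Uf → (c ((g ^ i) ω), c ((g ^ i) ω')) ∈ D) := by
      intro i
      have hcont : ContinuousAt (fun ω' => (g ^ i) ω') ω := (g ^ i).continuous.continuousAt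
      have a1 : ∀ᶠ ω' in nhds ω, ((g ^ i) ω, (g ^ i) ω') ∈ D' :=
        hcont.eventually (mem_nhds_left _ hD')
      have a2 : ∀ᶠ ω' in nhds ω, ((g ^ i) ω ∈ Uf ↔ (g ^ i) ω' ∈ Uf) := by
        by_cases h : (g ^ i) ω ∈ Uf
        · have := hcont.eventually (hUf.isOpen.mem_nhds h)
          filter_upwards [this] with ω' h'
          exact ⟨fun _ => h', fun _ => h⟩
        · have := hcont.eventually (hUf.compl.isOpen.mem_nhds h)
          filter_upwards [this] with ω' h'
          exact ⟨fun h2 => absurd h2 h, fun h2 => absurd h2 h'⟩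
      have a3 : ∀ᶠ ω' in nhds ω, ((g ^ i) ω ∉ Uf → (c ((g ^ i) ω), c ((g ^ i) ω')) ∈ D) := by
        by_cases h : (g ^ i) ω ∈ Uf
        · exact Filter.Eventually.of_forall fun _ h2 => absurd h h2
        · have hO' : (g ^ i) ω ∈ Ufᶜ := h
          have hsub : Ufᶜ ⊆ O := by
            rw [Set.compl_subset_comm]; exact hOU
          have hn : Ufᶜ ∈ nhds ((g ^ i) ω) := hUf.compl.isOpen.mem_nhds hO'
          have hcc : ContinuousAt c ((g ^ i) ω) :=
            (hc.mono hsub).continuousAt hn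
          have := (hcc.comp hcont).eventually (mem_nhds_left _ hD)
          filter_upwards [this] with ω' h' _
          exact h'
      exact a1.and (a2.and a3)
    have h2 : ∀ᶠ ω' in nhds ω, ∀ i ∈ J, ((g ^ i) ω, (g ^ i) ω') ∈ D' ∧
        ((g ^ i) ω ∈ Uf ↔ (g ^ i) ω' ∈ Uf) ∧
        ((g ^ i) ω ∉ Uf → (c ((g ^ i) ω), c ((g ^ i) ω')) ∈ D) := by
      rw [Filter.eventually_all_finset]
      exact fun i _ => h1 i
    obtain ⟨t, ht, hto, hωt⟩ := eventually_nhds_iff.mp h2
    obtain ⟨R, hR, hωR, hRt⟩ := compact_exists_isClopen_in_isOpen hto hωt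
    exact ⟨R, hR, hωR, fun ω' h' => ht ω' (hRt h')⟩
  choose R hR hωR hRg using hloc
  obtain ⟨t, ht⟩ := isCompact_univ.elim_finite_subcover R (fun ω => (hR ω).isOpen)
    (fun ω _ => Set.mem_iUnion.mpr ⟨ω, hωR ω⟩)
  let sig : Ω → Finset (Fin t.card) := fun ω => Finset.univ.filter fun l => ω ∈ R (t.equivFin.symm l)
  refine ⟨Finset (Fin t.card), inferInstance, sig, ?_, ?_⟩
  · intro s
    have : sig ⁻¹' {s} = (⋂ l ∈ s, R (t.equivFin.symm l)) ∩
        ⋂ l ∈ sᶜ, (R (t.equivFin.symm l))ᶜ := by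
      ext ω
      simp only [Set.mem_preimage, Set.mem_singleton_iff, Set.mem_inter_iff, Set.mem_iInter,
        Set.mem_compl_iff, Finset.mem_compl, sig]
      constructor
      · rintro rfl
        constructor
        · intro l hl; simpa using hl
        · intro l hl; simpa using hl
      · rintro ⟨h1, h2⟩
        ext l
        simp only [Finset.mem_filter, Finset.mem_univ, true_and]
        constructor
        · intro h; by_contra hn; exact h2 l hn h
        · exact h1 l
    rw [this]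
    apply IsOpen.inter
    · exact isOpen_biInter_finset fun l _ => (hR _).isOpen
    · exact isOpen_biInter_finset fun l _ => (hR _).compl.isOpen
  · intro ω ω' hs i hi
    obtain ⟨ω₀, hω₀, hm⟩ := Set.mem_iUnion₂.mp (ht (Set.mem_univ ω))
    have h1 : t.equivFin ⟨ω₀, hω₀⟩ ∈ sig ω := by
      simp only [sig, Finset.mem_filter, Finset.mem_univ, true_and, Equiv.symm_apply_apply]
      exact hm
    rw [hs] at h1
    simp only [sig, Finset.mem_filter, Finset.mem_univ, true_and, Equiv.symm_apply_apply] at h1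
    have a := hRg ω₀ ω hm i hi
    have b := hRg ω₀ ω' h1 i hi
    refine ⟨?_, ?_, ?_⟩
    · apply hDE'
      exact ⟨(g ^ i) ω₀, hDs'.symm _ _ a.1, b.1⟩
    · exact a.2.1.symm.trans b.2.1
    · intro h
      have h0 : (g ^ i) ω₀ ∉ Uf := fun hh => h (a.2.1.mp hh)
      apply hDE
      exact ⟨c ((g ^ i) ω₀), hDs.symm _ _ (a.2.2 h0), b.2.2 h0⟩

open scoped Classical in
/-- a member of the refining cover -/
def fbox {ι : Type} {O : Set Ω} {c : Ω → K} (g : Ω ≃ₜ Ω) (Uf : Set Ω) (J : Finset ℤ) (sig : Ω → ι)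
    (s : ι) (C : J → Set K) : Set (frozenSet g O c) :=
  {p | sig p.1.2 = s ∧ ∀ i : J, (g ^ (i : ℤ)) p.1.2 ∈ Uf → p.1.1 i ∈ C i}

theorem frozen_iterate {O : Set Ω} {c : Ω → K} (g : Ω ≃ₜ Ω) (p : frozenSet g O c) (j : ℕ) :
    (((frozenShift g O c)^[j] p).1.1 = fun i => p.1.1 (i + j)) ∧
      ((frozenShift g O c)^[j] p).1.2 = (g ^ (j : ℤ)) p.1.2 := by
  induction j with
  | zero => simp
  | succ j ih =>
    rw [Function.iterate_succ_apply']
    constructor
    · change (fun i => ((frozenShift g O c)^[j] p).1.1 (i + 1)) = _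
      rw [ih.1]
      funext i
      have : i + 1 + (j : ℤ) = i + ((j + 1 : ℕ) : ℤ) := by push_cast; ring
      simp only [this]
    · change g ((frozenShift g O c)^[j] p).1.2 = _
      rw [ih.2]
      push_cast
      rw [add_comm, zpow_one_add]
      rfl

theorem coverD_join_le [CompactSpace K] [T2Space K] [CompactSpace Ω] [T2Space Ω]
    [TotallyDisconnectedSpace Ω] (g : Ω ≃ₜ Ω) {O : Set Ω}
    (hO : IsOpen O) {c : Ω → K} (hc : ContinuousOn c O) {U : Set (Set (frozenSet g O c))}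
    (hU : IsFinCover U) :
    ∃ (W : Set (Set K)) (L : ℕ), IsFinCover W ∧ ∀ Uf : Set Ω, IsClopen Uf → Oᶜ ⊆ Uf → ∀ N : ℕ,
      coverD (coverJoin (frozenShift g O c) U N) ≤ coverD W * maxVisits g Uf (N + L) := by
  classical
  obtain ⟨M, E, E', hE, hE', hwin⟩ := exists_window g hO hc hU
  obtain ⟨W, hW, hWE⟩ := exists_small_cover hE
  refine ⟨W, 2 * M + 1, hW, fun Uf hUf hOU N => ?_⟩
  set q := coverD W with hq
  set m := maxVisits g Uf (N + (2 * M + 1)) with hm
  obtain ⟨V, hV, hVr, hVo⟩ := exists_refinement hW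
  obtain ⟨C, hC⟩ := exists_colored (q := q) hV hVr (fun x S hS hx => by
    have := card_le_of_order hV.1 x S hS hx
    rw [hVo] at this
    exact this) (q * m + 1)
  -- the window
  set J : Finset ℤ := Finset.Icc (-(M : ℤ)) (N + M) with hJ
  obtain ⟨ι, hι, sig, hsig, hsig2⟩ := exists_signature g hc hUf hOU hE hE' J
  -- number of free positions
  have hfree : ∀ ω : Ω, (J.filter fun i => (g ^ i) ω ∈ Uf).card ≤ m := by
    intro ω
    have h1 : (J.filter fun i => (g ^ i) ω ∈ Uf).card =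
        visits g Uf (N + (2 * M + 1)) ((g ^ (-(M : ℤ))) ω) := by
      unfold visits
      symm
      apply Finset.card_bij (fun (j : ℕ) _ => ((j : ℤ) - M))
      · intro j hj
        rw [Finset.mem_filter, Finset.mem_range] at hj
        rw [Finset.mem_filter, hJ, Finset.mem_Icc]
        refine ⟨⟨by omega, by omega⟩, ?_⟩
        have : (g ^ ((j : ℤ) - M)) ω = (g ^ (j : ℤ)) ((g ^ (-(M : ℤ))) ω) := by
          rw [sub_eq_add_neg, zpow_add]; rfl
        rw [this]
        exact hj.2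
      · intro j hj j' hj' h
        have : (j : ℤ) = j' := by linarith
        exact_mod_cast this
      · intro i hi
        rw [Finset.mem_filter, hJ, Finset.mem_Icc] at hi
        refine ⟨(i + M).toNat, ?_, ?_⟩
        · rw [Finset.mem_filter, Finset.mem_range]
          have hnn : 0 ≤ i + M := by linarith [hi.1.1]
          refine ⟨by omega, ?_⟩
          have : (g ^ (((i + M).toNat : ℕ) : ℤ)) ((g ^ (-(M : ℤ))) ω) = (g ^ i) ω := by
            rw [Int.toNat_of_nonneg hnn]
            change ((g ^ (i + M)) * (g ^ (-(M : ℤ)))) ω = _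
            rw [← zpow_add]
            congr 2
            ring
          rw [this]
          exact hi.2
        · have hnn : 0 ≤ i + M := by linarith [hi.1.1]
          rw [Int.toNat_of_nonneg hnn]
          ring
    rw [h1]
    exact visits_le_max _ _ _ _
  -- the cover
  let VV : Set (Set (frozenSet g O c)) := {s | s.Nonempty ∧ ∃ (σ : ι) (k : Fin (q * m + 1))
    (D : J → Set K), (∀ i, D i ∈ insert ∅ (C k)) ∧ s = fbox g Uf J sig σ D}
  have hopen : ∀ (σ : ι) (D : J → Set K), (∀ i, IsOpen (D i)) →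
      IsOpen (fbox (O := O) (c := c) g Uf J sig σ D) := by
    intro σ D hD
    have h1 : fbox (O := O) (c := c) g Uf J sig σ D =
        {p : frozenSet g O c | p.1.2 ∈ sig ⁻¹' {σ}} ∩
        ⋂ i : J, ({p : frozenSet g O c | (g ^ (i : ℤ)) p.1.2 ∈ Ufᶜ} ∪
          {p : frozenSet g O c | p.1.1 i ∈ D i}) := by
      ext p
      simp only [fbox, Set.mem_setOf_eq, Set.mem_inter_iff, Set.mem_preimage,
        Set.mem_singleton_iff, Set.mem_iInter, Set.mem_union, Set.mem_compl_iff]
      constructor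
      · rintro ⟨h1, h2⟩
        refine ⟨h1, fun i => ?_⟩
        by_cases h : (g ^ (i : ℤ)) p.1.2 ∈ Uf
        · exact Or.inr (h2 i h)
        · exact Or.inl h
      · rintro ⟨h1, h2⟩
        refine ⟨h1, fun i h => ?_⟩
        exact (h2 i).resolve_left (not_not.mpr h)
    rw [h1]
    apply IsOpen.inter
    · exact (hsig σ).preimage (continuous_snd.comp continuous_subtype_val)
    · apply isOpen_iInter_of_finite
      intro i
      apply IsOpen.union
      · exact hUf.compl.isOpen.preimage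
          ((g ^ (i : ℤ)).continuous.comp (continuous_snd.comp continuous_subtype_val))
      · exact (hD i).preimage
          ((continuous_apply (i : ℤ)).comp (continuous_fst.comp continuous_subtype_val))
  have hVVfin : VV.Finite := by
    have hsub : VV ⊆ ⋃ (σ : ι), ⋃ (k : Fin (q * m + 1)),
        (fun D : J → Set K => fbox g Uf J sig σ D) '' {D | ∀ i, D i ∈ insert ∅ (C k)} := by
      rintro s ⟨_, σ, k, D, hD, rfl⟩
      rw [Set.mem_iUnion]
      refine ⟨σ, ?_⟩
      rw [Set.mem_iUnion]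
      exact ⟨k, D, hD, rfl⟩
    apply Set.Finite.subset _ hsub
    apply Set.finite_iUnion
    intro σ
    apply Set.finite_iUnion
    intro k
    apply Set.Finite.image
    exact Set.Finite.pi' fun i => (hC.fin k).insert ∅
  have hVVcov : IsFinCover VV := by
    refine ⟨hVVfin, ?_, ?_⟩
    · rintro s ⟨_, σ, k, D, hD, rfl⟩
      apply hopen
      intro i
      rcases hD i with h | h
      · rw [h]; exact isOpen_empty
      · exact hC.op k _ h
    · rw [Set.eq_univ_iff_forall]
      intro p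
      -- choose a colour
      set J' := J.filter fun i => (g ^ i) p.1.2 ∈ Uf with hJ'
      have hcol : ∃ k : Fin (q * m + 1), ∀ i ∈ J', p.1.1 i ∈ ⋃₀ C k := by
        by_contra hcon
        push Not at hcon
        have h1 : ∑ k : Fin (q * m + 1), ∑ i ∈ J', (if p.1.1 i ∈ ⋃₀ C k then 0 else 1) ≤ q * m := by
          rw [Finset.sum_comm]
          calc ∑ i ∈ J', ∑ k : Fin (q * m + 1), (if p.1.1 i ∈ ⋃₀ C k then 0 else 1)
              ≤ ∑ _i ∈ J', q := Finset.sum_le_sum fun i _ => hC.miss (p.1.1 i)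
            _ = J'.card * q := by rw [Finset.sum_const, smul_eq_mul]
            _ ≤ m * q := Nat.mul_le_mul_right _ (hfree _)
            _ = q * m := mul_comm _ _
        have h2 : ∑ _k : Fin (q * m + 1), 1 ≤ ∑ k : Fin (q * m + 1), ∑ i ∈ J',
            (if p.1.1 i ∈ ⋃₀ C k then 0 else 1) := by
          apply Finset.sum_le_sum
          intro k _
          obtain ⟨i, hi, hik⟩ := hcon k
          calc 1 = (if p.1.1 i ∈ ⋃₀ C k then 0 else 1) := by rw [if_neg hik]
            _ ≤ _ := Finset.single_le_sum (f := fun i => if p.1.1 i ∈ ⋃₀ C k then 0 else 1)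
                (fun _ _ => Nat.zero_le _) hi
        simp only [Finset.sum_const, Finset.card_univ, Fintype.card_fin, smul_eq_mul,
          mul_one] at h2
        omega
      obtain ⟨k, hk⟩ := hcol
      let D : J → Set K := fun i => if h : p.1.1 i ∈ ⋃₀ C k then h.choose else ∅
      have hD : ∀ i, D i ∈ insert ∅ (C k) := by
        intro i
        simp only [D]
        split_ifs with h
        · exact Set.mem_insert_of_mem _ h.choose_spec.1
        · exact Set.mem_insert _ _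
      have hp : p ∈ fbox g Uf J sig (sig p.1.2) D := by
        refine ⟨rfl, fun i hi => ?_⟩
        have h : p.1.1 i ∈ ⋃₀ C k := hk i (by
          rw [hJ', Finset.mem_filter]; exact ⟨i.2, hi⟩)
        simp only [D]
        rw [dif_pos h]
        exact h.choose_spec.2
      exact ⟨_, ⟨⟨p, hp⟩, sig p.1.2, k, D, hD, rfl⟩, hp⟩
  have hVVref : Refines VV (coverJoin (frozenShift g O c) U N) := by
    rintro s ⟨⟨p, hp⟩, σ, k, D, hD, rfl⟩
    have hu : ∀ j : Fin N, ∃ u ∈ U, ∀ q : frozenSet g O c,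
        (∀ i : ℤ, -(M : ℤ) ≤ i → i ≤ M →
          (((frozenShift g O c)^[(j : ℕ)] p).1.1 i, q.1.1 i) ∈ E) →
        (((frozenShift g O c)^[(j : ℕ)] p).1.2, q.1.2) ∈ E' → q ∈ u := fun j =>
      hwin ((frozenShift g O c)^[(j : ℕ)] p)
    choose f hf hf2 using hu
    refine ⟨⋂ j : Fin N, (⇑(frozenShift g O c))^[(j : ℕ)] ⁻¹' f j, ⟨f, hf, rfl⟩, ?_⟩
    intro p' hp'
    rw [Set.mem_iInter]
    intro j
    apply hf2 j
    · intro i hi1 hi2
      rw [(frozen_iterate g p j).1, (frozen_iterate g p' j).1]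
      have hiJ : i + (j : ℕ) ∈ J := by
        rw [hJ, Finset.mem_Icc]
        have := j.2
        constructor <;> omega
      have hs := hsig2 p.1.2 p'.1.2 (hp.1.trans hp'.1.symm) (i + (j : ℕ)) hiJ
      by_cases hU' : (g ^ (i + (j : ℕ) : ℤ)) p.1.2 ∈ Uf
      · have a := hp.2 ⟨i + (j : ℕ), hiJ⟩ hU'
        have b := hp'.2 ⟨i + (j : ℕ), hiJ⟩ (hs.2.1.mp hU')
        have hDi := hD ⟨i + (j : ℕ), hiJ⟩
        rcases hDi with h | h
        · rw [h] at a; exact absurd a (Set.notMem_empty _)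
        · obtain ⟨w, hw, hDw⟩ := hC.ref k _ h
          exact hWE w hw _ (hDw a) _ (hDw b)
      · have hUO : Ufᶜ ⊆ O := by rw [Set.compl_subset_comm]; exact hOU
        have a := p.2 (i + (j : ℕ)) (hUO hU')
        have b := p'.2 (i + (j : ℕ)) (hUO (fun h => hU' (hs.2.1.mpr h)))
        change (p.1.1 (i + (j : ℕ)), p'.1.1 (i + (j : ℕ))) ∈ E
        rw [a, b]
        exact hs.2.2 hU'
    · rw [(frozen_iterate g p j).2, (frozen_iterate g p' j).2]
      have hjJ : ((j : ℕ) : ℤ) ∈ J := by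
        rw [hJ, Finset.mem_Icc]
        have := j.2
        constructor <;> omega
      exact (hsig2 p.1.2 p'.1.2 (hp.1.trans hp'.1.symm) _ hjJ).1
  have hVVord : coverOrder VV ≤ q * m := by
    apply order_le
    rintro S hS ⟨p, hp⟩
    have hcol : ∀ s : S, ∃ k : Fin (q * m + 1), ∃ (σ : ι) (D : J → Set K),
        (∀ i, D i ∈ insert ∅ (C k)) ∧ (s : Set (frozenSet g O c)) = fbox g Uf J sig σ D := by
      intro s
      obtain ⟨_, σ, k, D, hD, hs⟩ := hS s.2
      exact ⟨k, σ, D, hD, hs⟩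
    choose k σ D hD hs using hcol
    have hinj : Function.Injective k := by
      intro s s' hk
      apply Subtype.ext
      have hps : p ∈ fbox g Uf J sig (σ s) (D s) := by rw [← hs]; exact hp s s.2
      have hps' : p ∈ fbox g Uf J sig (σ s') (D s') := by rw [← hs]; exact hp s' s'.2
      rw [hs, hs]
      have hσ : σ s = σ s' := hps.1.symm.trans hps'.1
      have hDD : ∀ i : J, (g ^ (i : ℤ)) p.1.2 ∈ Uf → D s i = D s' i := by
        intro i hi
        have a := hps.2 i hi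
        have b := hps'.2 i hi
        have h1 := hD s i
        have h2 := hD s' i
        rcases h1 with h1 | h1
        · rw [h1] at a; exact absurd a (Set.notMem_empty _)
        · rcases h2 with h2 | h2
          · rw [h2] at b; exact absurd b (Set.notMem_empty _)
          · rw [← hk] at h2
            exact hC.disj (k s) _ h1 _ h2 ⟨_, a, b⟩
      ext p'
      constructor
      · rintro ⟨h1, h2⟩
        refine ⟨by rw [h1, hσ], fun i hi => ?_⟩
        have hs' := hsig2 p.1.2 p'.1.2 (hps.1.trans h1.symm) i i.2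
        rw [← hDD i (hs'.2.1.mpr hi)]
        exact h2 i hi
      · rintro ⟨h1, h2⟩
        refine ⟨by rw [h1, hσ], fun i hi => ?_⟩
        have hs' := hsig2 p.1.2 p'.1.2 (hps'.1.trans h1.symm) i i.2
        rw [hDD i (hs'.2.1.mpr hi)]
        exact h2 i hi
    have := Fintype.card_le_of_injective k hinj
    simpa using this
  exact coverD_le hVVcov hVVref hVVord

end Bound

end

end Vale.Agent.P093
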