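import Mathlib.Topology.Homeomorph.Defs
import Mathlib.Topology.Instances.ENNReal.Lemmas
import Mathlib.Order.LiminfLimsup

/-!
Mean topological dimension of a homeomorphism, exactly as in the problem statement.
-/

open Set Filter
open scoped ENNReal

namespace Vale.Agent.P093

noncomputable section

variable {X : Type*} [TopologicalSpace X]

/-- a finite open cover of `X`, given as a set of subsets -/
def IsFinCover (U : Set (Set X)) : Prop :=
  U.Finite ∧ (∀ u ∈ U, IsOpen u) ∧ ⋃₀ U = Set.univ

/-- every member of `V` is contained in a member of `U` -/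
def Refines (V U : Set (Set X)) : Prop := ∀ v ∈ V, ∃ u ∈ U, v ⊆ u

/-- one less than the largest number of members with nonempty common intersection -/
def coverOrder (V : Set (Set X)) : ℕ :=
  sSup {k | ∃ S : Finset (Set X), ↑S ⊆ V ∧ (⋂₀ (S : Set (Set X))).Nonempty ∧ S.card = k} - 1

/-- the least order of a finite open refinement of `U` -/
def coverD (U : Set (Set X)) : ℕ :=
  sInf {k | ∃ V : Set (Set X), IsFinCover V ∧ Refines V U ∧ coverOrder V = k}

/-- the join of the preimages of `U` under `h ^ j`, for `0 ≤ j < N` -/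
def coverJoin (h : X ≃ₜ X) (U : Set (Set X)) (N : ℕ) : Set (Set X) :=
  {s | ∃ f : Fin N → Set X, (∀ j, f j ∈ U) ∧ s = ⋂ j : Fin N, (⇑h)^[(j : ℕ)] ⁻¹' f j}

/-- mean dimension -/
def mdim (h : X ≃ₜ X) : ℝ≥0∞ :=
  ⨆ (U : Set (Set X)) (_ : IsFinCover U),
    limsup (fun N : ℕ => (coverD (coverJoin h U N) : ℝ≥0∞) / (N : ℝ≥0∞)) atTop

/-- covering dimension, as an element of `[0, ∞]` -/
def covDim (K : Type*) [TopologicalSpace K] : ℝ≥0∞ :=
  ⨆ (U : Set (Set K)) (_ : IsFinCover U), (coverD U : ℝ≥0∞)

end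

end Vale.Agent.P093
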