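import Vale.Agent.P093.Core
import Vale.Agent.P093.LemmaT
open Filter Topology Set
open scoped ENNReal ComplexOrder
set_option linter.unusedSectionVars false
set_option linter.unusedSimpArgs false
namespace Vale.Agent.P093

/-- a polynomial with coefficient vector `w` vanishing at `t + 1` distinct points is zero -/
theorem vandermonde_zero {P : Type*} (S : Finset P) (ζ : P → ℂ) (hζ : Function.Injective ζ)
    {t : ℕ} (ht : t < S.card) (w : Fin (t + 1) → ℂ)
    (hw : ∀ p ∈ S, ∑ a : Fin (t + 1), w a * ζ p ^ (a : ℕ) = 0) : w = 0 := by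
  classical
  set Q : Polynomial ℂ := ∑ a : Fin (t + 1), Polynomial.C (w a) * Polynomial.X ^ (a : ℕ) with hQ
  have hdeg : Q.natDegree ≤ t := by
    refine Polynomial.natDegree_sum_le_of_forall_le _ _ fun a _ => ?_
    refine (Polynomial.natDegree_C_mul_X_pow_le _ _).trans ?_
    omega
  have hQ0 : Q = 0 := by
    by_contra hne
    have h1 : S.image ζ ⊆ Q.roots.toFinset := by
      intro x hx
      rw [Finset.mem_image] at hx
      obtain ⟨p, hp, rfl⟩ := hx
      rw [Multiset.mem_toFinset, Polynomial.mem_roots hne, Polynomial.IsRoot.def, hQ,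
        Polynomial.eval_finsetSum]
      simpa using hw p hp
    have h2 := (Finset.card_le_card h1).trans
      ((Multiset.toFinset_card_le _).trans (Polynomial.card_roots' _))
    rw [Finset.card_image_of_injective _ hζ] at h2
    omega
  funext a
  have h3 : Q.coeff a = w a := by
    rw [hQ, Polynomial.finsetSum_coeff]
    simp only [Polynomial.coeff_C_mul, Polynomial.coeff_X_pow]
    rw [Finset.sum_eq_single a]
    · simp
    · intro b _ hb
      have : (a : ℕ) ≠ b := fun h => hb (Fin.ext h.symm)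
      simp [this]
    · simp
  rw [← h3, hQ0]
  simp

variable {X : Type*} [TopologicalSpace X] [CompactSpace X]

theorem nc (h : X ≃ₜ X) {m n : ℕ} (β : Fin m → Fin m → C(X, ℂ)) (g : Fin n → C(X, ℝ))
    (hle : CuntzLE (diagMat h (fun l => ⟨fun x => (g l x : ℂ), by fun_prop⟩)) (fullMat h β)) :
    ∃ R : ℕ, ∀ (N M t : ℕ) (ψ : (Fin M → S2) → X), Continuous ψ →
      ∀ (B₁ : (Fin N × Fin m → ℂ) →ₗ[ℂ] (Fin M × Fin 2 → ℂ))
        (B₂ : (Fin N × Fin m → ℂ) →ₗ[ℂ] (Fin t → ℂ)),
      (∀ v u, (∀ i, (hopf (v i)).mulVec (fun e => B₁ u (i, e)) = 0) → B₂ u = 0 →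
        ∀ (j : Fin N) k, ∑ k', β k k' ((h ^ ((j : ℕ) : ℤ)) (ψ v)) * u (j, k') = 0) →
      ∃ v, (Finset.univ.filter (fun p : Fin N × Fin n => R ≤ (p.1 : ℕ) ∧ (p.1 : ℕ) + R < N ∧
        g p.2 ((h ^ ((p.1 : ℕ) : ℤ)) (ψ v)) = 1)).card ≤ t := by
  classical
  obtain ⟨R, K, hcore⟩ := core h β g hle
  refine ⟨R, fun N M t ψ hψ B₁ B₂ hB => ?_⟩
  set I : Finset ℤ := Finset.Ico (R : ℤ) (N - R) with hI
  let φ : ℝ → ℝ := fun s => max 0 (s - 3 / 4)
  have hφ : Continuous φ := by fun_prop
  let node : ℤ → Fin n → ℂ := fun j l => (j : ℂ) * n + (l : ℕ)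
  -- the column number `a` of the vector `z`
  let zc : X → Fin (t + 1) → ℤ → Fin n → ℂ := fun x a j l =>
    (φ (g l ((h ^ j) x)) : ℂ) * node j l ^ (a : ℕ)
  have hcont_h : ∀ j : ℤ, Continuous fun x : X => (h ^ j) x := fun j => (h ^ j).continuous
  have hzc : ∀ a j l, Continuous fun x => zc x a j l := by
    intro a j l
    have := (g l).continuous.comp (hcont_h j)
    fun_prop
  let U : X → Matrix (Fin N × Fin m) (Fin (t + 1)) ℂ := fun x => Matrix.of fun p a =>
    ∑ l, ∑ j ∈ I, if ((p.1 : ℕ) : ℤ) ∈ Finset.Icc (j - (R:ℤ)) (j + R) then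
      K p.2 l ((p.1 : ℕ) : ℤ) j x * zc x a j l else 0
  have hU : Continuous U := by
    refine continuous_matrix fun p a => ?_
    change Continuous fun x => ∑ l, ∑ j ∈ I, if ((p.1 : ℕ) : ℤ) ∈ Finset.Icc (j - (R:ℤ)) (j + R)
      then K p.2 l ((p.1 : ℕ) : ℤ) j x * zc x a j l else 0
    refine continuous_finsetSum _ fun l _ => continuous_finsetSum _ fun j _ => ?_
    by_cases hc : ((p.1 : ℕ) : ℤ) ∈ Finset.Icc (j - (R:ℤ)) (j + R)
    · simp only [if_pos hc]
      exact ((K p.2 l ((p.1 : ℕ) : ℤ) j).continuous).mul (hzc a j l)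
    · simp only [if_neg hc]
      exact continuous_const
  let A : (Fin M → S2) → Matrix (Fin M × Fin 2 ⊕ Fin t) (Fin (t + 1)) ℂ := fun v =>
    Matrix.of fun r a => Sum.elim (B₁ (fun p => U (ψ v) p a)) (B₂ (fun p => U (ψ v) p a)) r
  have hcol : ∀ a, Continuous fun v : Fin M → S2 => (fun p => U (ψ v) p a) := by
    intro a
    refine continuous_pi fun p => ?_
    exact ((continuous_apply_apply p a).comp hU).comp hψ
  have hA : Continuous A := by
    refine continuous_matrix fun r a => ?_
    rcases r with r | r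
    · exact (continuous_apply r).comp ((LinearMap.continuous_of_finiteDimensional B₁).comp (hcol a))
    · exact (continuous_apply r).comp ((LinearMap.continuous_of_finiteDimensional B₂).comp (hcol a))
  obtain ⟨v, w, hw, h1, h2⟩ := lemmaT A hA
  refine ⟨v, ?_⟩
  by_contra hcard
  rw [not_le] at hcard
  apply hw
  -- the vector u
  set u : Fin N × Fin m → ℂ := (U (ψ v)).mulVec w with hu
  have husum : u = ∑ a, w a • (fun p => U (ψ v) p a) := by
    funext p
    rw [hu, Matrix.mulVec, Finset.sum_apply]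
    simp only [dotProduct, Pi.smul_apply, smul_eq_mul]
    exact Finset.sum_congr rfl fun a _ => mul_comm _ _
  have hB₁ : ∀ i e, (A v).mulVec w (Sum.inl (i, e)) = B₁ u (i, e) := by
    intro i e
    rw [husum, map_sum, Finset.sum_apply]
    simp only [map_smul, Pi.smul_apply, smul_eq_mul]
    simp only [Matrix.mulVec, dotProduct, A, Matrix.of_apply, Sum.elim_inl]
    exact Finset.sum_congr rfl fun a _ => mul_comm _ _
  have hB₂ : ∀ i, (A v).mulVec w (Sum.inr i) = B₂ u i := by
    intro i
    rw [husum, map_sum, Finset.sum_apply]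
    simp only [map_smul, Pi.smul_apply, smul_eq_mul]
    simp only [Matrix.mulVec, dotProduct, A, Matrix.of_apply, Sum.elim_inr]
    exact Finset.sum_congr rfl fun a _ => mul_comm _ _
  have hzero := hB v u (fun i => by
      have := h1 i
      simp_rw [hB₁] at this
      exact this) (by
      funext i
      rw [← hB₂]
      exact h2 i)
  let z : ℤ → Fin n → ℂ := fun j l => ∑ a, zc (ψ v) a j l * w a
  have hz := hcore (ψ v) I z (by
    intro j _ l hne
    by_contra hlt
    rw [not_le] at hlt
    apply hne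
    have : φ (g l ((h ^ j) (ψ v))) = 0 := by
      simp only [φ]
      exact max_eq_left (by linarith)
    simp only [z, zc, this]
    simp) (by
    intro i κ
    by_cases hi : 0 ≤ i ∧ i < N
    · obtain ⟨i', hi'⟩ : ∃ i' : Fin N, ((i' : ℕ) : ℤ) = i :=
        ⟨⟨i.toNat, by omega⟩, by simp; omega⟩
      have h3 := hzero i' κ
      rw [← hi']
      refine Eq.trans ?_ h3
      refine Finset.sum_congr rfl fun κ' _ => ?_
      congr 1
      have h5 : u (i', κ') = ∑ a, U (ψ v) (i', κ') a * w a := rfl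
      rw [h5]
      simp only [U, Matrix.of_apply, Finset.sum_mul]
      conv_rhs => rw [Finset.sum_comm]
      refine Finset.sum_congr rfl fun l _ => ?_
      conv_rhs => rw [Finset.sum_comm]
      refine Finset.sum_congr rfl fun j _ => ?_
      split_ifs with h4
      · simp only [z, Finset.mul_sum]
        refine Finset.sum_congr rfl fun a _ => ?_
        ring
      · simp
    · refine Finset.sum_eq_zero fun κ' _ => ?_
      have : ∀ l : Fin n, ∀ j ∈ I, (if i ∈ Finset.Icc (j - (R:ℤ)) (j + R) then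
          K κ' l i j (ψ v) * z j l else 0) = 0 := by
        intro l j hj
        rw [if_neg]
        rw [Finset.mem_Icc]
        rw [hI, Finset.mem_Ico] at hj
        intro hc
        apply hi
        constructor <;> omega
      rw [Finset.sum_eq_zero fun l _ => Finset.sum_eq_zero fun j hj => this l j hj, mul_zero])
  refine vandermonde_zero _ (fun p : Fin N × Fin n => node (p.1 : ℕ) p.2) ?_ hcard w ?_
  · rintro ⟨j, l⟩ ⟨j', l'⟩ hjl
    simp only [node] at hjl
    have h6 : (j : ℕ) * n + l = (j' : ℕ) * n + l' := by exact_mod_cast hjl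
    have hn : 0 < n := l.pos
    have h7 : (j : ℕ) = j' := by
      have e1 : ((j : ℕ) * n + l) / n = j := by
        rw [mul_comm, Nat.mul_add_div hn, Nat.div_eq_of_lt l.2, add_zero]
      have e2 : ((j' : ℕ) * n + l') / n = j' := by
        rw [mul_comm, Nat.mul_add_div hn, Nat.div_eq_of_lt l'.2, add_zero]
      rw [← e1, ← e2, h6]
    rw [h7] at h6
    have h8 : (l : ℕ) = l' := by omega
    exact Prod.ext (Fin.ext h7) (Fin.ext h8)
  · rintro ⟨j, l⟩ hp
    rw [Finset.mem_filter] at hp
    obtain ⟨-, hj1, hj2, hg⟩ := hp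
    simp only at hj1 hj2
    have h9 := hz ((j : ℕ) : ℤ) (by rw [hI, Finset.mem_Ico]; omega) l
    have h10 : φ (g l ((h ^ ((j : ℕ) : ℤ)) (ψ v))) = 1 / 4 := by
      simp only at hg
      simp only [φ, hg]
      norm_num
    simp only [z, zc, h10] at h9
    have h11 : ∑ a : Fin (t + 1), ((1 / 4 : ℝ) : ℂ) * node ((j : ℕ) : ℤ) l ^ (a : ℕ) * w a =
        ((1 / 4 : ℝ) : ℂ) * ∑ a : Fin (t + 1), w a * node ((j : ℕ) : ℤ) l ^ (a : ℕ) := by
      rw [Finset.mul_sum]
      refine Finset.sum_congr rfl fun a _ => ?_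
      ring
    rw [h11] at h9
    rcases mul_eq_zero.1 h9 with h12 | h12
    · exfalso
      rw [Complex.ofReal_eq_zero] at h12
      norm_num at h12
    · exact h12

end Vale.Agent.P093
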