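import Vale.Agent.P093.Torus

/-!
The continuous version of the obstruction.
-/

namespace Vale.Agent.P093

noncomputable section

variable {n M : ℕ}

/-- matrix times vector -/
def mv {a : Type*} (A : Matrix a (Fin (M + 1)) ℂ) (w : Fin (M + 1) → ℂ) (i : a) : ℂ :=
  ∑ k, A i k * w k

/-- the bundle map applied to a vector -/
def bm (z : Fin n → Tor) (A : Matrix (Fin n × Fin 2 ⊕ Fin M) (Fin (M + 1)) ℂ)
    (w : Fin (M + 1) → ℂ) : (Fin n → Fin 2 → ℂ) × (Fin M → ℂ) :=
  (fun l => (pb (z l)).mulVec fun a => mv A w (Sum.inl (l, a)), fun j => mv A w (Sum.inr j))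

theorem pb_bound : ∃ C : ℝ, 0 ≤ C ∧ ∀ z a b, ‖pb z a b‖ ≤ C := by
  have h : ∀ a b : Fin 2, ∃ C : ℝ, ∀ z, ‖pb z a b‖ ≤ C := by
    intro a b
    have hc : Continuous fun z => pb z a b := by
      have := pb_continuous
      exact (continuous_apply b).comp ((continuous_apply a).comp this)
    obtain ⟨C, hC⟩ := isCompact_univ.exists_bound_of_continuousOn hc.continuousOn
    exact ⟨C, fun z => hC z (Set.mem_univ z)⟩
  choose C hC using h
  refine ⟨∑ a, ∑ b, |C a b|, by positivity, fun z a b => ?_⟩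
  calc ‖pb z a b‖ ≤ |C a b| := (hC a b z).trans (le_abs_self _)
    _ ≤ ∑ b, |C a b| := Finset.single_le_sum (f := fun b => |C a b|)
        (fun i _ => abs_nonneg _) (Finset.mem_univ b)
    _ ≤ _ := Finset.single_le_sum (f := fun a => ∑ b, |C a b|)
        (fun i _ => Finset.sum_nonneg fun _ _ => abs_nonneg _) (Finset.mem_univ a)

theorem bm_sub_le {C ε : ℝ} (hC0 : 0 ≤ C) (hC : ∀ z a b, ‖pb z a b‖ ≤ C) (hε : 0 ≤ ε)
    (z : Fin n → Tor) (A B : Matrix (Fin n × Fin 2 ⊕ Fin M) (Fin (M + 1)) ℂ)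
    (hAB : ∀ a i, ‖A a i - B a i‖ ≤ ε) (w : Fin (M + 1) → ℂ) (hw : ‖w‖ = 1) :
    ‖bm z A w - bm z B w‖ ≤ (2 * C + 1) * ((M + 1) * ε) := by
  have hdiff : ∀ a, ‖mv A w a - mv B w a‖ ≤ (M + 1) * ε := by
    intro a
    unfold mv
    rw [← Finset.sum_sub_distrib]
    calc ‖∑ k, (A a k * w k - B a k * w k)‖ ≤ ∑ k, ‖A a k * w k - B a k * w k‖ :=
          norm_sum_le _ _
      _ ≤ ∑ _k : Fin (M + 1), ε := by
          apply Finset.sum_le_sum
          intro k _
          rw [← sub_mul, norm_mul]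
          have h1 : ‖w k‖ ≤ 1 := (norm_le_pi_norm w k).trans hw.le
          calc ‖A a k - B a k‖ * ‖w k‖ ≤ ε * 1 :=
                mul_le_mul (hAB a k) h1 (norm_nonneg _) hε
            _ = ε := mul_one _
      _ = (M + 1) * ε := by simp
  have hη : (0 : ℝ) ≤ (M + 1) * ε := by positivity
  rw [Prod.norm_def, max_le_iff]
  constructor
  · rw [pi_norm_le_iff_of_nonneg (by positivity)]
    intro l
    rw [pi_norm_le_iff_of_nonneg (by positivity)]
    intro a
    change ‖(pb (z l)).mulVec (fun a => mv A w (Sum.inl (l, a))) a -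
      (pb (z l)).mulVec (fun a => mv B w (Sum.inl (l, a))) a‖ ≤ _
    unfold Matrix.mulVec dotProduct
    rw [← Finset.sum_sub_distrib]
    calc ‖∑ b, (pb (z l) a b * mv A w (Sum.inl (l, b)) -
          pb (z l) a b * mv B w (Sum.inl (l, b)))‖
        ≤ ∑ b, ‖pb (z l) a b * mv A w (Sum.inl (l, b)) -
          pb (z l) a b * mv B w (Sum.inl (l, b))‖ := norm_sum_le _ _
      _ ≤ ∑ _b : Fin 2, C * ((M + 1) * ε) := by
          apply Finset.sum_le_sum
          intro b _
          rw [← mul_sub, norm_mul]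
          exact mul_le_mul (hC _ _ _) (hdiff _) (norm_nonneg _) hC0
      _ = 2 * C * ((M + 1) * ε) := by simp; ring
      _ ≤ _ := by
          apply mul_le_mul_of_nonneg_right _ hη
          linarith
  · rw [pi_norm_le_iff_of_nonneg (by positivity)]
    intro j
    change ‖mv A w (Sum.inr j) - mv B w (Sum.inr j)‖ ≤ _
    refine (hdiff _).trans ?_
    have : (1 : ℝ) ≤ 2 * C + 1 := by linarith
    nlinarith

theorem bm_smul (z : Fin n → Tor) (A : Matrix (Fin n × Fin 2 ⊕ Fin M) (Fin (M + 1)) ℂ)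
    (w : Fin (M + 1) → ℂ) (c : ℂ) (h : bm z A w = 0) : bm z A (c • w) = 0 := by
  have hmvs : ∀ a, mv A (c • w) a = c * mv A w a := by
    intro a
    unfold mv
    rw [Finset.mul_sum]
    apply Finset.sum_congr rfl
    intro k _
    simp only [Pi.smul_apply, smul_eq_mul]
    ring
  unfold bm at h ⊢
  rw [Prod.mk_eq_zero] at h ⊢
  constructor
  · funext l
    have h1 := congrFun h.1 l
    have h2 : (fun a => mv A (c • w) (Sum.inl (l, a))) =
        c • fun a => mv A w (Sum.inl (l, a)) := by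
      funext a
      rw [hmvs]
      rfl
    change (pb (z l)).mulVec (fun a => mv A (c • w) (Sum.inl (l, a))) = 0
    rw [h2, Matrix.mulVec_smul]
    have h3 : (pb (z l)).mulVec (fun a => mv A w (Sum.inl (l, a))) = 0 := h1
    rw [h3, smul_zero]
  · funext j
    have h1 : mv A w (Sum.inr j) = 0 := congrFun h.2 j
    change mv A (c • w) (Sum.inr j) = 0
    rw [hmvs, h1, mul_zero]

theorem bm_continuous (V : (Fin n → Tor) → Matrix (Fin n × Fin 2 ⊕ Fin M) (Fin (M + 1)) ℂ)
    (hV : Continuous V) :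
    Continuous fun q : (Fin n → Tor) × (Fin (M + 1) → ℂ) => bm q.1 (V q.1) q.2 := by
  have hVe : ∀ a i, Continuous fun z => V z a i := fun a i =>
    (continuous_apply i).comp ((continuous_apply a).comp hV)
  have hmv : ∀ a, Continuous fun q : (Fin n → Tor) × (Fin (M + 1) → ℂ) => mv (V q.1) q.2 a := by
    intro a
    unfold mv
    apply continuous_finset_sum
    intro k _
    exact ((hVe a k).comp continuous_fst).mul ((continuous_apply k).comp continuous_snd)
  unfold bm
  apply Continuous.prodMk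
  · apply continuous_pi
    intro l
    apply continuous_pi
    intro a
    unfold Matrix.mulVec dotProduct
    apply continuous_finset_sum
    intro b _
    apply Continuous.mul
    · have h1 : Continuous fun q : (Fin n → Tor) × (Fin (M + 1) → ℂ) => pb (q.1 l) :=
        pb_continuous.comp ((continuous_apply l).comp continuous_fst)
      exact (continuous_apply b).comp ((continuous_apply a).comp h1)
    · exact hmv _
  · apply continuous_pi
    intro j
    exact hmv _

theorem smooth_obstruction' (V : (Fin n → Tor) → Matrix (Fin n × Fin 2 ⊕ Fin M) (Fin (M + 1)) ℂ)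
    (hV : ∀ a i, ContDiff ℝ 3 fun x : Fin n → ℝ × ℝ => V (fun k => tq (x k)) a i) :
    ∃ (z : Fin n → Tor) (w : Fin (M + 1) → ℂ), ‖w‖ = 1 ∧ bm z (V z) w = 0 := by
  obtain ⟨x, w, hw, hs⟩ := smooth_obstruction V hV
  have hbm : bm (fun k => tq (x k)) (V fun k => tq (x k)) w = 0 := by
    unfold bm
    rw [Prod.mk_eq_zero]
    constructor
    · funext l
      have h1 := congrFun hs (Sum.inl l)
      exact pb_mulVec_eq_zero _ _ _ h1
    · funext j
      have h1 := congrFun hs (Sum.inr j)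
      exact h1
  refine ⟨fun k => tq (x k), ((‖w‖ : ℂ)⁻¹) • w, ?_, bm_smul _ _ _ _ hbm⟩
  rw [norm_smul, norm_inv, Complex.norm_real, norm_norm,
    inv_mul_cancel₀ (norm_pos_iff.mpr hw).ne']

theorem torus_obstruction
    (V : (Fin n → Tor) → Matrix (Fin n × Fin 2 ⊕ Fin M) (Fin (M + 1)) ℂ)
    (hV : Continuous V) :
    ∃ (z : Fin n → Tor) (w : Fin (M + 1) → ℂ), w ≠ 0 ∧ bm z (V z) w = 0 := by
  by_contra hcon
  push Not at hcon
  have hG := bm_continuous V hV
  have hVe : ∀ a i, Continuous fun z => V z a i := fun a i =>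
    (continuous_apply i).comp ((continuous_apply a).comp hV)
  have hK : IsCompact ((Set.univ : Set (Fin n → Tor)) ×ˢ
      Metric.sphere (0 : Fin (M + 1) → ℂ) 1) := isCompact_univ.prod (isCompact_sphere _ _)
  have hne : ((Set.univ : Set (Fin n → Tor)) ×ˢ
      Metric.sphere (0 : Fin (M + 1) → ℂ) 1).Nonempty := by
    refine ⟨(fun _ => (0, 0), fun _ => 1), Set.mem_univ _, ?_⟩
    rw [mem_sphere_zero_iff_norm]
    simp
  obtain ⟨q0, hq0, hmin⟩ := hK.exists_isMinOn hne hG.norm.continuousOn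
  obtain ⟨δ, hδ⟩ : ∃ δ, δ = ‖bm q0.1 (V q0.1) q0.2‖ := ⟨_, rfl⟩
  have hδpos : 0 < δ := by
    rw [hδ, norm_pos_iff]
    apply hcon
    intro h0
    have := hq0.2
    rw [h0] at this
    simp at this
  have hmin' : ∀ q : (Fin n → Tor) × (Fin (M + 1) → ℂ), ‖q.2‖ = 1 → δ ≤ ‖bm q.1 (V q.1) q.2‖ := by
    intro q hq
    rw [hδ]
    refine isMinOn_iff.mp hmin q ⟨Set.mem_univ _, ?_⟩
    rw [mem_sphere_zero_iff_norm]
    exact hq
  obtain ⟨C, hC0, hC⟩ := pb_bound
  obtain ⟨ε, hε⟩ : ∃ ε, ε = δ / (2 * (2 * C + 1) * (M + 1)) := ⟨_, rfl⟩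
  have hεpos : 0 < ε := by rw [hε]; positivity
  have hex : ∀ a i, ∃ h' : C(Fin n → Tor, ℂ),
      (ContDiff ℝ 3 fun x : Fin n → ℝ × ℝ => h' fun i => tq (x i)) ∧
      ∀ z, ‖V z a i - h' z‖ < ε := fun a i =>
    smooth_approx ⟨fun z => V z a i, hVe a i⟩ hεpos
  choose h' hh1 hh2 using hex
  obtain ⟨z, w, hw, hs⟩ := smooth_obstruction' (fun z a i => h' a i z) (fun a i => hh1 a i)
  have hsmall := bm_sub_le hC0 hC hεpos.le z (V z) (fun a i => h' a i z)
    (fun a i => (hh2 a i z).le) w hw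
  rw [hs, sub_zero] at hsmall
  have hge := hmin' (z, w) hw
  have hfin : (2 * C + 1) * ((M + 1) * ε) = δ / 2 := by
    rw [hε]
    field_simp
  rw [hfin] at hsmall
  simp only at hge
  linarith

end

end Vale.Agent.P093
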