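import Vale.Agent.P093.Curv
import Vale.Agent.P093.Frame
import Mathlib.Analysis.Fourier.AddCircle
import Mathlib.Topology.ContinuousMap.StoneWeierstrass
import Mathlib.Algebra.Polynomial.BigOperators

/-!
Topological obstruction: a sum of `n` line bundles of degree one over independent two-tori and a
trivial bundle of rank `M` does not have `M + 1` independent sections.
-/

open scoped ContDiff

namespace Vale.Agent.P093

noncomputable section

section Poly

/-- the polynomial with prescribed linear factors -/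
def lpT {M : ℕ} (α β : Fin M → ℂ) (s : Finset (Fin M)) : Polynomial ℂ :=
  ∏ j ∈ s, (Polynomial.C (α j) + Polynomial.C (β j) * Polynomial.X)

/-- coefficient vector -/
def wv {M : ℕ} (α β : Fin M → ℂ) (i : Fin (M + 1)) : ℂ := (lpT α β Finset.univ).coeff i

theorem lp_ne_zero {M : ℕ} {α β : Fin M → ℂ} (h : ∀ j, α j ≠ 0 ∨ β j ≠ 0)
    (s : Finset (Fin M)) : lpT α β s ≠ 0 := by
  unfold lpT
  rw [Finset.prod_ne_zero_iff]
  intro j _ h0
  have h1 := congrArg (fun p => p.coeff 0) h0
  have h2 := congrArg (fun p => p.coeff 1) h0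
  simp [Polynomial.coeff_C] at h1 h2
  rcases h j with h | h
  · exact h h1
  · exact h h2

theorem wv_ne_zero {M : ℕ} {α β : Fin M → ℂ} (h : ∀ j, α j ≠ 0 ∨ β j ≠ 0) : wv α β ≠ 0 := by
  intro h0
  apply lp_ne_zero h Finset.univ
  ext i
  by_cases hi : i < M + 1
  · exact congrFun h0 ⟨i, hi⟩
  · rw [Polynomial.coeff_zero]
    apply Polynomial.coeff_eq_zero_of_natDegree_lt
    have : (lpT α β Finset.univ).natDegree ≤ M := by
      unfold lpT
      refine (Polynomial.natDegree_prod_le _ _).trans ?_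
      have : ∀ j ∈ (Finset.univ : Finset (Fin M)),
          (Polynomial.C (α j) + Polynomial.C (β j) * Polynomial.X).natDegree ≤ 1 := by
        intro j _
        rw [add_comm]
        exact Polynomial.natDegree_linear_le
      refine (Finset.sum_le_sum this).trans ?_
      simp
    omega

theorem lp_coeff_contDiff {E : Type*} [NormedAddCommGroup E] [NormedSpace ℝ E] {M : ℕ}
    {n : WithTop ℕ∞}
    {α β : E → Fin M → ℂ} (hα : ∀ j, ContDiff ℝ n fun x => α x j)
    (hβ : ∀ j, ContDiff ℝ n fun x => β x j) (s : Finset (Fin M)) (i : ℕ) :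
    ContDiff ℝ n fun x => (lpT (α x) (β x) s).coeff i := by
  induction s using Finset.induction_on generalizing i with
  | empty =>
    simp only [lpT, Finset.prod_empty]
    exact contDiff_const
  | insert j s hj ih =>
    have h1 : ∀ x, (lpT (α x) (β x) (insert j s)).coeff i =
        α x j * (lpT (α x) (β x) s).coeff i +
        β x j * (if i = 0 then 0 else (lpT (α x) (β x) s).coeff (i - 1)) := by
      intro x
      unfold lpT
      rw [Finset.prod_insert hj, add_mul, Polynomial.coeff_add, Polynomial.coeff_C_mul, mul_assoc,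
        Polynomial.coeff_C_mul]
      congr 2
      rcases i with _ | i
      · simp
      · rw [Polynomial.coeff_X_mul]
        simp
    simp only [h1]
    apply ContDiff.add
    · exact (hα j).mul (ih i)
    · apply (hβ j).mul
      by_cases hi : i = 0
      · simp only [hi, if_true]; exact contDiff_const
      · simp only [hi, if_false]; exact ih _

/-- homogeneity of the coefficient vector in each factor -/
theorem wv_phase {M : ℕ} (α β α' β' : Fin M → ℂ) (k : Fin M) (c : ℂ)
    (hk : α' k = c * α k ∧ β' k = c * β k) (hne : ∀ j, j ≠ k → α' j = α j ∧ β' j = β j)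
    (i : Fin (M + 1)) : wv α' β' i = c * wv α β i := by
  unfold wv lpT
  rw [← Finset.mul_prod_erase _ _ (Finset.mem_univ k), ← Finset.mul_prod_erase _ (fun j =>
    (Polynomial.C (α j) + Polynomial.C (β j) * Polynomial.X)) (Finset.mem_univ k)]
  have h1 : ∏ j ∈ Finset.univ.erase k, (Polynomial.C (α' j) + Polynomial.C (β' j) * Polynomial.X) =
      ∏ j ∈ Finset.univ.erase k, (Polynomial.C (α j) + Polynomial.C (β j) * Polynomial.X) := by
    apply Finset.prod_congr rfl
    intro j hj
    rw [(hne j (Finset.ne_of_mem_erase hj)).1, (hne j (Finset.ne_of_mem_erase hj)).2]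
  rw [h1, hk.1, hk.2, ← Polynomial.coeff_C_mul]
  congr 1
  rw [map_mul, map_mul]
  ring

end Poly

section Approx

/-- the covering map from the plane -/
def tq (q : ℝ × ℝ) : Tor := ((q.1 : UnitAddCircle), (q.2 : UnitAddCircle))

/-- smooth functions on a product of tori -/
def smoothAlg (n : ℕ) : StarSubalgebra ℂ C(Fin n → Tor, ℂ) where
  carrier := {h | ContDiff ℝ 3 fun x : Fin n → ℝ × ℝ => h fun i => tq (x i)}
  mul_mem' := fun {a b} ha hb => by
    have ha' : ContDiff ℝ 3 fun x : Fin n → ℝ × ℝ => a fun i => tq (x i) := ha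
    have hb' : ContDiff ℝ 3 fun x : Fin n → ℝ × ℝ => b fun i => tq (x i) := hb
    exact ha'.mul hb'
  one_mem' := (contDiff_const : ContDiff ℝ 3 fun _ : Fin n → ℝ × ℝ => (1 : ℂ))
  add_mem' := fun {a b} ha hb => by
    have ha' : ContDiff ℝ 3 fun x : Fin n → ℝ × ℝ => a fun i => tq (x i) := ha
    have hb' : ContDiff ℝ 3 fun x : Fin n → ℝ × ℝ => b fun i => tq (x i) := hb
    exact ha'.add hb'
  zero_mem' := (contDiff_const : ContDiff ℝ 3 fun _ : Fin n → ℝ × ℝ => (0 : ℂ))
  algebraMap_mem' := fun r => (contDiff_const : ContDiff ℝ 3 fun _ : Fin n → ℝ × ℝ => r)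
  star_mem' := fun {a} ha => by
    have h : ContDiff ℝ 3 ((fun z : ℂ => Complex.conjCLE z) ∘
      (fun x : Fin n → ℝ × ℝ => a fun i => tq (x i))) := Complex.conjCLE.contDiff.comp ha
    exact h

theorem smoothAlg_sep (n : ℕ) : (smoothAlg n).SeparatesPoints := by
  intro z z' hzz
  rw [Ne, funext_iff, not_forall] at hzz
  obtain ⟨i, hi⟩ := hzz
  have hf : ∀ a b : UnitAddCircle, a ≠ b → fourier 1 a ≠ fourier 1 b := by
    intro a b hab h
    apply hab
    rw [fourier_one, fourier_one] at h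
    exact AddCircle.injective_toCircle one_ne_zero (Circle.coe_injective h)
  have hsm : ContDiff ℝ 3 (fun y : ℝ => (fourier 1 : C(UnitAddCircle, ℂ)) (y : UnitAddCircle)) := by
    have : (fun y : ℝ => (fourier 1 : C(UnitAddCircle, ℂ)) (y : UnitAddCircle)) =
        fun y : ℝ => Complex.exp (2 * Real.pi * Complex.I * y) := by
      funext y
      rw [fourier_coe_apply]
      congr 1
      push_cast
      ring
    rw [this]
    exact (contDiff_const.mul Complex.ofRealCLM.contDiff).cexp
  by_cases h1 : (z i).1 = (z' i).1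
  · have h2 : (z i).2 ≠ (z' i).2 := fun h => hi (Prod.ext h1 h)
    refine ⟨_, ⟨⟨fun z => fourier 1 (z i).2, by fun_prop⟩, ?_, rfl⟩, ?_⟩
    · change ContDiff ℝ 3 fun x : Fin n → ℝ × ℝ =>
        (fourier 1 : C(UnitAddCircle, ℂ)) ((x i).2 : UnitAddCircle)
      have h3 : ContDiff ℝ 3 fun x : Fin n → ℝ × ℝ => (x i).2 :=
        contDiff_snd.comp (contDiff_apply ℝ (ℝ × ℝ) i)
      exact hsm.comp h3
    · exact hf _ _ h2
  · refine ⟨_, ⟨⟨fun z => fourier 1 (z i).1, by fun_prop⟩, ?_, rfl⟩, ?_⟩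
    · change ContDiff ℝ 3 fun x : Fin n → ℝ × ℝ =>
        (fourier 1 : C(UnitAddCircle, ℂ)) ((x i).1 : UnitAddCircle)
      have h3 : ContDiff ℝ 3 fun x : Fin n → ℝ × ℝ => (x i).1 :=
        contDiff_fst.comp (contDiff_apply ℝ (ℝ × ℝ) i)
      exact hsm.comp h3
    · exact hf _ _ h1

/-- uniform approximation by smooth functions -/
theorem smooth_approx {n : ℕ} (h : C(Fin n → Tor, ℂ)) {ε : ℝ} (hε : 0 < ε) :
    ∃ h' : C(Fin n → Tor, ℂ), (ContDiff ℝ 3 fun x : Fin n → ℝ × ℝ => h' fun i => tq (x i)) ∧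
      ∀ z, ‖h z - h' z‖ < ε := by
  have htop := ContinuousMap.starSubalgebra_topologicalClosure_eq_top_of_separatesPoints
    (smoothAlg n) (smoothAlg_sep n)
  have hmem : h ∈ (smoothAlg n).topologicalClosure := by rw [htop]; trivial
  have hcl : h ∈ closure ((smoothAlg n : StarSubalgebra ℂ C(Fin n → Tor, ℂ)) :
      Set C(Fin n → Tor, ℂ)) := hmem
  rw [Metric.mem_closure_iff] at hcl
  obtain ⟨h', hh', hd⟩ := hcl ε hε
  refine ⟨h', hh', fun z => ?_⟩
  rw [dist_eq_norm] at hd
  exact lt_of_le_of_lt ((h - h').norm_coe_le_norm z) hd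

end Approx

section Coords

variable {n M N : ℕ} (σ : Fin (n + M) × Fin 2 ≃ Fin (N + 1))

/-- index of the first coordinate -/
def cX (j : Fin (n + M)) : Fin (N + 1) := σ (j, 0)

/-- index of the second coordinate -/
def cY (j : Fin (n + M)) : Fin (N + 1) := σ (j, 1)

theorem cX_inj : Function.Injective (cX σ) := by
  intro a b hab
  have := σ.injective hab
  exact (Prod.ext_iff.mp this).1

theorem cY_inj : Function.Injective (cY σ) := by
  intro a b hab
  have := σ.injective hab
  exact (Prod.ext_iff.mp this).1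

theorem cX_ne_cY (j j' : Fin (n + M)) : cX σ j ≠ cY σ j' := by
  intro hab
  have := σ.injective hab
  have h2 := (Prod.ext_iff.mp this).2
  simp at h2

theorem cXY_surj (i : Fin (N + 1)) : (∃ j, i = cX σ j) ∨ ∃ j, i = cY σ j := by
  obtain ⟨⟨j, c⟩, rfl⟩ := σ.surjective i
  fin_cases c
  · exact Or.inl ⟨j, rfl⟩
  · exact Or.inr ⟨j, rfl⟩

/-- base coordinates -/
def zc (x : Fin (N + 1) → ℝ) (l : Fin n) : ℝ × ℝ :=
  (x (cX σ (Fin.castAdd M l)), x (cY σ (Fin.castAdd M l)))

/-- coefficients of the linear factors -/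
def abc (a : Fin 2) (x : Fin (N + 1) → ℝ) (j : Fin M) : ℂ :=
  frU (x (cX σ (Fin.natAdd n j))) (x (cY σ (Fin.natAdd n j))) a

/-- the parameter vector -/
def wc (x : Fin (N + 1) → ℝ) : Fin (M + 1) → ℂ := wv (abc σ 0 x) (abc σ 1 x)

theorem wc_ne_zero (x : Fin (N + 1) → ℝ) : wc σ x ≠ 0 := by
  apply wv_ne_zero
  intro j
  by_contra hcon
  push Not at hcon
  apply frU_ne_zero (x (cX σ (Fin.natAdd n j))) (x (cY σ (Fin.natAdd n j)))
  funext a
  fin_cases a
  · exact hcon.1
  · exact hcon.2

theorem zc_contDiff : ContDiff ℝ 3 (zc σ : (Fin (N + 1) → ℝ) → Fin n → ℝ × ℝ) := by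
  rw [contDiff_pi]
  intro l
  exact (contDiff_apply ℝ ℝ _).prodMk (contDiff_apply ℝ ℝ _)

theorem frU_coord_contDiff (j j' : Fin (N + 1)) (a : Fin 2) :
    ContDiff ℝ 3 fun x : Fin (N + 1) → ℝ => frU (x j) (x j') a := by
  have h1 : ContDiff ℝ 3 fun x : Fin (N + 1) → ℝ => (x j, x j') :=
    (contDiff_apply ℝ ℝ _).prodMk (contDiff_apply ℝ ℝ _)
  have h2 := (frU_contDiff (n := 3) a).comp h1
  exact h2

theorem wc_contDiff (i : Fin (M + 1)) : ContDiff ℝ 3 fun x => wc σ x i := by
  have h := lp_coeff_contDiff (n := 3) (α := abc σ 0) (β := abc σ 1)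
    (fun j => frU_coord_contDiff _ _ 0) (fun j => frU_coord_contDiff _ _ 1)
    Finset.univ (i : ℕ)
  exact h

theorem zc_X (j : Fin (n + M)) (x : Fin (N + 1) → ℝ) (k : Fin n) :
    tq (zc σ (x + Pi.single (cX σ j) 1) k) = tq (zc σ x k) := by
  simp only [zc, tq, Pi.add_apply]
  rw [Pi.single_eq_of_ne (cX_ne_cY σ _ _).symm, add_zero]
  by_cases h : Fin.castAdd M k = j
  · subst h
    rw [Pi.single_eq_same]
    simp
  · rw [Pi.single_eq_of_ne (fun hh => h (cX_inj σ hh)), add_zero]

theorem zc_Y (j : Fin (n + M)) (x : Fin (N + 1) → ℝ) (k : Fin n) :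
    tq (zc σ (x + Pi.single (cY σ j) 1) k) = tq (zc σ x k) := by
  simp only [zc, tq, Pi.add_apply]
  rw [Pi.single_eq_of_ne (cX_ne_cY σ _ _), add_zero]
  by_cases h : Fin.castAdd M k = j
  · subst h
    rw [Pi.single_eq_same]
    simp
  · rw [Pi.single_eq_of_ne (fun hh => h (cY_inj σ hh)), add_zero]

theorem frU_X (j : Fin (n + M)) (x : Fin (N + 1) → ℝ) (k : Fin (n + M)) :
    frU ((x + Pi.single (cX σ j) 1 : Fin (N + 1) → ℝ) (cX σ k))
      ((x + Pi.single (cX σ j) 1 : Fin (N + 1) → ℝ) (cY σ k)) =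
    frU (x (cX σ k)) (x (cY σ k)) := by
  simp only [Pi.add_apply]
  rw [Pi.single_eq_of_ne (cX_ne_cY σ _ _).symm, add_zero]
  by_cases h : k = j
  · subst h
    rw [Pi.single_eq_same, frU_add_x]
  · rw [Pi.single_eq_of_ne (fun hh => h (cX_inj σ hh)), add_zero]

theorem frU_Y (j : Fin (n + M)) (x : Fin (N + 1) → ℝ) (k : Fin (n + M)) (a : Fin 2) :
    frU ((x + Pi.single (cY σ j) 1 : Fin (N + 1) → ℝ) (cX σ k))
      ((x + Pi.single (cY σ j) 1 : Fin (N + 1) → ℝ) (cY σ k)) a =
    (if k = j then Complex.exp (2 * Real.pi * Complex.I * (x (cX σ j))) else 1) *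
      frU (x (cX σ k)) (x (cY σ k)) a := by
  simp only [Pi.add_apply]
  rw [Pi.single_eq_of_ne (cX_ne_cY σ _ _), add_zero]
  by_cases h : k = j
  · subst h
    rw [Pi.single_eq_same, frU_add_y]
    simp
  · rw [Pi.single_eq_of_ne (fun hh => h (cY_inj σ hh)), add_zero]
    simp [h]

theorem wc_X (j : Fin (n + M)) (x : Fin (N + 1) → ℝ) :
    wc σ (x + Pi.single (cX σ j) 1) = wc σ x := by
  simp only [wc]
  congr 1
  · funext k; simp only [abc]; rw [frU_X]
  · funext k; simp only [abc]; rw [frU_X]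

theorem castAdd_ne_natAdd (k : Fin n) (j : Fin M) : Fin.castAdd M k ≠ Fin.natAdd n j := by
  intro hh
  have := congrArg Fin.val hh
  simp at this
  omega

theorem wc_Y1 (j : Fin n) (x : Fin (N + 1) → ℝ) :
    wc σ (x + Pi.single (cY σ (Fin.castAdd M j)) 1) = wc σ x := by
  simp only [wc]
  congr 1
  · funext k; simp only [abc]; rw [frU_Y, if_neg (castAdd_ne_natAdd _ _).symm, one_mul]
  · funext k; simp only [abc]; rw [frU_Y, if_neg (castAdd_ne_natAdd _ _).symm, one_mul]

theorem wc_Y2 (j : Fin M) (x : Fin (N + 1) → ℝ) (i : Fin (M + 1)) :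
    wc σ (x + Pi.single (cY σ (Fin.natAdd n j)) 1) i =
      Complex.exp (2 * Real.pi * Complex.I * (x (cX σ (Fin.natAdd n j)))) * wc σ x i := by
  unfold wc
  apply wv_phase _ _ _ _ j
  · constructor
    · simp only [abc]
      rw [frU_Y, if_pos rfl]
    · simp only [abc]
      rw [frU_Y, if_pos rfl]
  · intro k hk
    have hne : Fin.natAdd n k ≠ Fin.natAdd n j := by
      intro hh
      apply hk
      have := congrArg Fin.val hh
      simp at this
      exact Fin.ext this
    constructor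
    · simp only [abc]
      rw [frU_Y, if_neg hne, one_mul]
    · simp only [abc]
      rw [frU_Y, if_neg hne, one_mul]

theorem degM_left (l' j' : Fin n) :
    degM n M (Fin.castAdd M l') (Fin.castAdd M j') = if l' = j' then -1 else 0 := by
  unfold degM
  rw [if_pos (by simp)]
  by_cases h : l' = j'
  · subst h; simp
  · have : Fin.castAdd M l' ≠ Fin.castAdd M j' := by
      intro hh
      apply h
      have := congrArg Fin.val hh
      simp at this
      exact Fin.ext this
    simp [h, this]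

theorem degM_right (l' : Fin M) (j' : Fin n) :
    degM n M (Fin.natAdd n l') (Fin.castAdd M j') = 0 := by
  unfold degM
  rw [if_pos (by simp), if_neg]
  exact (castAdd_ne_natAdd _ _).symm

theorem degM_nat (l : Fin (n + M)) (j' : Fin M) : degM n M l (Fin.natAdd n j') = 1 := by
  unfold degM
  rw [if_neg]
  simp

end Coords

section Main

variable {n M N : ℕ}

/-- the section attached to a matrix-valued function and a vector -/
def sec (V : (Fin n → Tor) → Matrix (Fin n × Fin 2 ⊕ Fin M) (Fin (M + 1)) ℂ)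
    (z : Fin n → ℝ × ℝ) (w : Fin (M + 1) → ℂ) : Fin n ⊕ Fin M → ℂ
  | Sum.inl l => ∑ a, (starRingEnd ℂ) (frU (z l).1 (z l).2 a) *
      ∑ i, V (fun k => tq (z k)) (Sum.inl (l, a)) i * w i
  | Sum.inr j => ∑ i, V (fun k => tq (z k)) (Sum.inr j) i * w i

/-- the sections as functions of all coordinates -/
def ff (V : (Fin n → Tor) → Matrix (Fin n × Fin 2 ⊕ Fin M) (Fin (M + 1)) ℂ)
    (σ : Fin (n + M) × Fin 2 ≃ Fin (N + 1)) (l : Fin (n + M)) (x : Fin (N + 1) → ℝ) : ℂ :=
  sec V (zc σ x) (wc σ x) (finSumFinEquiv.symm l)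

theorem conj_contDiff {E : Type*} [NormedAddCommGroup E] [NormedSpace ℝ E] {g : E → ℂ}
    {n : WithTop ℕ∞} (hg : ContDiff ℝ n g) : ContDiff ℝ n fun x => (starRingEnd ℂ) (g x) := by
  have h : ContDiff ℝ n ((fun z : ℂ => Complex.conjCLE z) ∘ g) :=
    Complex.conjCLE.contDiff.comp hg
  exact h

theorem ff_contDiff {V : (Fin n → Tor) → Matrix (Fin n × Fin 2 ⊕ Fin M) (Fin (M + 1)) ℂ}
    (hV : ∀ a i, ContDiff ℝ 3 fun x : Fin n → ℝ × ℝ => V (fun k => tq (x k)) a i)
    (σ : Fin (n + M) × Fin 2 ≃ Fin (N + 1)) (l : Fin (n + M)) : ContDiff ℝ 3 (ff V σ l) := by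
  have hVs : ∀ a i, ContDiff ℝ 3 fun x : Fin (N + 1) → ℝ => V (fun k => tq (zc σ x k)) a i :=
    fun a i => (hV a i).comp (zc_contDiff σ)
  have hVw : ∀ a, ContDiff ℝ 3 fun x : Fin (N + 1) → ℝ =>
      ∑ i, V (fun k => tq (zc σ x k)) a i * wc σ x i := by
    intro a
    apply ContDiff.sum
    intro i _
    exact (hVs a i).mul (wc_contDiff σ i)
  obtain ⟨l', rfl⟩ := finSumFinEquiv.surjective l
  unfold ff
  simp only [Equiv.symm_apply_apply]
  rcases l' with l' | l'
  · simp only [sec]
    apply ContDiff.sum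
    intro a _
    exact (conj_contDiff (frU_coord_contDiff _ _ a)).mul (hVw _)
  · simp only [sec]
    exact hVw _

theorem ff_X (V : (Fin n → Tor) → Matrix (Fin n × Fin 2 ⊕ Fin M) (Fin (M + 1)) ℂ)
    (σ : Fin (n + M) × Fin 2 ≃ Fin (N + 1)) (l j : Fin (n + M)) (x : Fin (N + 1) → ℝ) :
    ff V σ l (x + Pi.single (cX σ j) 1) = ff V σ l x := by
  obtain ⟨l', rfl⟩ := finSumFinEquiv.surjective l
  simp only [ff, Equiv.symm_apply_apply, wc_X]
  rcases l' with l' | l'
  · simp only [sec, zc_X]
    apply Finset.sum_congr rfl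
    intro a _
    congr 2
    simp only [zc]
    rw [frU_X]
  · simp only [sec, zc_X]

theorem ff_Y (V : (Fin n → Tor) → Matrix (Fin n × Fin 2 ⊕ Fin M) (Fin (M + 1)) ℂ)
    (σ : Fin (n + M) × Fin 2 ≃ Fin (N + 1)) (l j : Fin (n + M)) (x : Fin (N + 1) → ℝ) :
    ff V σ l (x + Pi.single (cY σ j) 1) =
      Complex.exp (2 * Real.pi * Complex.I * (degM n M l j : ℤ) * (x (cX σ j))) * ff V σ l x := by
  obtain ⟨j', rfl⟩ := finSumFinEquiv.surjective j
  obtain ⟨l', rfl⟩ := finSumFinEquiv.surjective l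
  rcases j' with j' | j'
  · simp only [finSumFinEquiv_apply_left]
    simp only [ff, Equiv.symm_apply_apply, wc_Y1]
    rcases l' with l' | l'
    · simp only [finSumFinEquiv_apply_left]
      simp only [sec, zc_Y]
      rw [degM_left, Finset.mul_sum]
      apply Finset.sum_congr rfl
      intro a _
      simp only [zc]
      rw [frU_Y]
      by_cases h : l' = j'
      · subst h
        simp only [if_true, map_mul]
        rw [← mul_assoc]
        congr 2
        rw [← Complex.exp_conj]
        congr 1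
        simp only [map_mul, Complex.conj_ofReal, Complex.conj_I]
        push_cast
        have : (starRingEnd ℂ) 2 = 2 := Complex.conj_ofNat 2
        rw [this]
        ring
      · have hne : Fin.castAdd M l' ≠ Fin.castAdd M j' := by
          intro hh
          apply h
          have := congrArg Fin.val hh
          simp at this
          exact Fin.ext this
        simp [h, hne]
    · simp only [finSumFinEquiv_apply_right]
      simp only [sec, zc_Y]
      rw [degM_right]
      simp
  · simp only [finSumFinEquiv_apply_right]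
    rw [degM_nat]
    simp only [ff, Equiv.symm_apply_apply, Int.cast_one, mul_one]
    rcases l' with l' | l'
    · simp only [sec, zc_Y, wc_Y2]
      rw [Finset.mul_sum]
      apply Finset.sum_congr rfl
      intro a _
      simp only [zc]
      rw [frU_Y, if_neg (castAdd_ne_natAdd _ _), one_mul, mul_left_comm]
      congr 1
      rw [Finset.mul_sum]
      apply Finset.sum_congr rfl
      intro i _
      ring
    · simp only [sec, zc_Y, wc_Y2]
      rw [Finset.mul_sum]
      apply Finset.sum_congr rfl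
      intro i _
      ring

theorem smooth_obstruction
    (V : (Fin n → Tor) → Matrix (Fin n × Fin 2 ⊕ Fin M) (Fin (M + 1)) ℂ)
    (hV : ∀ a i, ContDiff ℝ 3 fun x : Fin n → ℝ × ℝ => V (fun k => tq (x k)) a i) :
    ∃ (z : Fin n → ℝ × ℝ) (w : Fin (M + 1) → ℂ), w ≠ 0 ∧ sec V z w = 0 := by
  rcases Nat.eq_zero_or_pos (n + M) with h0 | hpos
  · have hn : n = 0 := by omega
    have hM : M = 0 := by omega
    subst hn hM
    refine ⟨fun _ => 0, fun _ => 1, ?_, ?_⟩
    · intro h
      have := congrFun h 0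
      simp at this
    · funext l
      rcases l with l | l
      · exact l.elim0
      · exact l.elim0
  · obtain ⟨N, hN⟩ : ∃ N, N + 1 = (n + M) * 2 := ⟨(n + M) * 2 - 1, by omega⟩
    let σ : Fin (n + M) × Fin 2 ≃ Fin (N + 1) := finProdFinEquiv.trans (finCongr hN.symm)
    obtain ⟨Λ, i1, i2, i3, e, he, hprod⟩ := exists_ext σ
    have hq : ∀ l, Quasi (cX σ) (cY σ) (degM n M l) (ff V σ l) :=
      fun l => ⟨ff_contDiff hV σ l, ff_X V σ l, ff_Y V σ l⟩
    have hcurv := curv_prod_ne_zero σ he hprod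
    obtain ⟨x, hx⟩ := exists_common_zero he (cY_inj σ) (cX_ne_cY σ) (cXY_surj σ) (degM n M)
      (ff V σ) hq hcurv
    refine ⟨zc σ x, wc σ x, wc_ne_zero σ x, ?_⟩
    funext l
    have := hx (finSumFinEquiv l)
    unfold ff at this
    rw [Equiv.symm_apply_apply] at this
    exact this

end Main

end

end Vale.Agent.P093
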